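import Claimed.Agent.R280.Tw.Pt
import Claimed.Agent.R280.Ell.Main

/-!
# Row 280, Tw/Red: toolbox for `RedPt` / `RedCurve` (PROVED from Ell8): reduction is a group homomorphism
-/

set_option autoImplicit false

namespace Claimed.Agent.R280

open WithZero WeierstrassCurve
open scoped Classical

section Red

variable {L F : Type} [Field L] [Field F] {v : Valuation L ℚᵐ⁰} {r : ResMap v F}
  {Wt : WeierstrassCurve L} {W0 : WeierstrassCurve F}

theorem resA_eq_res (r : ResMap v F) (a : L) : resA v.valuationSubring r.toHom a = r.res a := by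
  unfold resA ResMap.res
  by_cases h : v a ≤ 1
  · rw [dif_pos h, dif_pos ((Valuation.mem_valuationSubring_iff v a).2 h)]
  · rw [dif_neg h, dif_neg (fun h' => h ((Valuation.mem_valuationSubring_iff v a).1 h'))]

theorem redCurve_iff : RedCurve v r Wt W0 ↔ RedCurveA v.valuationSubring r.toHom Wt W0 := by
  simp only [RedCurve, RedCurveA, resA_eq_res, Valuation.mem_valuationSubring_iff]

theorem redPt_iff {Q : Wt.toAffine.Point} {Qb : W0.toAffine.Point} :
    RedPt v r Q Qb ↔ RedPtA v.valuationSubring r.toHom Q Qb := by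
  rcases Q with _ | ⟨a, b, h⟩ <;> rcases Qb with _ | ⟨a', b', h'⟩ <;>
    simp only [RedPt, RedPtA, resA_eq_res, Valuation.mem_valuationSubring_iff, not_le]

theorem ResMap.ker_iff (r : ResMap v F) (a : v.valuationSubring) :
    r.toHom a = 0 ↔ a ∈ IsLocalRing.maximalIdeal v.valuationSubring := by
  rw [IsLocalRing.mem_maximalIdeal, mem_nonunits_iff]
  constructor
  · intro h hu
    have := hu.map r.toHom
    rw [h] at this
    exact not_isUnit_zero this
  · intro h
    by_contra h0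
    apply h
    have h1 : ¬ v (a : L) < 1 := fun h' => h0 ((r.ker a).2 h')
    have h2 : v (a : L) = 1 :=
      le_antisymm ((Valuation.mem_valuationSubring_iff v _).1 a.2) (not_lt.1 h1)
    have ha0 : (a : L) ≠ 0 := fun h' => by rw [h', map_zero] at h2; exact zero_ne_one h2
    refine IsUnit.of_mul_eq_one ⟨(a : L)⁻¹, (Valuation.mem_valuationSubring_iff v _).2 ?_⟩ ?_
    · rw [map_inv₀, h2, inv_one]
    · ext; simp [ha0]

theorem RedPt.add (hW : RedCurve v r Wt W0) (hΔ : W0.Δ ≠ 0) {Q Q' : Wt.toAffine.Point}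
    {Qb Qb' : W0.toAffine.Point} (h : RedPt v r Q Qb) (h' : RedPt v r Q' Qb') :
    RedPt v r (Q + Q') (Qb + Qb') :=
  redPt_iff.2 (RedPtA.add _ _ r.ker_iff (redCurve_iff.1 hW) hΔ (redPt_iff.1 h) (redPt_iff.1 h'))

theorem RedPt.neg (hW : RedCurve v r Wt W0) {Q : Wt.toAffine.Point} {Qb : W0.toAffine.Point}
    (h : RedPt v r Q Qb) : RedPt v r (-Q) (-Qb) :=
  redPt_iff.2 (RedPtA.neg _ _ r.ker_iff (redCurve_iff.1 hW) (redPt_iff.1 h))

theorem RedPt.sub (hW : RedCurve v r Wt W0) (hΔ : W0.Δ ≠ 0) {Q Q' : Wt.toAffine.Point}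
    {Qb Qb' : W0.toAffine.Point} (h : RedPt v r Q Qb) (h' : RedPt v r Q' Qb') :
    RedPt v r (Q - Q') (Qb - Qb') := by
  rw [sub_eq_add_neg, sub_eq_add_neg]; exact h.add hW hΔ (h'.neg hW)

theorem RedPt.zero : RedPt v r (0 : Wt.toAffine.Point) (0 : W0.toAffine.Point) := trivial

theorem RedPt.nsmul (hW : RedCurve v r Wt W0) (hΔ : W0.Δ ≠ 0) {Q : Wt.toAffine.Point}
    {Qb : W0.toAffine.Point} (h : RedPt v r Q Qb) (j : ℕ) : RedPt v r (j • Q) (j • Qb) := by
  induction j with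
  | zero => simpa using RedPt.zero
  | succ j ih => rw [succ_nsmul, succ_nsmul]; exact ih.add hW hΔ h

theorem RedPt.unique {Q : Wt.toAffine.Point} {Qb Qb' : W0.toAffine.Point} (h : RedPt v r Q Qb)
    (h' : RedPt v r Q Qb') : Qb = Qb' := by
  rcases Q with _ | ⟨a, b, hab⟩ <;> rcases Qb with _ | ⟨a₁, b₁, h₁⟩ <;>
    rcases Qb' with _ | ⟨a₂, b₂, h₂⟩ <;>
    first | rfl | exact h.elim | exact h'.elim | skip
  · exact absurd h'.1 (not_le.2 h)
  · exact absurd h.1 (not_le.2 h')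
  · obtain ⟨-, -, rfl, rfl⟩ := h
    obtain ⟨-, -, rfl, rfl⟩ := h'
    rfl

theorem RedPt.toA {Q : Wt.toAffine.Point} {Qb : W0.toAffine.Point} :
    RedPt v r Q Qb ↔ RedPtA v.valuationSubring r.toHom Q Qb := redPt_iff

end Red

end Claimed.Agent.R280
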