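import Claimed.Agent.R280.Tw.Pt
import Claimed.Agent.R280.Val.Main

/-!
# Row 280, leaf TW-A2: **A2** spherically complete extension with the same residue side (notes C8).   PROVED (helper196).
`K ⊇ Kb` by `exists_full`, `exists_sph` (the only inputs from Val).  Then the GENERAL lemma `FldBase.exists_unram_ext`: for ANY valued extension `(K, v, r)` of `(Kb, vL, rL)` with the same residue field `F`
there is `B' : FldBase p K` with `B'.R = B.R`, `B'.vL = v`.
Construction: `e_j` = integral lifts of an `F`-basis of `S` = orthonormal `Kb`-basis of `L1` (`a2_exists_basis`) with integral structure constants; on `T := K ⊗_Kb L1` the Gauss norm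
`a2N (∑ a_j ⊗ e_j) = max v (a_j)` is multiplicative because its reduction `a2R : T° → S` is a ring homomorphism to a field (`a2N_mul`); so `T` is a field (`a2_isField`), `a2N` its valuation (`a2Val`), with residue
map ONTO `S` (`a2Res`), restricting to `vL1`, `rL1` on `L1` (`a2N_i1`, `a2R_i1`); `σ' = id ⊗ σ`; Galois by counting automorphisms (`a2_out_of_field`); the points are transported by `ptHom'`.
-/

set_option autoImplicit false

namespace Claimed.Agent.R280

open WithZero WeierstrassCurve Cardinal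
open scoped Classical TensorProduct

/-! ### 1. residue maps -/

section ResBasics

variable {K k : Type} [Field K] [Field k] {v : Valuation K ℚᵐ⁰} (r : ResMap v k)

theorem a2_res_eq {x : K} (h : v x ≤ 1) :
    r.res x = r.toHom ⟨x, (Valuation.mem_valuationSubring_iff v x).2 h⟩ := by
  unfold ResMap.res
  rw [dif_pos h]

theorem a2_res_add {a b : K} (ha : v a ≤ 1) (hb : v b ≤ 1) : r.res (a + b) = r.res a + r.res b := by
  have hab : v (a + b) ≤ 1 := (v.map_add a b).trans (max_le ha hb)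
  rw [a2_res_eq r ha, a2_res_eq r hb, a2_res_eq r hab, ← map_add]
  rfl

theorem a2_res_mul {a b : K} (ha : v a ≤ 1) (hb : v b ≤ 1) : r.res (a * b) = r.res a * r.res b := by
  have hab : v (a * b) ≤ 1 := by
    rw [map_mul]
    exact mul_le_one' ha hb
  rw [a2_res_eq r ha, a2_res_eq r hb, a2_res_eq r hab, ← map_mul]
  rfl

theorem a2_res_zero : r.res 0 = 0 := by
  rw [a2_res_eq r (by simp)]
  exact map_zero r.toHom

theorem a2_res_one : r.res 1 = 1 := by
  rw [a2_res_eq r (by simp)]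
  exact map_one r.toHom

theorem a2_res_eq_zero_iff {a : K} (ha : v a ≤ 1) : r.res a = 0 ↔ v a < 1 := by
  rw [a2_res_eq r ha]
  exact r.ker _

theorem a2_exists_res (c : k) : ∃ a : K, v a ≤ 1 ∧ r.res a = c := by
  obtain ⟨x, hx⟩ := r.surj c
  have h : v (x : K) ≤ 1 := (Valuation.mem_valuationSubring_iff v _).1 x.2
  exact ⟨x, h, by rw [a2_res_eq r h]; exact hx⟩

theorem a2_res_sum {ι : Type} (s : Finset ι) (f : ι → K) (hf : ∀ i ∈ s, v (f i) ≤ 1) :
    r.res (∑ i ∈ s, f i) = ∑ i ∈ s, r.res (f i) := by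
  induction s using Finset.induction_on with
  | empty => simpa using a2_res_zero r
  | insert a s ha ih =>
    rw [Finset.sum_insert ha, Finset.sum_insert ha, a2_res_add r (hf a (Finset.mem_insert_self a s))
      (v.map_sum_le fun i hi => hf i (Finset.mem_insert_of_mem hi)),
      ih fun i hi => hf i (Finset.mem_insert_of_mem hi)]

end ResBasics

/-! ### 2. suprema in `ℚᵐ⁰` -/

section Sup

variable {ι : Type} [Fintype ι]

theorem a2_sup_le_iff (f : ι → ℚᵐ⁰) (c : ℚᵐ⁰) : Finset.univ.sup f ≤ c ↔ ∀ i, f i ≤ c := by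
  simp [Finset.sup_le_iff]

theorem a2_le_sup (f : ι → ℚᵐ⁰) (i : ι) : f i ≤ Finset.univ.sup f := Finset.le_sup (Finset.mem_univ i)

theorem a2_sup_lt_one_iff (f : ι → ℚᵐ⁰) : Finset.univ.sup f < 1 ↔ ∀ i, f i < 1 := by
  rw [Finset.sup_lt_iff (by rw [bot_eq_zero]; exact zero_lt_one)]
  simp

theorem a2_exists_eq_sup [Nonempty ι] (f : ι → ℚᵐ⁰) : ∃ i, Finset.univ.sup f = f i := by
  obtain ⟨i, -, hi⟩ := Finset.exists_mem_eq_sup Finset.univ Finset.univ_nonempty f
  exact ⟨i, hi⟩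

theorem a2_sup_eq_zero_iff (f : ι → ℚᵐ⁰) : Finset.univ.sup f = 0 ↔ ∀ i, f i = 0 := by
  rw [← bot_eq_zero, Finset.sup_eq_bot_iff]
  simp

theorem a2_mul_sup (c : ℚᵐ⁰) (f : ι → ℚᵐ⁰) :
    Finset.univ.sup (fun i => c * f i) = c * Finset.univ.sup f := by
  apply le_antisymm
  · rw [a2_sup_le_iff]
    intro i
    exact mul_le_mul_right (a2_le_sup f i) c
  · by_cases hc : c = 0
    · simp [hc]
    · rw [← le_inv_mul_iff₀ (zero_lt_iff.2 hc), a2_sup_le_iff]
      intro i
      rw [le_inv_mul_iff₀ (zero_lt_iff.2 hc)]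
      exact a2_le_sup (fun i => c * f i) i

end Sup

/-! ### 3. the Gauss norm of a finite algebra with integral structure constants -/

section Gauss

variable {K A ι : Type} [Field K] [CommRing A] [Algebra K A] [Fintype ι]

/-- coordinates of a product -/
theorem a2_repr_mul (E : Module.Basis ι K A) (x y : A) (k : ι) :
    E.repr (x * y) k = ∑ i, ∑ j, E.repr x i * E.repr y j * E.repr (E i * E j) k := by
  conv_lhs => rw [← E.sum_repr x, ← E.sum_repr y, Finset.sum_mul_sum]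
  rw [map_sum, Finsupp.finsetSum_apply]
  refine Finset.sum_congr rfl fun i _ => ?_
  rw [map_sum, Finsupp.finsetSum_apply]
  refine Finset.sum_congr rfl fun j _ => ?_
  rw [smul_mul_smul_comm, map_smul, Finsupp.smul_apply, smul_eq_mul]

/-- the Gauss norm -/
noncomputable def a2N (v : Valuation K ℚᵐ⁰) (E : Module.Basis ι K A) (x : A) : ℚᵐ⁰ :=
  Finset.univ.sup fun i => v (E.repr x i)

variable (v : Valuation K ℚᵐ⁰) (E : Module.Basis ι K A)

theorem a2N_le_iff (x : A) (c : ℚᵐ⁰) : a2N v E x ≤ c ↔ ∀ i, v (E.repr x i) ≤ c := a2_sup_le_iff _ c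

theorem a2N_coord_le (x : A) (i : ι) : v (E.repr x i) ≤ a2N v E x := a2_le_sup (fun i => v (E.repr x i)) i

theorem a2N_eq_zero_iff (x : A) : a2N v E x = 0 ↔ x = 0 := by
  unfold a2N
  rw [a2_sup_eq_zero_iff]
  constructor
  · intro h
    apply E.repr.injective
    ext i
    simpa using h i
  · rintro rfl i
    simp

theorem a2N_add (x y : A) : a2N v E (x + y) ≤ max (a2N v E x) (a2N v E y) := by
  rw [a2N_le_iff]
  intro i
  rw [map_add, Finsupp.add_apply]
  exact (v.map_add _ _).trans (max_le_max (a2N_coord_le v E x i) (a2N_coord_le v E y i))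

theorem a2N_smul (a : K) (x : A) : a2N v E (a • x) = v a * a2N v E x := by
  unfold a2N
  rw [← a2_mul_sup]
  congr 1
  ext i
  rw [map_smul, Finsupp.smul_apply, smul_eq_mul, map_mul]

theorem a2N_mul_le (hc : ∀ i j k, v (E.repr (E i * E j) k) ≤ 1) (x y : A) :
    a2N v E (x * y) ≤ a2N v E x * a2N v E y := by
  rw [a2N_le_iff]
  intro k
  rw [a2_repr_mul]
  refine v.map_sum_le fun i _ => v.map_sum_le fun j _ => ?_
  rw [map_mul, map_mul]
  calc v (E.repr x i) * v (E.repr y j) * v (E.repr (E i * E j) k)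
      ≤ v (E.repr x i) * v (E.repr y j) * 1 := mul_le_mul_right (hc i j k) _
    _ = v (E.repr x i) * v (E.repr y j) := mul_one _
    _ ≤ a2N v E x * a2N v E y := mul_le_mul' (a2N_coord_le v E x i) (a2N_coord_le v E y j)

variable {v} {F S : Type} [Field F] [Field S] [Algebra F S] (r : ResMap v F) (eb : Module.Basis ι F S)

/-- the reduction -/
noncomputable def a2R (x : A) : S := ∑ i, r.res (E.repr x i) • eb i

theorem a2R_repr (x : A) (i : ι) : eb.repr (a2R E r eb x) i = r.res (E.repr x i) := by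
  unfold a2R
  rw [eb.repr_sum_self]

theorem a2R_ext {x : A} {s : S} (h : ∀ i, r.res (E.repr x i) = eb.repr s i) : a2R E r eb x = s := by
  apply eb.repr.injective
  ext i
  rw [a2R_repr, h]

theorem a2R_add {x y : A} (hx : a2N v E x ≤ 1) (hy : a2N v E y ≤ 1) :
    a2R E r eb (x + y) = a2R E r eb x + a2R E r eb y := by
  apply a2R_ext
  intro i
  rw [map_add, map_add, Finsupp.add_apply, Finsupp.add_apply, a2R_repr, a2R_repr,
    a2_res_add r ((a2N_le_iff v E x 1).1 hx i) ((a2N_le_iff v E y 1).1 hy i)]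

theorem a2R_smul {a : K} {x : A} (ha : v a ≤ 1) (hx : a2N v E x ≤ 1) :
    a2R E r eb (a • x) = r.res a • a2R E r eb x := by
  apply a2R_ext
  intro i
  rw [map_smul, map_smul, Finsupp.smul_apply, Finsupp.smul_apply, a2R_repr, smul_eq_mul, smul_eq_mul,
    a2_res_mul r ha ((a2N_le_iff v E x 1).1 hx i)]

theorem a2R_eq_zero_iff {x : A} (hx : a2N v E x ≤ 1) : a2R E r eb x = 0 ↔ a2N v E x < 1 := by
  unfold a2N
  rw [a2_sup_lt_one_iff]
  constructor
  · intro h i
    rw [← a2_res_eq_zero_iff r ((a2N_le_iff v E x 1).1 hx i), ← a2R_repr E r eb, h]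
    simp
  · intro h
    apply a2R_ext
    intro i
    rw [(a2_res_eq_zero_iff r ((a2N_le_iff v E x 1).1 hx i)).2 (h i)]
    simp

theorem a2R_mul (hc : ∀ i j k, v (E.repr (E i * E j) k) ≤ 1)
    (hcr : ∀ i j k, r.res (E.repr (E i * E j) k) = eb.repr (eb i * eb j) k)
    {x y : A} (hx : a2N v E x ≤ 1) (hy : a2N v E y ≤ 1) :
    a2R E r eb (x * y) = a2R E r eb x * a2R E r eb y := by
  apply a2R_ext
  intro k
  have hx' := (a2N_le_iff v E x 1).1 hx
  have hy' := (a2N_le_iff v E y 1).1 hy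
  have h2 : ∀ i j, v (E.repr x i * E.repr y j) ≤ 1 := fun i j => by
    rw [map_mul]
    exact mul_le_one' (hx' i) (hy' j)
  have h3 : ∀ i j, v (E.repr x i * E.repr y j * E.repr (E i * E j) k) ≤ 1 := fun i j => by
    rw [map_mul]
    exact mul_le_one' (h2 i j) (hc i j k)
  rw [a2_repr_mul, a2_repr_mul, a2_res_sum r _ _ fun i _ => v.map_sum_le fun j _ => h3 i j]
  refine Finset.sum_congr rfl fun i _ => ?_
  rw [a2_res_sum r _ _ fun j _ => h3 i j]
  refine Finset.sum_congr rfl fun j _ => ?_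
  rw [a2_res_mul r (h2 i j) (hc i j k), a2_res_mul r (hx' i) (hy' j), hcr, a2R_repr, a2R_repr]

/-- normalisation -/
theorem a2_exists_unit [Nonempty ι] {x : A} (hx : x ≠ 0) :
    ∃ (a : K) (x' : A), a ≠ 0 ∧ x = a • x' ∧ a2N v E x' = 1 ∧ a2N v E x = v a := by
  obtain ⟨i, hi⟩ := a2_exists_eq_sup fun i => v (E.repr x i)
  have hN : a2N v E x = v (E.repr x i) := hi
  have ha : E.repr x i ≠ 0 := by
    intro h
    rw [h, map_zero, a2N_eq_zero_iff] at hN
    exact hx hN
  refine ⟨E.repr x i, (E.repr x i)⁻¹ • x, ha, by rw [smul_smul, mul_inv_cancel₀ ha, one_smul], ?_, hN⟩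
  rw [a2N_smul, hN, map_inv₀, inv_mul_cancel₀ ((Valuation.ne_zero_iff v).2 ha)]

theorem a2N_mul [Nonempty ι] (hc : ∀ i j k, v (E.repr (E i * E j) k) ≤ 1)
    (hcr : ∀ i j k, r.res (E.repr (E i * E j) k) = eb.repr (eb i * eb j) k) (x y : A) :
    a2N v E (x * y) = a2N v E x * a2N v E y := by
  by_cases hx : x = 0
  · rw [hx, zero_mul, (a2N_eq_zero_iff v E 0).2 rfl, zero_mul]
  by_cases hy : y = 0
  · rw [hy, mul_zero, (a2N_eq_zero_iff v E 0).2 rfl, mul_zero]
  obtain ⟨a, x', -, rfl, hx1, hxa⟩ := a2_exists_unit (v := v) E hx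
  obtain ⟨b, y', -, rfl, hy1, hyb⟩ := a2_exists_unit (v := v) E hy
  have h1 : a2N v E (x' * y') = 1 := by
    apply le_antisymm
    · have := a2N_mul_le v E hc x' y'
      rwa [hx1, hy1, one_mul] at this
    · rw [← not_lt]
      intro hlt
      have h0 := (a2R_eq_zero_iff E r eb hlt.le).2 hlt
      rw [a2R_mul E r eb hc hcr hx1.le hy1.le, mul_eq_zero, a2R_eq_zero_iff E r eb hx1.le,
        a2R_eq_zero_iff E r eb hy1.le, hx1, hy1] at h0
      exact (lt_irrefl _) (h0.elim id id)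
  rw [smul_mul_smul_comm, a2N_smul, a2N_smul, a2N_smul, h1, hx1, hy1, map_mul]
  simp

theorem a2_isField [Nonempty ι] (hc : ∀ i j k, v (E.repr (E i * E j) k) ≤ 1)
    (hcr : ∀ i j k, r.res (E.repr (E i * E j) k) = eb.repr (eb i * eb j) k) : IsField A := by
  have : Nontrivial A := by
    obtain ⟨i⟩ := ‹Nonempty ι›
    exact ⟨⟨E i, 0, E.ne_zero i⟩⟩
  have : NoZeroDivisors A := ⟨by
    intro x y h
    have h1 := a2N_mul E r eb hc hcr x y
    rw [h, (a2N_eq_zero_iff v E 0).2 rfl] at h1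
    rcases mul_eq_zero.1 h1.symm with h2 | h2
    · exact Or.inl ((a2N_eq_zero_iff v E x).1 h2)
    · exact Or.inr ((a2N_eq_zero_iff v E y).1 h2)⟩
  have : IsDomain A := NoZeroDivisors.to_isDomain A
  have : FiniteDimensional K A := Module.Finite.of_basis E
  exact (fieldOfFiniteDimensional K A).toIsField

theorem a2N_one [Nonempty ι] (hc : ∀ i j k, v (E.repr (E i * E j) k) ≤ 1)
    (hcr : ∀ i j k, r.res (E.repr (E i * E j) k) = eb.repr (eb i * eb j) k) : a2N v E 1 = 1 := by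
  have h1 := a2N_mul E r eb hc hcr 1 1
  rw [mul_one] at h1
  have h0 : a2N v E 1 ≠ 0 := by
    rw [Ne, a2N_eq_zero_iff]
    obtain ⟨i⟩ := ‹Nonempty ι›
    intro h
    apply E.ne_zero i
    rw [← mul_one (E i), h, mul_zero]
  exact (mul_eq_left₀ h0).1 h1.symm

theorem a2R_one [Nonempty ι] (hc : ∀ i j k, v (E.repr (E i * E j) k) ≤ 1)
    (hcr : ∀ i j k, r.res (E.repr (E i * E j) k) = eb.repr (eb i * eb j) k) : a2R E r eb 1 = 1 := by
  have hN := a2N_one E r eb hc hcr
  have h1 := a2R_mul E r eb hc hcr hN.le hN.le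
  rw [mul_one] at h1
  have h0 : a2R E r eb (1 : A) ≠ 0 := by
    rw [Ne, a2R_eq_zero_iff E r eb hN.le, hN]
    exact lt_irrefl _
  exact (mul_eq_left₀ h0).1 h1.symm

theorem a2R_surj (s : S) : ∃ x : A, a2N v E x ≤ 1 ∧ a2R E r eb x = s := by
  choose a ha1 ha2 using fun i => a2_exists_res r (eb.repr s i)
  refine ⟨∑ i, a i • E i, ?_, ?_⟩
  · rw [a2N_le_iff]
    intro i
    rw [E.repr_sum_self]
    exact ha1 i
  · apply a2R_ext
    intro i
    rw [E.repr_sum_self]
    exact ha2 i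

end Gauss

/-! ### 4. the Gauss valuation and its residue map -/

section GaussVal

variable {K A ι F S : Type} [Field K] [Field A] [Algebra K A] [Fintype ι] [Nonempty ι] [Field F] [Field S]
  [Algebra F S] {v : Valuation K ℚᵐ⁰} (E : Module.Basis ι K A) (r : ResMap v F) (eb : Module.Basis ι F S)
  (hc : ∀ i j k, v (E.repr (E i * E j) k) ≤ 1)
  (hcr : ∀ i j k, r.res (E.repr (E i * E j) k) = eb.repr (eb i * eb j) k)

omit [Nonempty ι] in
theorem a2R_zero : a2R E r eb (0 : A) = 0 :=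
  (a2R_eq_zero_iff E r eb (by rw [(a2N_eq_zero_iff v E 0).2 rfl]; exact zero_le_one)).2
    (by rw [(a2N_eq_zero_iff v E 0).2 rfl]; exact zero_lt_one)

/-- the Gauss valuation -/
noncomputable def a2Val : Valuation A ℚᵐ⁰ where
  toFun := a2N v E
  map_zero' := (a2N_eq_zero_iff v E 0).2 rfl
  map_one' := a2N_one E r eb hc hcr
  map_mul' := a2N_mul E r eb hc hcr
  map_add_le_max' := a2N_add v E

theorem a2Val_apply (x : A) : a2Val E r eb hc hcr x = a2N v E x := rfl

/-- the residue map of the Gauss valuation -/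
noncomputable def a2Res : ResMap (a2Val E r eb hc hcr) S where
  toHom :=
    { toFun := fun x => a2R E r eb (x : A)
      map_one' := a2R_one E r eb hc hcr
      map_mul' := fun x y => a2R_mul E r eb hc hcr
        ((Valuation.mem_valuationSubring_iff _ _).1 x.2) ((Valuation.mem_valuationSubring_iff _ _).1 y.2)
      map_zero' := a2R_zero E r eb
      map_add' := fun x y => a2R_add E r eb
        ((Valuation.mem_valuationSubring_iff _ _).1 x.2) ((Valuation.mem_valuationSubring_iff _ _).1 y.2) }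
  surj := by
    intro s
    obtain ⟨x, hx, hs⟩ := a2R_surj E r eb s
    exact ⟨⟨x, (Valuation.mem_valuationSubring_iff _ _).2 hx⟩, hs⟩
  ker := fun x => a2R_eq_zero_iff E r eb ((Valuation.mem_valuationSubring_iff _ _).1 x.2)

theorem a2Res_res {x : A} (hx : a2N v E x ≤ 1) : (a2Res E r eb hc hcr).res x = a2R E r eb x := by
  rw [a2_res_eq _ (show a2Val E r eb hc hcr x ≤ 1 from hx)]
  rfl

theorem a2Val_ext : ValExt (a2Val E r eb hc hcr) v := by
  intro a
  rw [a2Val_apply, Algebra.algebraMap_eq_smul_one, a2N_smul, a2N_one E r eb hc hcr, mul_one]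

theorem a2Res_ext : ResExt (a2Res E r eb hc hcr) r := by
  intro a ha
  have h1 : a2N v E (1 : A) ≤ 1 := (a2N_one E r eb hc hcr).le
  have h2 : a2N v E (algebraMap K A a) ≤ 1 := by
    have := a2Val_ext E r eb hc hcr a
    rw [a2Val_apply] at this
    rw [this]
    exact ha
  rw [a2Res_res E r eb hc hcr h2, Algebra.algebraMap_eq_smul_one, a2R_smul E r eb ha h1,
    a2R_one E r eb hc hcr, Algebra.algebraMap_eq_smul_one]

end GaussVal

/-! ### 5. lifts of a basis of the residue field are orthonormal -/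

section Orth

variable {L L' F F' ι : Type} [Field L] [Field L'] [Field F] [Field F'] [Algebra L L'] [Algebra F F']
  [Fintype ι] [Nonempty ι] {v : Valuation L ℚᵐ⁰} {v' : Valuation L' ℚᵐ⁰} {r : ResMap v F} {r' : ResMap v' F'}

omit [Nonempty ι] in
theorem a2_res_comb (hv : ValExt v' v) (hr : ResExt r' r) (e : ι → L') (he : ∀ i, v' (e i) ≤ 1) (a : ι → L)
    (ha : ∀ i, v (a i) ≤ 1) : r'.res (∑ i, a i • e i) = ∑ i, r.res (a i) • r'.res (e i) := by
  have h1 : ∀ i, v' (algebraMap L L' (a i)) ≤ 1 := fun i => by rw [hv]; exact ha i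
  rw [a2_res_sum r' _ _ fun i _ => by
    rw [Algebra.smul_def, map_mul]
    exact mul_le_one' (h1 i) (he i)]
  refine Finset.sum_congr rfl fun i _ => ?_
  rw [Algebra.smul_def, a2_res_mul r' (h1 i) (he i), hr _ (ha i), Algebra.smul_def]

theorem a2_orth (hv : ValExt v' v) (hr : ResExt r' r) (eb : Module.Basis ι F F') (e : ι → L')
    (he : ∀ i, v' (e i) ≤ 1) (heb : ∀ i, r'.res (e i) = eb i) (a : ι → L) :
    v' (∑ i, a i • e i) = Finset.univ.sup fun i => v (a i) := by
  apply le_antisymm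
  · refine v'.map_sum_le fun i _ => ?_
    rw [Algebra.smul_def, map_mul, hv]
    exact (mul_le_of_le_one_right' (he i)).trans (a2_le_sup (fun i => v (a i)) i)
  · obtain ⟨i0, hi0⟩ := a2_exists_eq_sup fun i => v (a i)
    rw [hi0]
    by_cases h0 : a i0 = 0
    · rw [h0, map_zero]
      exact zero_le
    have hb : ∀ i, v ((a i0)⁻¹ * a i) ≤ 1 := by
      intro i
      rw [map_mul, map_inv₀, inv_mul_le_iff₀ (zero_lt_iff.2 ((Valuation.ne_zero_iff v).2 h0)), mul_one]
      have := a2_le_sup (fun i => v (a i)) i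
      rwa [hi0] at this
    have hy : v' (∑ i, ((a i0)⁻¹ * a i) • e i) ≤ 1 := by
      refine v'.map_sum_le fun i _ => ?_
      rw [Algebra.smul_def, map_mul, hv]
      exact mul_le_one' (hb i) (he i)
    have hres : r'.res (∑ i, ((a i0)⁻¹ * a i) • e i) ≠ 0 := by
      rw [a2_res_comb hv hr e he _ hb]
      intro h
      have h1 := congrArg (fun s => eb.repr s i0) h
      simp only [heb, eb.repr_sum_self, map_zero, Finsupp.coe_zero, Pi.zero_apply] at h1
      rw [inv_mul_cancel₀ h0, a2_res_one] at h1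
      exact one_ne_zero h1
    have h1 : v' (∑ i, ((a i0)⁻¹ * a i) • e i) = 1 := by
      apply le_antisymm hy
      rw [← not_lt]
      intro hlt
      exact hres ((a2_res_eq_zero_iff r' hy).2 hlt)
    have h2 : ∑ i, a i • e i = a i0 • ∑ i, ((a i0)⁻¹ * a i) • e i := by
      rw [Finset.smul_sum]
      refine Finset.sum_congr rfl fun i _ => ?_
      rw [smul_smul, mul_inv_cancel_left₀ h0]
    rw [h2, Algebra.smul_def, map_mul, hv, h1, mul_one]

/-- an orthonormal basis whose residues are a given basis of the residue field -/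
theorem a2_exists_basis (hv : ValExt v' v) (hr : ResExt r' r) (eb : Module.Basis ι F F')
    (hcard : Fintype.card ι = Module.finrank L L') :
    ∃ b : Module.Basis ι L L', (∀ c, v' c = Finset.univ.sup fun i => v (b.repr c i)) ∧
      (∀ c, v' c ≤ 1 → ∀ i, r.res (b.repr c i) = eb.repr (r'.res c) i) := by
  choose e he heb using fun i => a2_exists_res r' (eb i)
  have hli : LinearIndependent L e := by
    rw [Fintype.linearIndependent_iff]
    intro g hg i
    have h1 := a2_orth hv hr eb e he heb g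
    rw [hg, map_zero] at h1
    have := (a2_sup_eq_zero_iff _).1 h1.symm i
    simpa using this
  let b := basisOfLinearIndependentOfCardEqFinrank hli hcard
  have hb : ∀ i, b i = e i := fun i => by
    simp [b]
  have h1 : ∀ c, v' c = Finset.univ.sup fun i => v (b.repr c i) := by
    intro c
    conv_lhs => rw [← b.sum_repr c]
    simp only [hb]
    exact a2_orth hv hr eb e he heb _
  refine ⟨b, h1, ?_⟩
  intro c hc i
  have h2 : ∀ i, v (b.repr c i) ≤ 1 := by
    rw [h1 c, a2_sup_le_iff] at hc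
    exact hc
  have h3 : r'.res c = ∑ i, r.res (b.repr c i) • eb i := by
    conv_lhs => rw [← b.sum_repr c]
    simp only [hb]
    rw [a2_res_comb hv hr e he _ h2]
    simp only [heb]
  rw [h3, eb.repr_sum_self]

end Orth

/-! ### 6. base change of an unramified extension along an extension with the same residue field -/

section Core

variable {Kb K L1 F S ι A : Type} [Field Kb] [Field K] [Algebra Kb K] [Field L1] [Algebra Kb L1] [Field F]
  [Field S] [Algebra F S] [Fintype ι] [CommRing A] [Algebra K A]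
  {vb : Valuation Kb ℚᵐ⁰} {rb : ResMap vb F} {v1 : Valuation L1 ℚᵐ⁰} {r1 : ResMap v1 S}
  {v : Valuation K ℚᵐ⁰} {r : ResMap v F}
  {b : Module.Basis ι Kb L1} {eb : Module.Basis ι F S} {i1 : L1 →+* A} {E : Module.Basis ι K A}

theorem a2_repr_i1 (hi : ∀ c, i1 (algebraMap Kb L1 c) = algebraMap K A (algebraMap Kb K c))
    (hE : ∀ i, E i = i1 (b i)) (c : L1) (k : ι) : E.repr (i1 c) k = algebraMap Kb K (b.repr c k) := by
  have h : i1 c = ∑ k, algebraMap Kb K (b.repr c k) • E k := by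
    conv_lhs => rw [← b.sum_repr c, map_sum]
    refine Finset.sum_congr rfl fun k _ => ?_
    rw [Algebra.smul_def, map_mul, hi, hE, Algebra.smul_def]
  rw [h, E.repr_sum_self]

theorem a2N_i1 (hv : ValExt v vb) (hb1 : ∀ c, v1 c = Finset.univ.sup fun i => vb (b.repr c i))
    (hi : ∀ c, i1 (algebraMap Kb L1 c) = algebraMap K A (algebraMap Kb K c))
    (hE : ∀ i, E i = i1 (b i)) (c : L1) : a2N v E (i1 c) = v1 c := by
  unfold a2N
  rw [hb1]
  congr 1
  ext k
  rw [a2_repr_i1 hi hE, hv]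

theorem a2R_i1 (hr : ∀ a, vb a ≤ 1 → r.res (algebraMap Kb K a) = rb.res a)
    (hb1 : ∀ c, v1 c = Finset.univ.sup fun i => vb (b.repr c i))
    (hb2 : ∀ c, v1 c ≤ 1 → ∀ i, rb.res (b.repr c i) = eb.repr (r1.res c) i)
    (hi : ∀ c, i1 (algebraMap Kb L1 c) = algebraMap K A (algebraMap Kb K c))
    (hE : ∀ i, E i = i1 (b i)) {c : L1} (hc : v1 c ≤ 1) : a2R E r eb (i1 c) = r1.res c := by
  apply a2R_ext
  intro k
  have h1 : vb (b.repr c k) ≤ 1 := by
    rw [hb1, a2_sup_le_iff] at hc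
    exact hc k
  rw [a2_repr_i1 hi hE, hr _ h1, hb2 c hc]

theorem a2_basis_le_one (hb1 : ∀ c, v1 c = Finset.univ.sup fun i => vb (b.repr c i)) (i : ι) :
    v1 (b i) ≤ 1 := by
  rw [hb1, a2_sup_le_iff]
  intro k
  rw [b.repr_self, Finsupp.single_apply]
  split_ifs <;> simp

theorem a2_basis_res (hb1 : ∀ c, v1 c = Finset.univ.sup fun i => vb (b.repr c i))
    (hb2 : ∀ c, v1 c ≤ 1 → ∀ i, rb.res (b.repr c i) = eb.repr (r1.res c) i) (i : ι) :
    r1.res (b i) = eb i := by
  apply eb.repr.injective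
  ext k
  rw [← hb2 _ (a2_basis_le_one hb1 i), b.repr_self, eb.repr_self, Finsupp.single_apply, Finsupp.single_apply]
  split_ifs
  · exact a2_res_one rb
  · exact a2_res_zero rb

theorem a2_hc (hv : ValExt v vb) (hb1 : ∀ c, v1 c = Finset.univ.sup fun i => vb (b.repr c i))
    (hi : ∀ c, i1 (algebraMap Kb L1 c) = algebraMap K A (algebraMap Kb K c))
    (hE : ∀ i, E i = i1 (b i)) (i j k : ι) : v (E.repr (E i * E j) k) ≤ 1 := by
  refine (a2N_coord_le v E _ k).trans ?_
  rw [hE, hE, ← map_mul, a2N_i1 hv hb1 hi hE, map_mul]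
  exact mul_le_one' (a2_basis_le_one hb1 i) (a2_basis_le_one hb1 j)

theorem a2_hcr (hr : ∀ a, vb a ≤ 1 → r.res (algebraMap Kb K a) = rb.res a)
    (hb1 : ∀ c, v1 c = Finset.univ.sup fun i => vb (b.repr c i))
    (hb2 : ∀ c, v1 c ≤ 1 → ∀ i, rb.res (b.repr c i) = eb.repr (r1.res c) i)
    (hi : ∀ c, i1 (algebraMap Kb L1 c) = algebraMap K A (algebraMap Kb K c))
    (hE : ∀ i, E i = i1 (b i)) (i j k : ι) :
    r.res (E.repr (E i * E j) k) = eb.repr (eb i * eb j) k := by
  have h1 : v1 (b i * b j) ≤ 1 := by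
    rw [map_mul]
    exact mul_le_one' (a2_basis_le_one hb1 i) (a2_basis_le_one hb1 j)
  rw [← a2R_repr E r eb, hE, hE, ← map_mul, a2R_i1 hr hb1 hb2 hi hE h1,
    a2_res_mul r1 (a2_basis_le_one hb1 i) (a2_basis_le_one hb1 j), a2_basis_res hb1 hb2,
    a2_basis_res hb1 hb2]

/-- `K`-linear maps which preserve the image of the unit ball of `L1` do not increase the Gauss norm -/
theorem a2N_map_le (hv : ValExt v vb) (hb1 : ∀ c, v1 c = Finset.univ.sup fun i => vb (b.repr c i))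
    (hi : ∀ c, i1 (algebraMap Kb L1 c) = algebraMap K A (algebraMap Kb K c))
    (hE : ∀ i, E i = i1 (b i)) (τ' : A →ₗ[K] A) (τ : L1 → L1) (hτ : ∀ c, τ' (i1 c) = i1 (τ c))
    (hτv : ∀ c, v1 (τ c) = v1 c) (x : A) : a2N v E (τ' x) ≤ a2N v E x := by
  conv_lhs => rw [← E.sum_repr x, map_sum]
  have key : ∀ (s : Finset ι), a2N v E (∑ i ∈ s, τ' (E.repr x i • E i)) ≤ a2N v E x := by
    intro s
    induction s using Finset.induction_on with
    | empty =>
      rw [Finset.sum_empty, (a2N_eq_zero_iff v E 0).2 rfl]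
      exact zero_le
    | insert a s ha ih =>
      rw [Finset.sum_insert ha]
      refine (a2N_add v E _ _).trans (max_le ?_ ih)
      rw [map_smul, a2N_smul, hE, hτ, a2N_i1 hv hb1 hi hE, hτv]
      exact (mul_le_of_le_one_right' (a2_basis_le_one hb1 a)).trans (a2N_coord_le v E x a)
  exact key _

theorem a2N_sum_le {κ : Type} (s : Finset κ) (f : κ → A) (c : ℚᵐ⁰) (hf : ∀ i ∈ s, a2N v E (f i) ≤ c) :
    a2N v E (∑ i ∈ s, f i) ≤ c := by
  induction s using Finset.induction_on with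
  | empty =>
    rw [Finset.sum_empty, (a2N_eq_zero_iff v E 0).2 rfl]
    exact zero_le
  | insert a s ha ih =>
    rw [Finset.sum_insert ha]
    exact (a2N_add v E _ _).trans (max_le (hf a (Finset.mem_insert_self a s))
      (ih fun i hi => hf i (Finset.mem_insert_of_mem hi)))

theorem a2R_sum {κ : Type} (s : Finset κ) (f : κ → A) (hf : ∀ i ∈ s, a2N v E (f i) ≤ 1) :
    a2R E r eb (∑ i ∈ s, f i) = ∑ i ∈ s, a2R E r eb (f i) := by
  induction s using Finset.induction_on with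
  | empty =>
    rw [Finset.sum_empty, Finset.sum_empty]
    exact (a2R_eq_zero_iff E r eb (by rw [(a2N_eq_zero_iff v E 0).2 rfl]; exact zero_le_one)).2
      (by rw [(a2N_eq_zero_iff v E 0).2 rfl]; exact zero_lt_one)
  | insert a s ha ih =>
    rw [Finset.sum_insert ha, Finset.sum_insert ha, a2R_add E r eb (hf a (Finset.mem_insert_self a s))
      (a2N_sum_le s f 1 fun i hi => hf i (Finset.mem_insert_of_mem hi)),
      ih fun i hi => hf i (Finset.mem_insert_of_mem hi)]

/-- the reduction of such a map -/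
theorem a2R_map (hv : ValExt v vb) (hr : ∀ a, vb a ≤ 1 → r.res (algebraMap Kb K a) = rb.res a)
    (hb1 : ∀ c, v1 c = Finset.univ.sup fun i => vb (b.repr c i))
    (hb2 : ∀ c, v1 c ≤ 1 → ∀ i, rb.res (b.repr c i) = eb.repr (r1.res c) i)
    (hi : ∀ c, i1 (algebraMap Kb L1 c) = algebraMap K A (algebraMap Kb K c))
    (hE : ∀ i, E i = i1 (b i)) (τ' : A →ₗ[K] A) (τ : L1 → L1) (hτ : ∀ c, τ' (i1 c) = i1 (τ c))
    (hτv : ∀ c, v1 (τ c) = v1 c) (τb : S →ₗ[F] S) (hτr : ∀ c, v1 c ≤ 1 → r1.res (τ c) = τb (r1.res c))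
    {x : A} (hx : a2N v E x ≤ 1) : a2R E r eb (τ' x) = τb (a2R E r eb x) := by
  have hx' := (a2N_le_iff v E x 1).1 hx
  have h1 : ∀ i, v1 (τ (b i)) ≤ 1 := fun i => by
    rw [hτv]
    exact a2_basis_le_one hb1 i
  have h2 : ∀ i, a2N v E (i1 (τ (b i))) ≤ 1 := fun i => by
    rw [a2N_i1 hv hb1 hi hE]
    exact h1 i
  conv_lhs => rw [← E.sum_repr x, map_sum]
  rw [a2R_sum]
  · unfold a2R
    rw [map_sum]
    refine Finset.sum_congr rfl fun i _ => ?_
    change a2R E r eb (τ' (E.repr x i • E i)) = _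
    rw [map_smul, map_smul, hE, hτ, a2R_smul E r eb (hx' i) (h2 i), a2R_i1 hr hb1 hb2 hi hE (h1 i),
      hτr _ (a2_basis_le_one hb1 i), a2_basis_res hb1 hb2]
  · intro i _
    rw [map_smul, hE, hτ, a2N_smul]
    exact mul_le_one' (hx' i) (h2 i)

end Core

/-! ### 7. the field `K1` -/

section Field1

variable {Kb K L1 F S : Type} [Field Kb] [Field K] [Algebra Kb K] [Field L1] [Algebra Kb L1] [Field F]
  [Field S] [Algebra F S]

/-- the conclusion: `K1 / K` with its valuation, residue map, embedding of `L1` and generator -/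
structure A2Out (vb : Valuation Kb ℚᵐ⁰) (v1 : Valuation L1 ℚᵐ⁰) (r1 : ResMap v1 S) (v : Valuation K ℚᵐ⁰)
    (r : ResMap v F) (σ : L1 ≃ₐ[Kb] L1) (σb : S ≃ₐ[F] S) (K1 : Type) [Field K1] [Algebra K K1] where
  fin : FiniteDimensional K K1
  gal : IsGalois K K1
  w : Valuation K1 ℚᵐ⁰
  ρ : ResMap w S
  i1 : L1 →+* K1
  σ' : K1 ≃ₐ[K] K1
  ext : ValExt w v
  rext : ResExt ρ r
  deg : Module.finrank K K1 = Module.finrank F S
  comm : ∀ c, i1 (algebraMap Kb L1 c) = algebraMap K K1 (algebraMap Kb K c)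
  val : ∀ c, w (i1 c) = v1 c
  res : ∀ c, v1 c ≤ 1 → ρ.res (i1 c) = r1.res c
  σ_comm : ∀ c, σ' (i1 c) = i1 (σ c)
  σ_val : ∀ a, w (σ' a) = w a
  σ_res : ∀ a, w a ≤ 1 → ρ.res (σ' a) = σb (ρ.res a)
  σ_gen : ∀ τ : K1 ≃ₐ[K] K1, τ ∈ Subgroup.zpowers σ'

variable {ι : Type} [Fintype ι] [Nonempty ι]
  {vb : Valuation Kb ℚᵐ⁰} {rb : ResMap vb F} {v1 : Valuation L1 ℚᵐ⁰} {r1 : ResMap v1 S}
  {v : Valuation K ℚᵐ⁰} {r : ResMap v F}
  {b : Module.Basis ι Kb L1} {eb : Module.Basis ι F S}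

theorem a2_out_of_field [FiniteDimensional Kb L1] [IsGalois Kb L1] {A : Type} [Field A] [Algebra K A]
    {i1 : L1 →+* A} {E : Module.Basis ι K A}
    (hv : ValExt v vb) (hr : ∀ a, vb a ≤ 1 → r.res (algebraMap Kb K a) = rb.res a)
    (hb1 : ∀ c, v1 c = Finset.univ.sup fun i => vb (b.repr c i))
    (hb2 : ∀ c, v1 c ≤ 1 → ∀ i, rb.res (b.repr c i) = eb.repr (r1.res c) i)
    (hi : ∀ c, i1 (algebraMap Kb L1 c) = algebraMap K A (algebraMap Kb K c))
    (hE : ∀ i, E i = i1 (b i)) (σ : L1 ≃ₐ[Kb] L1) (σb : S ≃ₐ[F] S)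
    (hσv : ∀ a, v1 (σ a) = v1 a) (hσr : ∀ a, v1 a ≤ 1 → r1.res (σ a) = σb (r1.res a))
    (hσg : ∀ τ : L1 ≃ₐ[Kb] L1, τ ∈ Subgroup.zpowers σ)
    (σ' : A ≃ₐ[K] A) (hσ' : ∀ c, σ' (i1 c) = i1 (σ c)) :
    Nonempty (A2Out vb v1 r1 v r σ σb A) := by
  have hc := a2_hc (E := E) hv hb1 hi hE
  have hcr := a2_hcr (E := E) (eb := eb) hr hb1 hb2 hi hE
  have hfin : FiniteDimensional K A := Module.Finite.of_basis E
  have hdeg : Module.finrank K A = Module.finrank Kb L1 := by
    rw [Module.finrank_eq_card_basis E, Module.finrank_eq_card_basis b]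
  have hdeg' : Module.finrank K A = Module.finrank F S := by
    rw [Module.finrank_eq_card_basis E, Module.finrank_eq_card_basis eb]
  have hpow : ∀ (m : ℕ) (c : L1), (σ' ^ m) (i1 c) = i1 ((σ ^ m) c) := by
    intro m
    induction m with
    | zero => intro c; simp
    | succ m ih =>
      intro c
      rw [pow_succ, pow_succ, AlgEquiv.mul_apply, AlgEquiv.mul_apply, hσ', ih]
  have hord : orderOf σ' = orderOf σ := by
    rw [orderOf_eq_orderOf_iff]
    intro m
    constructor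
    · intro h
      ext c
      apply i1.injective
      rw [← hpow, h]
      rfl
    · intro h
      have h1 : (σ' ^ m).toLinearMap = LinearMap.id := by
        apply E.ext
        intro i
        rw [AlgEquiv.toLinearMap_apply, hE, hpow, h]
        rfl
      ext x
      exact LinearMap.congr_fun h1 x
  have hσtop : Subgroup.zpowers σ = ⊤ := by
    rw [Subgroup.eq_top_iff']
    exact hσg
  have hordσ : orderOf σ = Module.finrank Kb L1 := by
    rw [← Nat.card_zpowers, hσtop, Subgroup.card_top, IsGalois.card_aut_eq_finrank]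
  have hcard : Nat.card (A ≃ₐ[K] A) ≤ Nat.card (Subgroup.zpowers σ') := by
    rw [Nat.card_zpowers, hord, hordσ, ← hdeg, Nat.card_eq_fintype_card]
    exact AlgEquiv.card_le
  have htop : Subgroup.zpowers σ' = ⊤ := Subgroup.eq_top_of_le_card _ hcard
  have hgal : IsGalois K A := by
    apply IsGalois.of_card_aut_eq_finrank
    rw [← Subgroup.card_top, ← htop, Nat.card_zpowers, hord, hordσ, hdeg]
  have hsymm : ∀ c, σ'.symm (i1 c) = i1 (σ.symm c) := by
    intro c
    rw [AlgEquiv.symm_apply_eq, hσ', AlgEquiv.apply_symm_apply]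
  have hsymmv : ∀ c, v1 (σ.symm c) = v1 c := by
    intro c
    rw [← hσv, AlgEquiv.apply_symm_apply]
  have hval : ∀ a, a2N v E (σ' a) = a2N v E a := by
    intro a
    apply le_antisymm
    · exact a2N_map_le hv hb1 hi hE σ'.toLinearMap σ hσ' hσv a
    · have := a2N_map_le hv hb1 hi hE σ'.symm.toLinearMap σ.symm hsymm hsymmv (σ' a)
      rwa [AlgEquiv.toLinearMap_apply, AlgEquiv.symm_apply_apply] at this
  exact ⟨{
    fin := hfin
    gal := hgal
    w := a2Val E r eb hc hcr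
    ρ := a2Res E r eb hc hcr
    i1 := i1
    σ' := σ'
    ext := a2Val_ext E r eb hc hcr
    rext := a2Res_ext E r eb hc hcr
    deg := hdeg'
    comm := hi
    val := a2N_i1 hv hb1 hi hE
    res := fun c hc1 => by
      rw [a2Res_res E r eb hc hcr (by rw [a2N_i1 hv hb1 hi hE]; exact hc1)]
      exact a2R_i1 hr hb1 hb2 hi hE hc1
    σ_comm := hσ'
    σ_val := hval
    σ_res := fun a ha => by
      have ha' : a2N v E a ≤ 1 := ha
      rw [a2Res_res E r eb hc hcr ha', a2Res_res E r eb hc hcr (by rw [hval]; exact ha')]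
      exact a2R_map hv hr hb1 hb2 hi hE σ'.toLinearMap σ hσ' hσv σb.toLinearMap hσr ha'
    σ_gen := fun τ => by rw [htop]; exact Subgroup.mem_top τ }⟩

/-- a field structure on a ring which is a field -/
theorem a2_field_copy {A : Type} [CommRing A] [Algebra K A] (h : IsField A) :
    ∃ (K1 : Type) (_ : Field K1) (_ : Algebra K K1), Nonempty (A ≃ₐ[K] K1) := by
  let _ := h.toField
  exact ⟨A, inferInstance, inferInstance, ⟨AlgEquiv.refl⟩⟩

theorem a2_exists_K1 [FiniteDimensional Kb L1] [IsGalois Kb L1] [FiniteDimensional F S]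
    (hv1 : ValExt v1 vb) (hr1 : ResExt r1 rb) (hdeg : Module.finrank Kb L1 = Module.finrank F S)
    (hv : ValExt v vb) (hr : ∀ a, vb a ≤ 1 → r.res (algebraMap Kb K a) = rb.res a)
    (σ : L1 ≃ₐ[Kb] L1) (σb : S ≃ₐ[F] S)
    (hσv : ∀ a, v1 (σ a) = v1 a) (hσr : ∀ a, v1 a ≤ 1 → r1.res (σ a) = σb (r1.res a))
    (hσg : ∀ τ : L1 ≃ₐ[Kb] L1, τ ∈ Subgroup.zpowers σ) :
    ∃ (K1 : Type) (_ : Field K1) (_ : Algebra K K1), Nonempty (A2Out vb v1 r1 v r σ σb K1) := by
  have hpos : 0 < Module.finrank F S := Module.finrank_pos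
  have : Nonempty (Fin (Module.finrank F S)) := ⟨⟨0, hpos⟩⟩
  let eb := Module.finBasis F S
  obtain ⟨b, hb1, hb2⟩ := a2_exists_basis hv1 hr1 eb (by rw [Fintype.card_fin, hdeg])
  let T := K ⊗[Kb] L1
  let E0 : Module.Basis (Fin (Module.finrank F S)) K T := Algebra.TensorProduct.basis K b
  let j1 : L1 →+* T := (Algebra.TensorProduct.includeRight : L1 →ₐ[Kb] T).toRingHom
  have hj : ∀ c, j1 (algebraMap Kb L1 c) = algebraMap K T (algebraMap Kb K c) := by
    intro c
    have h1 : j1 (algebraMap Kb L1 c) = algebraMap Kb T c :=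
      (Algebra.TensorProduct.includeRight : L1 →ₐ[Kb] T).commutes c
    rw [h1, IsScalarTower.algebraMap_apply Kb K T]
  have hE0 : ∀ i, E0 i = j1 (b i) := fun i => Algebra.TensorProduct.basis_apply b i
  have hF : IsField T := a2_isField E0 r eb (a2_hc hv hb1 hj hE0) (a2_hcr hr hb1 hb2 hj hE0)
  obtain ⟨K1, _, _, ⟨e⟩⟩ := a2_field_copy (K := K) hF
  let σ0 : T ≃ₐ[K] T := Algebra.TensorProduct.congr AlgEquiv.refl σ
  have hσ0 : ∀ c, σ0 (j1 c) = j1 (σ c) := by
    intro c
    show σ0 (1 ⊗ₜ c) = 1 ⊗ₜ (σ c)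
    rfl
  refine ⟨K1, inferInstance, inferInstance, ?_⟩
  refine a2_out_of_field (b := b) (eb := eb) (i1 := (e : T →+* K1).comp j1) (E := E0.map e.toLinearEquiv)
    hv hr hb1 hb2 ?_ ?_ σ σb hσv hσr hσg ((e.symm.trans σ0).trans e) ?_
  · intro c
    rw [RingHom.comp_apply, hj]
    exact e.commutes _
  · intro i
    rw [Module.Basis.map_apply, hE0]
    rfl
  · intro c
    simp only [RingHom.comp_apply, AlgEquiv.trans_apply]
    have : e.symm ((e : T →+* K1) (j1 c)) = j1 c := e.symm_apply_apply _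
    rw [this, hσ0]
    rfl

end Field1

/-! ### 8. transport of the curve and of the points -/

section Transport

theorem a2_redPt {L1 K1 S : Type} [Field L1] [Field K1] [Field S] {v1 : Valuation L1 ℚᵐ⁰} {r1 : ResMap v1 S}
    {w : Valuation K1 ℚᵐ⁰} {ρ : ResMap w S} {W : WeierstrassCurve L1} {W' : WeierstrassCurve K1}
    {W0 : WeierstrassCurve S} (i1 : L1 →+* K1) (hval : ∀ c, w (i1 c) = v1 c)
    (hres : ∀ c, v1 c ≤ 1 → ρ.res (i1 c) = r1.res c) {P : W.toAffine.Point} {P' : W'.toAffine.Point}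
    {Pb : W0.toAffine.Point} (h : PtMap i1 P P') (hP : RedPt v1 r1 P Pb) : RedPt w ρ P' Pb := by
  rcases P with _ | ⟨a, b, hab⟩ <;> rcases P' with _ | ⟨a', b', hab'⟩ <;> rcases Pb with _ | ⟨a₀, b₀, h₀⟩
  · trivial
  · exact hP.elim
  · exact h.elim
  · exact h.elim
  · exact h.elim
  · exact h.elim
  · obtain ⟨rfl, rfl⟩ := h
    show 1 < w (i1 a)
    rw [hval]
    exact hP
  · obtain ⟨rfl, rfl⟩ := h
    obtain ⟨h1, h2, h3, h4⟩ := hP
    exact ⟨by rw [hval]; exact h1, by rw [hval]; exact h2, by rw [hres _ h1]; exact h3,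
      by rw [hres _ h2]; exact h4⟩

variable {Kb K L1 K1 : Type} [Field Kb] [Field K] [Algebra Kb K] [Field L1] [Algebra Kb L1] [Field K1]
  [Algebra K K1]

theorem a2_curve_eq (W : WeierstrassCurve Kb) (i1 : L1 →+* K1)
    (hi : ∀ c, i1 (algebraMap Kb L1 c) = algebraMap K K1 (algebraMap Kb K c)) :
    (W.map (algebraMap Kb K)).baseChange K1 = (W.baseChange L1).map i1 := by
  unfold WeierstrassCurve.baseChange
  rw [WeierstrassCurve.map_map, WeierstrassCurve.map_map]
  congr 1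
  ext c
  exact (hi c).symm

theorem a2_map_comm (W : WeierstrassCurve Kb) (i1 : L1 →+* K1)
    (hW : (W.map (algebraMap Kb K)).baseChange K1 = (W.baseChange L1).map i1)
    (σ : L1 ≃ₐ[Kb] L1) (σ' : K1 ≃ₐ[K] K1) (hσ : ∀ c, σ' (i1 c) = i1 (σ c))
    (P : (W.baseChange L1).toAffine.Point) :
    Affine.Point.map (W' := (W.map (algebraMap Kb K)).toAffine) σ'.toAlgHom (ptHom' i1 hW P) =
      ptHom' i1 hW (Affine.Point.map (W' := W.toAffine) σ.toAlgHom P) := by
  have h1 := PtMap.comp _ _ (ptHom'_spec i1 hW P)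
    (ptMap_pointMap (W.map (algebraMap Kb K)) σ'.toAlgHom (ptHom' i1 hW P))
  have h2 := PtMap.comp _ _ (ptMap_pointMap W σ.toAlgHom P)
    (ptHom'_spec i1 hW (Affine.Point.map (W' := W.toAffine) σ.toAlgHom P))
  have h3 : ((σ'.toAlgHom : K1 →+* K1).comp i1) = i1.comp (σ.toAlgHom : L1 →+* L1) := by
    ext c
    exact hσ c
  rw [h3] at h1
  exact PtMap.unique _ h1 h2

end Transport

/-- **unramified base change along an extension of valued fields with the same residue field** -/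
theorem FldBase.exists_unram_ext {p : ℕ} [Fact p.Prime] {Kb K : Type} [Field Kb] [Field K] [Algebra Kb K]
    (B : FldBase p Kb) (v : Valuation K ℚᵐ⁰) (r : ResMap v B.R.F) (hv : ValExt v B.vL)
    (hr : ∀ a, B.vL a ≤ 1 → r.res (algebraMap Kb K a) = B.rL.res a) :
    ∃ B' : FldBase p K, B'.R = B.R ∧ B'.vL = v := by
  obtain ⟨K1, _, _, ⟨O⟩⟩ := a2_exists_K1 B.ext1 B.rext1 B.deg_eq hv hr B.σ B.R.σb B.σ_val B.σ_res B.σ_gen
  have := O.fin
  have := O.gal
  have hW := a2_curve_eq B.Wt O.i1 O.comm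
  have hcomm := a2_map_comm B.Wt O.i1 hW B.σ O.σ' O.σ_comm
  have hred : ∀ {P : (B.Wt.baseChange B.L1).toAffine.Point} {Pb : (B.R.W0.baseChange B.R.S).toAffine.Point},
      RedPt B.vL1 B.rL1 P Pb → RedPt O.w O.ρ (ptHom' O.i1 hW P) Pb :=
    fun h => a2_redPt O.i1 O.val O.res (ptHom'_spec O.i1 hW _) h
  have hcz : CharZero K := by
    have := B.cz
    exact charZero_of_injective_algebraMap (algebraMap Kb K).injective
  obtain ⟨⟨w1, w1'⟩, ⟨w2, w2'⟩, ⟨w3, w3'⟩, ⟨w4, w4'⟩, ⟨w6, w6'⟩⟩ := B.red_W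
  refine ⟨{
    R := B.R
    L1 := K1
    cz := hcz
    vL := v
    rL := r
    vL1 := O.w
    rL1 := O.ρ
    ext1 := O.ext
    rext1 := O.rext
    deg_eq := O.deg
    σ := O.σ'
    σ_val := O.σ_val
    σ_res := O.σ_res
    Wt := B.Wt.map (algebraMap Kb K)
    red_W := ⟨⟨by rw [WeierstrassCurve.map_a₁, hv]; exact w1, by rw [WeierstrassCurve.map_a₁, hr _ w1]; exact w1'⟩,
      ⟨by rw [WeierstrassCurve.map_a₂, hv]; exact w2, by rw [WeierstrassCurve.map_a₂, hr _ w2]; exact w2'⟩,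
      ⟨by rw [WeierstrassCurve.map_a₃, hv]; exact w3, by rw [WeierstrassCurve.map_a₃, hr _ w3]; exact w3'⟩,
      ⟨by rw [WeierstrassCurve.map_a₄, hv]; exact w4, by rw [WeierstrassCurve.map_a₄, hr _ w4]; exact w4'⟩,
      ⟨by rw [WeierstrassCurve.map_a₆, hv]; exact w6, by rw [WeierstrassCurve.map_a₆, hr _ w6]; exact w6'⟩⟩
    Q := ptHom' O.i1 hW B.Q
    red_Q := hred B.red_Q
    σ_gen := O.σ_gen
    Q_fix := by rw [hcomm, B.Q_fix]
    Q_tors := by rw [← map_nsmul, O.deg, ← B.deg_eq, B.Q_tors, map_zero]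
    d := fun j => ptHom' O.i1 hW (B.d j)
    red_d := fun j => hred (B.red_d j)
    d_zero := by
      obtain ⟨j, hj⟩ := B.d_zero
      exact ⟨j, by rw [hj, map_zero]⟩
    d_neg := fun j => by
      obtain ⟨j', hj⟩ := B.d_neg j
      exact ⟨j', by rw [hj, map_neg]⟩
    d_stable := fun j => by
      obtain ⟨j', hj⟩ := B.d_stable j
      exact ⟨j', by rw [hj, map_sub, hcomm]⟩
    ξ := fun i => ptHom' O.i1 hW (B.ξ i)
    red_ξ := fun i => hred (B.red_ξ i)
    ξ_stable := fun i => by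
      obtain ⟨i', hi⟩ := B.ξ_stable i
      exact ⟨i', by rw [hi, map_sub, hcomm]⟩ }, rfl, rfl⟩

/-- **A2**: pass to a spherically complete extension with value group `ℚ` and the SAME residue side. -/
theorem FldBase.sphericalise {p : ℕ} [Fact p.Prime] {Kb : Type} [Field Kb] (B : FldBase p Kb)
    (hd : ∃ ϖ : Kb, B.vL ϖ < 1 ∧ ϖ ≠ 0 ∧ ∀ a : Kb, a ≠ 0 → ∃ j : ℤ, B.vL a = B.vL ϖ ^ j) :
    ∃ (K : Type) (_ : Field K) (_ : Algebra Kb K) (B' : FldBase p K),
      B'.R = B.R ∧ Function.Surjective B'.vL ∧ IsSphComplete B'.vL := by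
  obtain ⟨K0, _, _, v0, r0, hv0, hr0, hs0, -⟩ := exists_full B.vL B.rL hd
  obtain ⟨K, _, _, v, r, hv, hr, hsph⟩ := exists_sph v0 r0 hs0
  let _ : Algebra Kb K := ((algebraMap K0 K).comp (algebraMap Kb K0)).toAlgebra
  have hmap : ∀ a : Kb, algebraMap Kb K a = algebraMap K0 K (algebraMap Kb K0 a) := fun _ => rfl
  have hv' : ValExt v B.vL := fun a => by rw [hmap, hv, hv0]
  have hr' : ∀ a, B.vL a ≤ 1 → r.res (algebraMap Kb K a) = B.rL.res a := by
    intro a ha
    rw [hmap, hr _ (by rw [hv0]; exact ha), hr0 _ ha]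
    rfl
  obtain ⟨B', hR, hvL⟩ := B.exists_unram_ext v r hv' hr'
  refine ⟨K, inferInstance, inferInstance, B', hR, ?_, ?_⟩
  · rw [hvL]
    intro γ
    obtain ⟨a, ha⟩ := hs0 γ
    exact ⟨algebraMap K0 K a, by rw [hv, ha]⟩
  · rw [hvL]
    exact hsph

end Claimed.Agent.R280
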