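import Claimed.Agent.R280.Tw.D10b

/-!
# Row 280, glue TW-D10 (PROVED): **A1** the field level over the discretely valued field `Kb`
`discRes` (Tw/D10a) + `discFld` (Tw/D10b) for the curve of D0 and the torsion lift of D1.
-/

set_option autoImplicit false

namespace Claimed.Agent.R280

open WithZero WeierstrassCurve Cardinal
open scoped Classical

/-- **A1**: the field level over a DISCRETELY valued field `Kb` (fixed field of the cyclic shift in `Frac R_c[z_1..z_n][[w]]`). -/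
theorem exists_fldBase_disc (p : ℕ) [Fact p.Prime] (m s : ℕ) (hm : 0 < m) (hs : 1 ≤ s) :
    ∃ (Kb : Type) (_ : Field Kb) (B : FldBase p Kb),
      (∃ ϖ : Kb, B.vL ϖ < 1 ∧ ϖ ≠ 0 ∧ ∀ a : Kb, a ≠ 0 → ∃ j : ℤ, B.vL a = B.vL ϖ ^ j) ∧
      B.R.u = 0 ∧ Fintype.card B.R.I = p ^ s ∧ B.R.Cob (p ^ s) ∧ #B.R.F = 𝔠 ∧
      ∃ ζ : Kb, IsPrimitiveRoot ζ m := by
  have hp : p.Prime := Fact.out
  have hn : 0 < p ^ s := pow_pos hp.pos s
  obtain ⟨W0, hΔ, hord⟩ := exists_ordinary p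
  obtain ⟨P, hP⟩ := hord s
  obtain ⟨Kc, _, _, vc, rc, WO, Pt, ζ, hd, rfl, hred, hPt, hζ⟩ :=
    exists_torsLift p W0 hΔ hord P s hP m hm
  refine ⟨_, _, discFld p (p ^ s) hn vc rc hd WO hΔ P hP Pt hred hPt, ?_, rfl, ?_,
    discRes_cob p (p ^ s) hn _ hΔ P hP, card_fix p (p ^ s) hn, ?_⟩
  · obtain ⟨ϖ, h1, h0, hgen⟩ := id hd
    have hϖ : ϖ ∈ vc.valuationSubring := (Valuation.mem_valuationSubring_iff vc ϖ).2 h1.le
    have hv : (cVal p (p ^ s) vc rc hd)
        (algebraMap vc.valuationSubring (PSf (p ^ s) vc.valuationSubring) ⟨ϖ, hϖ⟩) = vc ϖ :=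
      cVal_const p (p ^ s) vc rc _ ⟨ϖ, hϖ⟩
    refine ⟨constFix (p ^ s) vc.valuationSubring ⟨ϖ, hϖ⟩, ?_, ?_, ?_⟩
    · exact hv.trans_lt h1
    · intro h
      have := constFix_injective (p ^ s) vc.valuationSubring (h.trans (map_zero _).symm)
      exact h0 (congrArg Subtype.val this)
    · intro a ha
      obtain ⟨c, hc0, hc⟩ := cVal_grp p (p ^ s) vc rc hd (a : PSf _ _)
        (fun h => ha (Subtype.ext h))
      obtain ⟨j, hj⟩ := hgen c hc0
      exact ⟨j, (hc.trans hj).trans (congrArg (· ^ j) hv.symm)⟩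
  · exact Fintype.card_fin _
  · have hζ1 : vc ζ = 1 := by
      have h1 : vc ζ ^ m = 1 := by rw [← map_pow, hζ.pow_eq_one, map_one]
      exact (pow_eq_one_iff_of_nonneg zero_le' hm.ne').1 h1
    have hζO : ζ ∈ vc.valuationSubring := (Valuation.mem_valuationSubring_iff vc ζ).2 hζ1.le
    have h2 : IsPrimitiveRoot (⟨ζ, hζO⟩ : vc.valuationSubring) m :=
      IsPrimitiveRoot.of_map_of_injective (f := vc.valuationSubring.subtype)
        (hf := Subtype.val_injective) hζ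
    exact ⟨_, h2.map_of_injective (constFix_injective (p ^ s) vc.valuationSubring)⟩

end Claimed.Agent.R280
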