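import Claimed.Agent.R280.Tw.A4

/-!
# Row 280, leaf TW-E1 (~1200 lines): a twist becomes the Weierstrass function field over an algebraic closure
`XOm = Om(x,y)` (`exists_isWFF`), `j1` by `IsWFF.lift`; `M ⊗_k k' = M'`, `M' ⊗_{k'} Om = Om(x,y)` (`IsWFF.isPushout`, `Om/k'` algebraic via `ι`).
-/

set_option autoImplicit false

namespace Claimed.Agent.R280

open WithZero WeierstrassCurve Cardinal
open scoped Classical

/-- **E1** -/
theorem twist_geom {k k' : Type} [Field k] [Field k'] [Algebra k k'] [FiniteDimensional k k']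
    [IsGalois k k'] {W : WeierstrassCurve k} (hΔ : W.Δ ≠ 0) {σ : k' ≃ₐ[k] k'}
    {Q : (W.baseChange k').toAffine.Point} {M M' : Type} [Field M] [Field M'] [Algebra k M]
    [Algebra k' M'] [Algebra M M'] [Algebra k M'] [IsScalarTower k k' M'] [IsScalarTower k M M']
    {x y : M'} (h : IsTwist W σ Q M M' x y) (Om : Type) [Field Om] [Algebra k Om]
    [IsAlgClosure k Om] (ι : k' →ₐ[k] Om) :
    ∃ (XOm : Type) (_ : Field XOm) (_ : Algebra Om XOm) (_ : Algebra M XOm) (_ : Algebra k XOm)
      (_ : IsScalarTower k Om XOm) (_ : IsScalarTower k M XOm) (x' y' : XOm) (j1 : M' →+* XOm),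
      IsWFF (W.baseChange Om) XOm x' y' ∧ Algebra.IsPushout k Om M XOm ∧ j1 x = x' ∧ j1 y = y' ∧
      (∀ c : k', j1 (algebraMap k' M' c) = algebraMap Om XOm (ι c)) ∧
      (∀ f : M, j1 (algebraMap M M' f) = algebraMap M XOm f) ∧ j1.IsIntegral := by
  obtain ⟨XOm, _, _, x', y', hW⟩ := exists_isWFF (W.baseChange Om)
  -- the curve over `XOm`
  have hcurve : (W.baseChange k').map ((algebraMap Om XOm).comp ι.toRingHom)
      = (W.baseChange Om).baseChange XOm := by
    have e1 : (W.baseChange k').map ι.toRingHom = W.baseChange Om := W.map_baseChange ι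
    rw [← WeierstrassCurve.map_map, e1]
    rfl
  have heq : ((W.baseChange k').map ((algebraMap Om XOm).comp ι.toRingHom)).toAffine.Equation x' y' := by
    rw [hcurve]; exact hW.equation
  have htr : ∀ q : Polynomial k', q ≠ 0 →
      (q.map ((algebraMap Om XOm).comp ι.toRingHom)).eval x' ≠ 0 := by
    intro q hq h0
    refine hW.transc ⟨q.map ι.toRingHom, (Polynomial.map_ne_zero_iff ι.toRingHom.injective).2 hq, ?_⟩
    rw [Polynomial.aeval_def, Polynomial.eval₂_eq_eval_map, Polynomial.map_map]
    exact h0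
  obtain ⟨j1, ⟨hj1c, hj1x, hj1y⟩, -⟩ := h.wff.lift _ x' y' heq htr
  -- the algebra structures of the statement
  let aM : Algebra M XOm := (j1.comp (algebraMap M M')).toAlgebra
  let ak : Algebra k XOm := ((algebraMap Om XOm).comp (algebraMap k Om)).toAlgebra
  have t1 : IsScalarTower k Om XOm := IsScalarTower.of_algebraMap_eq fun _ => rfl
  have t2 : IsScalarTower k M XOm := IsScalarTower.of_algebraMap_eq fun c => by
    show algebraMap Om XOm (algebraMap k Om c) = j1 (algebraMap M M' (algebraMap k M c))
    rw [← IsScalarTower.algebraMap_apply k M M', IsScalarTower.algebraMap_apply k k' M', hj1c]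
    show _ = algebraMap Om XOm (ι (algebraMap k k' c))
    rw [ι.commutes]
  -- the auxiliary algebra structures
  let a1 : Algebra k' Om := ι.toRingHom.toAlgebra
  let a2 : Algebra M' XOm := j1.toAlgebra
  let a3 : Algebra k' XOm := ((algebraMap Om XOm).comp ι.toRingHom).toAlgebra
  have t3 : IsScalarTower k k' Om := IsScalarTower.of_algebraMap_eq fun c => (ι.commutes c).symm
  have t4 : IsScalarTower k' Om XOm := IsScalarTower.of_algebraMap_eq fun _ => rfl
  have t5 : IsScalarTower k' M' XOm := IsScalarTower.of_algebraMap_eq fun c => (hj1c c).symm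
  have t6 : IsScalarTower M M' XOm := IsScalarTower.of_algebraMap_eq fun _ => rfl
  have t7 : IsScalarTower k M' XOm := IsScalarTower.of_algebraMap_eq fun c => by
    rw [IsScalarTower.algebraMap_apply k M XOm, IsScalarTower.algebraMap_apply k M M']
    rfl
  have alg0 : Algebra.IsAlgebraic k Om := IsAlgClosure.isAlgebraic
  have alg : Algebra.IsAlgebraic k' Om := Algebra.IsAlgebraic.tower_top (K := k) k'
  have hW' : IsWFF ((W.baseChange k').baseChange Om) XOm (algebraMap M' XOm x)
      (algebraMap M' XOm y) := by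
    have e1 : (W.baseChange k').baseChange Om = W.baseChange Om := W.map_baseChange ι
    rw [e1]
    show IsWFF (W.baseChange Om) XOm (j1 x) (j1 y)
    rw [hj1x, hj1y]
    exact hW
  have po2 : Algebra.IsPushout k' Om M' XOm := h.wff.isPushout hW'
  have po1 : Algebra.IsPushout k k' M M' := h.po
  have po : Algebra.IsPushout k Om M XOm := (Algebra.IsPushout.comp_iff k k' M M').2 po2
  refine ⟨XOm, _, _, aM, ak, t1, t2, x', y', j1, hW, po, hj1x, hj1y, hj1c, fun _ => rfl, ?_⟩
  have : Algebra.IsIntegral k' Om := Algebra.IsAlgebraic.isIntegral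
  have hint : Algebra.IsIntegral M' XOm := Algebra.IsPushout.isIntegral k' M' Om XOm (h := po2)
  exact fun z => hint.isIntegral z

end Claimed.Agent.R280
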