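import Claimed.Agent.R280.Tw.Defs
import Claimed.Agent.R280.Ell.Main

/-!
# Row 280, leaf TW-A4 (~700 lines): properties of twists: function field, `χ = 0` (FF7 + Ell3), rational places and orbits.  `isFF`, `chi_eq_zero`: 6 lines each from ONE lemma `isFF_of_pushout (h : IsPushout F S M MS) [FiniteDimensional F S] (hS : IsFF S MS) : IsFF F M` (pick `x ∈ M` transcendental; `[MS:S(x)]` finite, `[S(x):F(x)] ≤ [S:F]`), then `chi_constExt` + `IsWFF.chi_eq_zero` + `map_Δ`

PROVED (helper155).  Reusable: `twA4_isFF_restrict` (constants down), `twA4_isFF_below` (subfield of finite index), `IsTwist.twA4_galois` (`M'/M` Galois, degree `[k':k]`, group `= ⟨δ⟩`),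
`IsTwist.twA4_iter` (`P_j.v (δ^j f) = P.v f` for the place `P_j` at the `j`-th iterate of `R ↦ σ R - Q`).
-/

set_option autoImplicit false

namespace Claimed.Agent.R280

open WithZero WeierstrassCurve Cardinal
open scoped Classical

theorem twA4_res_eq {L F : Type} [Field L] [Field F] {v : Valuation L ℚᵐ⁰} (r : ResMap v F) {a : L}
    (ha : v a ≤ 1) : r.res a = r.toHom ⟨a, (Valuation.mem_valuationSubring_iff v a).2 ha⟩ := by
  unfold ResMap.res
  rw [dif_pos ha]

theorem RedCurve.disc_ne_zero {L F : Type} [Field L] [Field F] {v : Valuation L ℚᵐ⁰} {r : ResMap v F}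
    {Wt : WeierstrassCurve L} {W0 : WeierstrassCurve F} (h : RedCurve v r Wt W0) (hΔ : W0.Δ ≠ 0) :
    Wt.Δ ≠ 0 := by
  obtain ⟨⟨h1, e1⟩, ⟨h2, e2⟩, ⟨h3, e3⟩, ⟨h4, e4⟩, ⟨h6, e6⟩⟩ := h
  let WO : WeierstrassCurve v.valuationSubring :=
    ⟨⟨Wt.a₁, (Valuation.mem_valuationSubring_iff v _).2 h1⟩,
     ⟨Wt.a₂, (Valuation.mem_valuationSubring_iff v _).2 h2⟩,
     ⟨Wt.a₃, (Valuation.mem_valuationSubring_iff v _).2 h3⟩,
     ⟨Wt.a₄, (Valuation.mem_valuationSubring_iff v _).2 h4⟩,
     ⟨Wt.a₆, (Valuation.mem_valuationSubring_iff v _).2 h6⟩⟩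
  have hWt : WO.map v.valuationSubring.subtype = Wt := by
    ext <;> rfl
  have hW0 : WO.map r.toHom = W0 := by
    ext
    · exact (twA4_res_eq r h1).symm.trans e1
    · exact (twA4_res_eq r h2).symm.trans e2
    · exact (twA4_res_eq r h3).symm.trans e3
    · exact (twA4_res_eq r h4).symm.trans e4
    · exact (twA4_res_eq r h6).symm.trans e6
  intro h0
  apply hΔ
  rw [← hWt, WeierstrassCurve.map_Δ] at h0
  have h0' : WO.Δ = 0 := Subtype.ext h0
  rw [← hW0, WeierstrassCurve.map_Δ, h0', map_zero]

section Down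

variable {F S N : Type*} [Field F] [Field S] [Field N] [Algebra F S] [Algebra S N]
  [Algebra F N] [IsScalarTower F S N]

/-- going down with the field of constants: `N/S` a function field, `S/F` finite: `N/F` is a function field -/
theorem twA4_isFF_restrict [FiniteDimensional F S] [IsFF S N] : IsFF F N := by
  obtain ⟨x, hx, hfin⟩ := IsFF.exists_finite (k := S) (M := N)
  refine ⟨x, fun halg => hx (halg.tower_top S), ?_⟩
  set K := IntermediateField.adjoin F {x} with hK
  set b := Module.finBasis F S with hb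
  set T : Set N := Set.range fun i => algebraMap S N (b i) with hT
  have hTfin : Finite T := Set.finite_range _
  set L := IntermediateField.adjoin K T with hL
  have hint : ∀ z ∈ T, IsIntegral K z := by
    rintro _ ⟨i, rfl⟩
    have h1 : IsIntegral F (b i) := Algebra.IsIntegral.isIntegral (b i)
    have h2 : IsIntegral F (algebraMap S N (b i)) := h1.algebraMap
    exact h2.tower_top
  have hKL : FiniteDimensional K L := IntermediateField.finiteDimensional_adjoin hint
  have hFL : ∀ a : F, algebraMap F N a ∈ L := by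
    intro a
    rw [IsScalarTower.algebraMap_apply F K N]
    exact L.algebraMap_mem _
  have hSL : ∀ c : S, algebraMap S N c ∈ L := by
    intro c
    rw [← b.sum_repr c, map_sum]
    refine sum_mem fun i _ => ?_
    rw [Algebra.smul_def, map_mul, ← IsScalarTower.algebraMap_apply F S N]
    exact mul_mem (hFL _) (IntermediateField.subset_adjoin K T ⟨i, rfl⟩)
  have hxL : x ∈ L := by
    have h1 : x = algebraMap K N ⟨x, IntermediateField.mem_adjoin_simple_self F x⟩ := rfl
    rw [h1]
    exact L.algebraMap_mem _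
  let L' : IntermediateField S N := { L.toSubfield with algebraMap_mem' := hSL }
  have hle : IntermediateField.adjoin S {x} ≤ L' := by
    rw [IntermediateField.adjoin_simple_le_iff]
    exact hxL
  let i : IntermediateField.adjoin S {x} →+* L :=
    (algebraMap (IntermediateField.adjoin S {x}) N).codRestrict L fun z => hle z.2
  let _ : Algebra (IntermediateField.adjoin S {x}) L := i.toAlgebra
  have : IsScalarTower (IntermediateField.adjoin S {x}) L N :=
    IsScalarTower.of_algebraMap_eq fun a => rfl
  have hLN : Module.Finite L N :=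
    Module.Finite.of_restrictScalars_finite (IntermediateField.adjoin S {x}) L N
  exact Module.Finite.trans L N

end Down

section Below

variable (k M M' : Type*) [Field k] [Field M] [Field M'] [Algebra k M] [Algebra k M']
  [Algebra M M'] [IsScalarTower k M M']

/-- a subfield of finite index of a function field is a function field -/
theorem twA4_isFF_below [IsFF k M'] [Module.Finite M M'] : IsFF k M := by
  obtain ⟨t, ht⟩ : ∃ t : M, Transcendental k t := by
    by_contra hcon
    push Not at hcon
    have h1 : Algebra.IsAlgebraic k M := ⟨fun t => by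
      have := hcon t
      rwa [Transcendental, not_not] at this⟩
    have h2 : Algebra.IsAlgebraic M M' := Algebra.IsAlgebraic.of_finite M M'
    have h3 : Algebra.IsAlgebraic k M' := Algebra.IsAlgebraic.trans k M M'
    obtain ⟨z, hz⟩ := IsFF.exists_transcendental k M'
    exact hz (Algebra.IsAlgebraic.isAlgebraic z)
  refine ⟨t, ht, ?_⟩
  have ht' : Transcendental k (algebraMap M M' t) := transcendental_algebraMap_iff.2 ht
  have h1 : Module.Finite (IntermediateField.adjoin k {algebraMap M M' t}) M' :=
    IsFF.finite_adjoin ht'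
  have h2 : Module.Finite (IntermediateField.adjoin k {t}) M' := by
    refine Module.Finite.of_equiv_equiv (ffTEquiv (M' := M') t).symm (RingEquiv.refl M') ?_
    ext a
    have := RingHom.congr_fun (ffTEquiv_comm (M' := M') t) ((ffTEquiv (M' := M') t).symm a)
    simpa using this.symm
  exact Module.Finite.of_injective
    (IsScalarTower.toAlgHom (IntermediateField.adjoin k {t}) M M').toLinearMap
    (algebraMap M M').injective

end Below

section A4

variable {k k' : Type} [Field k] [Field k'] [Algebra k k'] [FiniteDimensional k k'] [IsGalois k k']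
  {W : WeierstrassCurve k} {σ : k' ≃ₐ[k] k'} {Q : (W.baseChange k').toAffine.Point}
  {M M' : Type} [Field M] [Field M'] [Algebra k M] [Algebra k' M'] [Algebra M M'] [Algebra k M']
  [IsScalarTower k k' M'] [IsScalarTower k M M'] {x y : M'}

omit [FiniteDimensional k k'] [IsGalois k k'] [Algebra k M] [Algebra k M'] [IsScalarTower k k' M']
  [IsScalarTower k M M'] in
theorem twA4_pow_const (δ : M' ≃ₐ[M] M')
    (hδ : ∀ c : k', δ (algebraMap k' M' c) = algebraMap k' M' (σ c)) (n : ℕ) (c : k') :
    (δ ^ n) (algebraMap k' M' c) = algebraMap k' M' ((σ ^ n) c) := by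
  induction n with
  | zero => rfl
  | succ n ih => rw [pow_succ', pow_succ', AlgEquiv.mul_apply, AlgEquiv.mul_apply, ih, hδ]

/-- `M'/M` is Galois of degree `[k':k]`, and its group is generated by `δ` (Artin) -/
theorem IsTwist.twA4_galois (h : IsTwist W σ Q M M' x y) (δ : M' ≃ₐ[M] M')
    (hδ : ∀ c : k', δ (algebraMap k' M' c) = algebraMap k' M' (σ c)) :
    IsGalois M M' ∧ Module.finrank M M' = Module.finrank k k' ∧
      ∀ g : M' ≃ₐ[M] M', g ∈ Subgroup.zpowers δ := by
  have hfin : Module.Finite M M' := finite_constExt h.po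
  have hrank : Module.finrank M M' = Module.finrank k k' := finrank_constExt h.po
  set H := Subgroup.zpowers δ with hH
  have h1 : Module.finrank (IntermediateField.fixedField H) M' = Nat.card H :=
    IntermediateField.finrank_fixedField_eq_card H
  have h2 : Nat.card H = orderOf δ := Nat.card_zpowers δ
  have h3 : orderOf σ = Module.finrank k k' := by
    have htop : Subgroup.zpowers σ = ⊤ := by
      rw [eq_top_iff]
      intro τ _
      exact h.gen τ
    rw [← Nat.card_zpowers, htop, Subgroup.card_top, IsGalois.card_aut_eq_finrank]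
  have h4 : orderOf σ ∣ orderOf δ := by
    apply orderOf_dvd_of_pow_eq_one
    ext c
    apply (algebraMap k' M').injective
    rw [← twA4_pow_const δ hδ, pow_orderOf_eq_one]
    rfl
  have h5 : Module.finrank M (IntermediateField.fixedField H) *
      Module.finrank (IntermediateField.fixedField H) M' = Module.finrank M M' :=
    Module.finrank_mul_finrank _ _ _
  have hpos : 0 < Module.finrank k k' := Module.finrank_pos
  have h6 : Module.finrank M (IntermediateField.fixedField H) = 1 := by
    rw [h1, h2, hrank, ← h3] at h5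
    rw [← h3] at hpos
    obtain ⟨c, hc⟩ := h4
    rw [hc] at h5
    have hc0 : 0 < c := by
      rcases Nat.eq_zero_or_pos c with rfl | hc0
      · rw [Nat.mul_zero, Nat.mul_zero] at h5
        omega
      · exact hc0
    have h7 : Module.finrank M (IntermediateField.fixedField H) * c = 1 := by
      have : orderOf σ * (Module.finrank M (IntermediateField.fixedField H) * c) = orderOf σ * 1 := by
        rw [Nat.mul_one]
        calc _ = Module.finrank M (IntermediateField.fixedField H) * (orderOf σ * c) := by ring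
          _ = _ := h5
      exact Nat.eq_of_mul_eq_mul_left hpos this
    exact Nat.eq_one_of_mul_eq_one_right h7
  have h7 : IntermediateField.fixedField H = ⊥ := IntermediateField.finrank_eq_one_iff.1 h6
  refine ⟨?_, hrank, ?_⟩
  · apply IsGalois.of_fixedField_eq_bot
    rw [eq_bot_iff, ← h7]
    exact IntermediateField.fixedField_le le_top
  · intro g
    have h8 := IntermediateField.fixingSubgroup_fixedField H
    rw [h7, IntermediateField.fixingSubgroup_bot] at h8
    rw [← h8]
    exact Subgroup.mem_top g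

theorem IsTwist.isFF (h : IsTwist W σ Q M M' x y) : IsFF k M := by
  have h1 : IsFF k' M' := h.wff.isFF
  have h2 : IsFF k M' := twA4_isFF_restrict (F := k) (S := k')
  have h3 : Module.Finite M M' := finite_constExt h.po
  exact twA4_isFF_below k M M'

theorem IsTwist.chi_eq_zero (h : IsTwist W σ Q M M' x y) (hΔ : W.Δ ≠ 0) : chi k M = 0 := by
  have h1 : IsFF k M := h.isFF
  have hΔ' : (W.baseChange k').Δ ≠ 0 := by
    rw [WeierstrassCurve.baseChange, WeierstrassCurve.map_Δ]
    exact (_root_.map_ne_zero _).mpr hΔ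
  rw [← chi_constExt h.po]
  exact h.wff.chi_eq_zero hΔ'

/-- the place at the `j`-th iterate of `R ↦ σ R - Q`, composed with `δ ^ j`, is the place at `R` -/
theorem IsTwist.twA4_iter (h : IsTwist W σ Q M M' x y) (hΔ : W.Δ ≠ 0) (δ : M' ≃ₐ[M] M')
    (hδ : ∀ c : k', δ (algebraMap k' M' c) = algebraMap k' M' (σ c))
    (hδ2 : IsTransBy (W.baseChange k') x y (δ x) (δ y) Q)
    {R : (W.baseChange k').toAffine.Point} {P : Place k' M'} (hP : P.IsAtPt x y R) :
    ∀ (j : ℕ) (Pj : Place k' M'),
      Pj.IsAtPt x y ((fun R => Affine.Point.map (W' := W.toAffine) σ.toAlgHom R - Q)^[j] R) →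
      ∀ f : M', Pj.v ((δ ^ j) f) = P.v f := by
  have hΔ' : (W.baseChange k').Δ ≠ 0 := by
    rw [WeierstrassCurve.baseChange, WeierstrassCurve.map_Δ]
    exact (_root_.map_ne_zero _).mpr hΔ
  intro j
  induction j with
  | zero =>
    intro Pj hPj f
    have e : Pj = P := (h.wff.existsUnique_atPt hΔ' R).unique hPj hP
    rw [e]
    rfl
  | succ j ih =>
    intro Pj hPj f
    rw [Function.iterate_succ_apply'] at hPj
    obtain ⟨P1, hP1, -⟩ := h.wff.existsUnique_atPt hΔ'
      ((fun R => Affine.Point.map (W' := W.toAffine) σ.toAlgHom R - Q)^[j] R)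
    have h1 := h.wff.place_comp_delta hΔ (σ := σ) (Q := Q) (δ := δ.toRingEquiv) hδ hδ2 hPj hP1
      ((δ ^ j) f)
    rw [pow_succ', AlgEquiv.mul_apply, ← ih P1 hP1 f]
    exact h1

/-- two rational places of `M'` lie over the same place of `M` iff the points are in the same orbit of `R ↦ σ R - Q` -/
theorem IsTwist.same_below_iff (h : IsTwist W σ Q M M' x y) (hΔ : W.Δ ≠ 0)
    {R R' : (W.baseChange k').toAffine.Point} {P P' : Place k' M'} (hP : P.IsAtPt x y R)
    (hP' : P'.IsAtPt x y R') {P₀ : Place k M} (h₀ : P.Over P₀) :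
    P'.Over P₀ ↔ ∃ j : ℕ,
      (fun R => Affine.Point.map (W' := W.toAffine) σ.toAlgHom R - Q)^[j] R = R' := by
  have hΔ' : (W.baseChange k').Δ ≠ 0 := by
    rw [WeierstrassCurve.baseChange, WeierstrassCurve.map_Δ]
    exact (_root_.map_ne_zero _).mpr hΔ
  obtain ⟨δ, hδ, hδ2⟩ := h.twist
  constructor
  · intro h₀'
    obtain ⟨hgal, -, hgen⟩ := h.twA4_galois δ hδ
    have hfin : Module.Finite M M' := finite_constExt h.po
    obtain ⟨g, hg⟩ := Place.exists_smulAut_eq (k := k) (M := M) (M' := M')
      (Q := P'.restrictConst k) (Q' := P.restrictConst k) (P := P₀) h₀' h₀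
    -- `g⁻¹ = δ ^ m`
    have hfo : IsOfFinOrder δ := isOfFinOrder_of_finite δ
    obtain ⟨m, hm⟩ : ∃ m : ℕ, δ ^ m = g.symm :=
      (hfo.mem_powers_iff_mem_zpowers (y := g.symm)).2 (hgen g.symm)
    refine ⟨m, ?_⟩
    obtain ⟨Pm, hPm, -⟩ := h.wff.existsUnique_atPt hΔ'
      ((fun R => Affine.Point.map (W' := W.toAffine) σ.toAlgHom R - Q)^[m] R)
    have h1 := h.twA4_iter hΔ δ hδ hδ2 hP m Pm hPm
    have h2 : ∀ f : M', P.v f = P'.v ((δ ^ m) f) := by
      intro f
      have := congrArg (fun R : Place k M' => R.v f) hg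
      rw [hm]
      exact this.symm
    have h3 : Pm = P' := by
      apply Place.ext
      ext f
      obtain ⟨f', rfl⟩ := (δ ^ m).surjective f
      rw [h1, h2]
    rw [h3] at hPm
    exact h.wff.atPt_inj hPm hP'
  · rintro ⟨j, rfl⟩
    obtain ⟨e, he, hv⟩ := h₀
    refine ⟨e, he, fun f => ?_⟩
    rw [← hv f, ← h.twA4_iter hΔ δ hδ hδ2 hP j P' hP' (algebraMap M M' f), AlgEquiv.commutes]

end A4

end Claimed.Agent.R280
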