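import Claimed.Agent.R280.Tw.LvlDefs
import Claimed.Agent.R280.Tw.Red
import Claimed.Agent.R280.Tw.A4

/-!
# Row 280, Tw/Move (glue, shared by A2 and B1): transport of the lift side of a `FldBase` to new fields
`FldMove B R' L` = new fields `L ⊆ L1` with valuations and residue maps onto `R'.F ⊆ R'.S`, a generator `σ` with `σ ∘ i1 = i1 ∘ B.σ ^ a`, compatibilities.
`FldMove.toFldBase : FldBase p L` (curve, `Q' = i1 (a • Q)`, `d`, `ξ` = images), `FldMove.toFldBC`.
-/

set_option autoImplicit false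

namespace Claimed.Agent.R280

open WithZero WeierstrassCurve
open scoped Classical

section Abstract

variable {G G' : Type} [AddCommGroup G] [AddCommGroup G']

theorem iterate_twist (s : G →+ G) {Q : G} (hQ : s Q = Q) (a : ℕ) (R : G) :
    (fun R => s R - Q)^[a] R = (s^[a]) R - a • Q := by
  induction a generalizing R with
  | zero => simp
  | succ a ih =>
    rw [Function.iterate_succ_apply', ih, Function.iterate_succ_apply', map_sub, map_nsmul, hQ,
      succ_nsmul]
    abel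

theorem stable_iterate {ι : Type} (Z : ι → G) (ψ : G → G) (h : ∀ i, ∃ i', Z i' = ψ (Z i)) (a : ℕ)
    (i : ι) : ∃ i', Z i' = ψ^[a] (Z i) := by
  induction a with
  | zero => exact ⟨i, rfl⟩
  | succ a ih =>
    obtain ⟨i₁, h₁⟩ := ih
    obtain ⟨i₂, h₂⟩ := h i₁
    exact ⟨i₂, by rw [h₂, h₁, Function.iterate_succ_apply']⟩

/-- images of a stable family -/
theorem stable_image {ι ι' : Type} (e : ι ≃ ι') (f : G →+ G') (s : G →+ G) (s' : G' →+ G') (a : ℕ)
    (hs : ∀ R, s' (f R) = f (s^[a] R)) {Q : G} (hQ : s Q = Q) (Z : ι → G)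
    (h : ∀ i, ∃ i', Z i' = s (Z i) - Q) (j : ι') :
    ∃ j', f (Z (e.symm j')) = s' (f (Z (e.symm j))) - f (a • Q) := by
  obtain ⟨i', hi'⟩ := stable_iterate Z (fun R => s R - Q) h a (e.symm j)
  refine ⟨e i', ?_⟩
  rw [Equiv.symm_apply_apply, hi', iterate_twist s hQ, map_sub, hs]

end Abstract

/-- `Affine.Point.map` of a power -/
theorem pointMap_pow {k k' : Type} [Field k] [Field k'] [Algebra k k'] (W : WeierstrassCurve k)
    (σ : k' ≃ₐ[k] k') (a : ℕ) (P : (W.baseChange k').toAffine.Point) :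
    Affine.Point.map (W' := W.toAffine) (σ ^ a).toAlgHom P
      = (Affine.Point.map (W' := W.toAffine) σ.toAlgHom)^[a] P := by
  induction a with
  | zero => rcases P with _ | ⟨x, y, h⟩ <;> rfl
  | succ a ih =>
    rw [Function.iterate_succ_apply', ← ih]
    rcases P with _ | ⟨x, y, h⟩
    · rfl
    · simp only [Affine.Point.map_some, pow_succ']
      rfl

/-- reduction and morphisms of valued fields -/
theorem RedPt.map {K K' k k' : Type} [Field K] [Field K'] [Field k] [Field k']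
    {v : Valuation K ℚᵐ⁰} {r : ResMap v k} {v' : Valuation K' ℚᵐ⁰} {r' : ResMap v' k'}
    (i : K →+* K') (ib : k →+* k') (hv : ∀ c, v' (i c) = v c)
    (hr : ∀ c, v c ≤ 1 → r'.res (i c) = ib (r.res c))
    {W : WeierstrassCurve K} {W0 : WeierstrassCurve k} {W' : WeierstrassCurve K'}
    {W0' : WeierstrassCurve k'} {P : W.toAffine.Point} {Pb : W0.toAffine.Point}
    {P' : W'.toAffine.Point} {Pb' : W0'.toAffine.Point} (h : RedPt v r P Pb) (hP : PtMap i P P')
    (hPb : PtMap ib Pb Pb') : RedPt v' r' P' Pb' := by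
  rcases P with _ | ⟨a, b, hab⟩ <;> rcases P' with _ | ⟨a1, b1, hab1⟩ <;>
    rcases Pb with _ | ⟨a0, b0, hab0⟩ <;> rcases Pb' with _ | ⟨a2, b2, hab2⟩ <;>
    first | trivial | exact hP.elim | exact hPb.elim | exact h.elim | skip
  · obtain ⟨rfl, rfl⟩ := hP
    show 1 < v' (i a)
    rw [hv]; exact h
  · obtain ⟨rfl, rfl⟩ := hP
    obtain ⟨rfl, rfl⟩ := hPb
    obtain ⟨h1, h2, rfl, rfl⟩ := h
    exact ⟨by rw [hv]; exact h1, by rw [hv]; exact h2, hr a h1, hr b h2⟩

/-- reduction of curves and morphisms of valued fields -/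
theorem RedCurve.map {K K' k k' : Type} [Field K] [Field K'] [Field k] [Field k']
    {v : Valuation K ℚᵐ⁰} {r : ResMap v k} {v' : Valuation K' ℚᵐ⁰} {r' : ResMap v' k'}
    (i : K →+* K') (ib : k →+* k') (hv : ∀ c, v' (i c) = v c)
    (hr : ∀ c, v c ≤ 1 → r'.res (i c) = ib (r.res c))
    {W : WeierstrassCurve K} {W0 : WeierstrassCurve k} (h : RedCurve v r W W0) :
    RedCurve v' r' (W.map i) (W0.map ib) := by
  obtain ⟨⟨h1, e1⟩, ⟨h2, e2⟩, ⟨h3, e3⟩, ⟨h4, e4⟩, ⟨h6, e6⟩⟩ := h
  exact ⟨⟨(hv _).trans_le h1, (hr _ h1).trans (congrArg ib e1)⟩,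
    ⟨(hv _).trans_le h2, (hr _ h2).trans (congrArg ib e2)⟩,
    ⟨(hv _).trans_le h3, (hr _ h3).trans (congrArg ib e3)⟩,
    ⟨(hv _).trans_le h4, (hr _ h4).trans (congrArg ib e4)⟩,
    ⟨(hv _).trans_le h6, (hr _ h6).trans (congrArg ib e6)⟩⟩

variable {p : ℕ} [Fact p.Prime]

/-- the curve over `L1` reduces to the curve over `S` -/
theorem FldBase.redCurve_up {L : Type} [Field L] (B : FldBase p L) :
    RedCurve B.vL1 B.rL1 (B.Wt.baseChange B.L1) (B.R.W0.baseChange B.R.S) :=
  RedCurve.map (algebraMap L B.L1) (algebraMap B.R.F B.R.S) B.ext1 B.rext1 B.red_W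

theorem ResSide.disc_up (R : ResSide p) : (R.W0.baseChange R.S).Δ ≠ 0 := by
  rw [WeierstrassCurve.baseChange, WeierstrassCurve.map_Δ]; exact (map_ne_zero _).2 R.hΔ

/-- **new fields for the lift side of `B`**, over the residue side `R'` -/
structure FldMove {K : Type} [Field K] (B : FldBase p K) (R' : ResSide p) (L : Type) [Field L] where
  L1 : Type
  [fL1 : Field L1]
  [aLL1 : Algebra L L1]
  [finL1 : FiniteDimensional L L1]
  [galL1 : IsGalois L L1]
  i0 : K →+* L
  i1 : B.L1 →+* L1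
  iF : B.R.F →+* R'.F
  iS : B.R.S →+* R'.S
  i1_comm : ∀ c : K, i1 (algebraMap K B.L1 c) = algebraMap L L1 (i0 c)
  iS_comm : ∀ c : B.R.F, iS (algebraMap B.R.F B.R.S c) = algebraMap R'.F R'.S (iF c)
  vL : Valuation L ℚᵐ⁰
  rL : ResMap vL R'.F
  vL1 : Valuation L1 ℚᵐ⁰
  rL1 : ResMap vL1 R'.S
  ext1 : ValExt vL1 vL
  rext1 : ResExt rL1 rL
  deg_eq : Module.finrank L L1 = Module.finrank R'.F R'.S
  σ : L1 ≃ₐ[L] L1
  σ_val : ∀ a : L1, vL1 (σ a) = vL1 a
  σ_res : ∀ a : L1, vL1 a ≤ 1 → rL1.res (σ a) = R'.σb (rL1.res a)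
  σ_gen : ∀ τ : L1 ≃ₐ[L] L1, τ ∈ Subgroup.zpowers σ
  val : ∀ c : K, vL (i0 c) = B.vL c
  val1 : ∀ c : B.L1, vL1 (i1 c) = B.vL1 c
  res : ∀ c : K, B.vL c ≤ 1 → rL.res (i0 c) = iF (B.rL.res c)
  res1 : ∀ c : B.L1, B.vL1 c ≤ 1 → rL1.res (i1 c) = iS (B.rL1.res c)
  a : ℕ
  σ_comm : ∀ c : B.L1, σ (i1 c) = i1 ((B.σ ^ a) c)
  deg_a : a * Module.finrank L L1 = Module.finrank K B.L1
  W0_eq : R'.W0 = B.R.W0.map iF
  Qb_eq : PtMap iS (a • B.R.Qb) R'.Qb
  eD : B.R.Dn ≃ R'.Dn
  db_eq : ∀ j, PtMap iS (B.R.db j) (R'.db (eD j))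
  eI : B.R.I ≃ R'.I
  t_eq : ∀ i, PtMap iS (B.R.t i) (R'.t (eI i))

attribute [instance] FldMove.fL1 FldMove.aLL1 FldMove.finL1 FldMove.galL1

namespace FldMove

variable {K : Type} [Field K] {B : FldBase p K} {R' : ResSide p} {L : Type} [Field L]
  (M : FldMove B R' L)

theorem curve_eq : (B.Wt.map M.i0).baseChange M.L1 = (B.Wt.baseChange B.L1).map M.i1 := by
  rw [WeierstrassCurve.baseChange, WeierstrassCurve.baseChange, WeierstrassCurve.map_map,
    WeierstrassCurve.map_map]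
  congr 1
  ext c
  exact (M.i1_comm c).symm

/-- the image of a point -/
noncomputable def img : (B.Wt.baseChange B.L1).toAffine.Point →+
    ((B.Wt.map M.i0).baseChange M.L1).toAffine.Point := ptHom' M.i1 M.curve_eq

theorem img_spec (P : (B.Wt.baseChange B.L1).toAffine.Point) : PtMap M.i1 P (M.img P) :=
  ptHom'_spec M.i1 M.curve_eq P

/-- `σ' (i1 P) = i1 (σ^a P)` -/
theorem map_img (P : (B.Wt.baseChange B.L1).toAffine.Point) :
    Affine.Point.map (W' := (B.Wt.map M.i0).toAffine) M.σ.toAlgHom (M.img P)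
      = M.img ((Affine.Point.map (W' := B.Wt.toAffine) B.σ.toAlgHom)^[M.a] P) := by
  rw [← pointMap_pow]
  have h1 := (M.img_spec P).comp _ _ (ptMap_pointMap (B.Wt.map M.i0) M.σ.toAlgHom (M.img P))
  have h2 := (ptMap_pointMap B.Wt (B.σ ^ M.a).toAlgHom P).comp _ _ (M.img_spec _)
  have h3 : ((M.σ.toAlgHom : M.L1 →+* M.L1)).comp M.i1
      = M.i1.comp ((B.σ ^ M.a).toAlgHom : B.L1 →+* B.L1) := by
    ext c; exact M.σ_comm c
  rw [h3] at h1
  exact PtMap.unique _ h1 h2

theorem red_img {P : (B.Wt.baseChange B.L1).toAffine.Point}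
    {Pb : (B.R.W0.baseChange B.R.S).toAffine.Point} (h : RedPt B.vL1 B.rL1 P Pb)
    {Pb' : (R'.W0.baseChange R'.S).toAffine.Point} (hb : PtMap M.iS Pb Pb') :
    RedPt M.vL1 M.rL1 (M.img P) Pb' :=
  RedPt.map M.i1 M.iS M.val1 M.res1 h (M.img_spec P) hb

/-- **the transported field level** -/
noncomputable def toFldBase : FldBase p L where
  R := R'
  L1 := M.L1
  cz := by
    have := B.cz
    exact charZero_of_injective_ringHom M.i0.injective
  vL := M.vL
  rL := M.rL
  vL1 := M.vL1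
  rL1 := M.rL1
  ext1 := M.ext1
  rext1 := M.rext1
  deg_eq := M.deg_eq
  σ := M.σ
  σ_val := M.σ_val
  σ_res := M.σ_res
  Wt := B.Wt.map M.i0
  red_W := M.W0_eq ▸ RedCurve.map M.i0 M.iF M.val M.res B.red_W
  Q := M.img (M.a • B.Q)
  red_Q := M.red_img (RedPt.nsmul B.redCurve_up B.R.disc_up B.red_Q M.a) M.Qb_eq
  σ_gen := M.σ_gen
  Q_fix := by
    rw [M.map_img]
    congr 1
    exact Function.iterate_fixed (by rw [map_nsmul, B.Q_fix]) _
  Q_tors := by
    rw [← map_nsmul, smul_smul, mul_comm, M.deg_a, B.Q_tors, map_zero]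
  d := fun j => M.img (B.d (M.eD.symm j))
  red_d := fun j => M.red_img (B.red_d _) (by
    have := M.db_eq (M.eD.symm j)
    rwa [Equiv.apply_symm_apply] at this)
  d_zero := by
    obtain ⟨j, hj⟩ := B.d_zero
    exact ⟨M.eD j, by rw [Equiv.symm_apply_apply, hj, map_zero]⟩
  d_neg := fun j => by
    obtain ⟨j', hj'⟩ := B.d_neg (M.eD.symm j)
    exact ⟨M.eD j', by rw [Equiv.symm_apply_apply, hj', map_neg]⟩
  d_stable := stable_image M.eD M.img _ _ M.a M.map_img B.Q_fix B.d B.d_stable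
  ξ := fun i => M.img (B.ξ (M.eI.symm i))
  red_ξ := fun i => M.red_img (B.red_ξ _) (by
    have := M.t_eq (M.eI.symm i)
    rwa [Equiv.apply_symm_apply] at this)
  ξ_stable := stable_image M.eI M.img _ _ M.a M.map_img B.Q_fix B.ξ B.ξ_stable

/-- the transported field level is a base change -/
noncomputable def toFldBC [Algebra K L] (hi0 : M.i0 = algebraMap K L)
    (gen1 : Algebra.adjoin L (Set.range M.i1) = ⊤) (intS : M.iS.IsIntegral)
    (degF : @Module.finrank B.R.F R'.F _ _ M.iF.toAlgebra.toModule = Module.finrank K L)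
    (σb_comm : ∀ c : B.R.S, R'.σb (M.iS c) = M.iS ((B.R.σb ^ M.a) c)) : FldBC B M.toFldBase where
  i1 := M.i1
  iF := M.iF
  iS := M.iS
  i1_comm := fun c => (M.i1_comm c).trans (by rw [hi0]; rfl)
  iS_comm := M.iS_comm
  gen1 := gen1
  intS := intS
  degF := degF
  a := M.a
  σ_comm := M.σ_comm
  σb_comm := σb_comm
  Wt_eq := by show B.Wt.map M.i0 = _; rw [hi0]
  W0_eq := M.W0_eq
  Q_eq := M.img_spec _
  Qb_eq := M.Qb_eq
  eI := M.eI
  ξ_eq := fun i => by
    show PtMap M.i1 (B.ξ i) (M.img (B.ξ (M.eI.symm (M.eI i))))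
    rw [Equiv.symm_apply_apply]
    exact M.img_spec _

end FldMove

theorem PtMap.ptX_eq {k k' : Type} [Field k] [Field k'] (f : k →+* k') {W : WeierstrassCurve k}
    {W' : WeierstrassCurve k'} {P : W.toAffine.Point} {P' : W'.toAffine.Point} (h : PtMap f P P') :
    ptX P' = f (ptX P) := by
  rcases P with _ | ⟨a, b, hab⟩ <;> rcases P' with _ | ⟨a', b', hab'⟩
  · exact (map_zero f).symm
  · exact h.elim
  · exact h.elim
  · exact h.1.symm

/-- the rank of the differentials of the elements `c i`, `i ∈ A` -/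
noncomputable def derRank {S I : Type} [Field S] (c : I → S) (A : Finset I) : ℕ :=
  Module.finrank S
    (LinearMap.range ((LinearMap.pi fun i : A =>
      ({ toFun := fun θ : Der S => θ (c i.1)
         map_add' := fun _ _ => rfl
         map_smul' := fun _ _ => rfl } : Der S →ₗ[S] S)) : Der S →ₗ[S] (A → S)))

/-- **new fields for a residue side** -/
structure ResMove (R : ResSide p) where
  F : Type
  S : Type
  [fF : Field F]
  [fS : Field S]
  [aFS : Algebra F S]
  [cpF : CharP F p]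
  [cpS : CharP S p]
  [finS : FiniteDimensional F S]
  [galS : IsGalois F S]
  iF : R.F →+* F
  iS : R.S →+* S
  iS_comm : ∀ c : R.F, iS (algebraMap R.F R.S c) = algebraMap F S (iF c)
  σb : S ≃ₐ[F] S
  σb_gen : ∀ τ : S ≃ₐ[F] S, τ ∈ Subgroup.zpowers σb
  a : ℕ
  σb_comm : ∀ c : R.S, σb (iS c) = iS ((R.σb ^ a) c)
  deg_a : a * Module.finrank F S = Module.finrank R.F R.S
  pd : ℕ
  pdeg : Module.finrank (frobenius S p).fieldRange S = p ^ pd
  u : ℕ
  rank : ∀ A : Finset R.I, A.card ≤ Module.finrank S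
    (LinearMap.range ((LinearMap.pi fun i : A =>
      ({ toFun := fun θ : Der S => θ (iS (ptX (R.t i.1)))
         map_add' := fun _ _ => rfl
         map_smul' := fun _ _ => rfl } : Der S →ₗ[S] S)) : Der S →ₗ[S] (A → S))) + u

attribute [instance] ResMove.fF ResMove.fS ResMove.aFS ResMove.cpF ResMove.cpS ResMove.finS
  ResMove.galS

namespace ResMove

variable {R : ResSide p} (M : ResMove R)

theorem curve_eq : (R.W0.map M.iF).baseChange M.S = (R.W0.baseChange R.S).map M.iS := by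
  rw [WeierstrassCurve.baseChange, WeierstrassCurve.baseChange, WeierstrassCurve.map_map,
    WeierstrassCurve.map_map]
  congr 1
  ext c
  exact (M.iS_comm c).symm

/-- the image of a point -/
noncomputable def img : (R.W0.baseChange R.S).toAffine.Point →+
    ((R.W0.map M.iF).baseChange M.S).toAffine.Point := ptHom' M.iS M.curve_eq

theorem img_spec (P : (R.W0.baseChange R.S).toAffine.Point) : PtMap M.iS P (M.img P) :=
  ptHom'_spec M.iS M.curve_eq P

theorem img_injective : Function.Injective M.img := ptHom'_injective M.iS M.curve_eq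

theorem map_img (P : (R.W0.baseChange R.S).toAffine.Point) :
    Affine.Point.map (W' := (R.W0.map M.iF).toAffine) M.σb.toAlgHom (M.img P)
      = M.img ((Affine.Point.map (W' := R.W0.toAffine) R.σb.toAlgHom)^[M.a] P) := by
  rw [← pointMap_pow]
  have h1 := (M.img_spec P).comp _ _ (ptMap_pointMap (R.W0.map M.iF) M.σb.toAlgHom (M.img P))
  have h2 := (ptMap_pointMap R.W0 (R.σb ^ M.a).toAlgHom P).comp _ _ (M.img_spec _)
  have h3 : ((M.σb.toAlgHom : M.S →+* M.S)).comp M.iS
      = M.iS.comp ((R.σb ^ M.a).toAlgHom : R.S →+* R.S) := by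
    ext c; exact M.σb_comm c
  rw [h3] at h1
  exact PtMap.unique _ h1 h2

theorem exists_pow_iF {c : R.F} (h : ∃ d : R.F, d ^ p = c) : ∃ d : M.F, d ^ p = M.iF c := by
  obtain ⟨d, rfl⟩ := h
  exact ⟨M.iF d, (map_pow _ _ _).symm⟩

/-- **the transported residue side** -/
noncomputable def toResSide : ResSide p where
  F := M.F
  S := M.S
  infF := Infinite.of_injective M.iF M.iF.injective
  σb := M.σb
  W0 := R.W0.map M.iF
  hΔ := by rw [WeierstrassCurve.map_Δ]; exact (map_ne_zero _).2 R.hΔ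
  Qb := M.img (M.a • R.Qb)
  σb_gen := M.σb_gen
  Qb_fix := by
    rw [M.map_img]
    congr 1
    exact Function.iterate_fixed (by rw [map_nsmul, R.Qb_fix]) _
  Qb_tors := by
    rw [← map_nsmul, smul_smul, mul_comm, M.deg_a, R.Qb_tors, map_zero]
  Dn := R.Dn
  db := fun j => M.img (R.db j)
  db_inj := M.img_injective.comp R.db_inj
  db_zero := by
    obtain ⟨j, hj⟩ := R.db_zero
    exact ⟨j, by rw [hj, map_zero]⟩
  db_neg := fun j => by
    obtain ⟨j', hj'⟩ := R.db_neg j
    exact ⟨j', by rw [hj', map_neg]⟩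
  db_stable := stable_image (Equiv.refl _) M.img _ _ M.a M.map_img R.Qb_fix R.db R.db_stable
  I := R.I
  t := fun i => M.img (R.t i)
  t_inj := M.img_injective.comp R.t_inj
  t_neg := fun i i' h => R.t_neg i i' (M.img_injective (by rw [h, map_neg]))
  t_d := fun i j h => R.t_d i j (M.img_injective h)
  t_stable := stable_image (Equiv.refl _) M.img _ _ M.a M.map_img R.Qb_fix R.t R.t_stable
  const := ⟨M.exists_pow_iF R.const.1, M.exists_pow_iF R.const.2.1, M.exists_pow_iF R.const.2.2.1,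
    M.exists_pow_iF R.const.2.2.2.1, M.exists_pow_iF R.const.2.2.2.2⟩
  pd := M.pd
  pdeg := M.pdeg
  u := M.u
  rank := fun A => by
    have h := M.rank A
    have e : (fun i : R.I => ptX (M.img (R.t i))) = fun i => M.iS (ptX (R.t i)) :=
      funext fun i => (M.img_spec (R.t i)).ptX_eq
    show A.card ≤ derRank (fun i : R.I => ptX (M.img (R.t i))) A + M.u
    rw [e]
    exact h

end ResMove

end Claimed.Agent.R280
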