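import Claimed.Agent.R280.Tw.Defs
import Claimed.Agent.R280.Tw.Move
import Claimed.Agent.R280.Ell.Main

/-!
# Row 280, leaf TW-E3 (~500 lines): the labels are affine, with pairwise distinct `x`-coordinates, and not 2-torsion (by reduction: `t_inj`, `t_neg`, `t_d`, `db_zero`, Ell8)
-/

set_option autoImplicit false

namespace Claimed.Agent.R280

open WithZero WeierstrassCurve Cardinal
open scoped Classical

/-- **E3**: coordinates of the labels -/
theorem FldBase.label_coords {p : ℕ} [Fact p.Prime] {L : Type} [Field L] (B : FldBase p L) :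
    ∃ a b : B.R.I → B.L1, (∀ i, ∃ h, B.ξ i = .some (a i) (b i) h) ∧ Function.Injective a ∧
      ∀ i, 2 * b i + algebraMap L B.L1 B.Wt.a₁ * a i + algebraMap L B.L1 B.Wt.a₃ ≠ 0 := by
  have hW := B.redCurve_up
  -- the reduced labels are affine
  have ht0 : ∀ i, B.R.t i ≠ 0 := by
    intro i
    obtain ⟨j, hj⟩ := B.R.db_zero
    rw [← hj]
    exact B.R.t_d i j
  -- the labels are affine
  have hξ : ∀ i, ∃ (a b : B.L1) (h : (B.Wt.baseChange B.L1).toAffine.Nonsingular a b),
      B.ξ i = .some a b h := by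
    intro i
    have hr := B.red_ξ i
    rcases hx : B.ξ i with _ | ⟨a, b, h⟩
    · rcases ht : B.R.t i with _ | ⟨a', b', h'⟩
      · exact absurd ht (ht0 i)
      · rw [hx, ht] at hr
        exact hr.elim
    · exact ⟨a, b, h, rfl⟩
  choose a b h hab using hξ
  refine ⟨a, b, fun i => ⟨h i, hab i⟩, ?_, ?_⟩
  · intro i i' hii
    rcases Affine.Y_eq_of_X_eq (h i).1 (h i').1 hii with hy | hy
    · have e : B.ξ i = B.ξ i' := by
        rw [hab i, hab i', Affine.Point.some.injEq]
        exact ⟨hii, hy⟩
      apply B.R.t_inj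
      refine RedPt.unique (B.red_ξ i) ?_
      rw [e]
      exact B.red_ξ i'
    · have e : B.ξ i = - B.ξ i' := by
        rw [hab i, hab i', Affine.Point.neg_some, Affine.Point.some.injEq]
        exact ⟨hii, hy⟩
      refine absurd (RedPt.unique (B.red_ξ i) ?_) (B.R.t_neg i i')
      rw [e]
      exact (B.red_ξ i').neg hW
  · intro i h0
    have e : B.ξ i = - B.ξ i := by
      rw [hab i, Affine.Point.neg_some, Affine.Point.some.injEq]
      refine ⟨rfl, ?_⟩
      have e1 : (B.Wt.baseChange B.L1).a₁ = algebraMap L B.L1 B.Wt.a₁ := rfl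
      have e3 : (B.Wt.baseChange B.L1).a₃ = algebraMap L B.L1 B.Wt.a₃ := rfl
      rw [Affine.negY, e1, e3]
      linear_combination h0
    refine absurd (RedPt.unique (B.red_ξ i) ?_) (B.R.t_neg i i)
    have h1 := (B.red_ξ i).neg hW
    rw [← e] at h1
    exact h1

end Claimed.Agent.R280
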