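import Claimed.Agent.R280.Tw.ThmC
import Claimed.Agent.R280.Gauss.Level

/-!
# Row 280, package TW-D (designer helper66; PROVED from the leaves GA0-GA6 in R280/Gauss/): **thm D** Gauss valuation, descent, reduction of sections (notes C10)
-/

set_option autoImplicit false

namespace Claimed.Agent.R280

open WithZero WeierstrassCurve Cardinal
open scoped Classical

variable {p : ℕ} [Fact p.Prime]

/-- **thm D** (Gauss valuation, descent, reduction of sections) -/
theorem TwBase.levelData {L XX : Type} [Field L] [Field XX] [Algebra L XX] (T : TwBase p L XX)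
    (m : ℕ) (hm : m * (T.R.u + Nat.log p m) < T.N) (K X : Type) [Field K] [Field X] [Algebra K X]
    [Algebra X XX] (Ξ : Set (Place K X))
    (hΞ : ∀ P' : Place L XX, T.IsMarked P' ↔ ∃ P₀ ∈ Ξ, P'.Over P₀) :
    Nonempty (LevelData p m K X Ξ L XX) :=
  T.levelData_pf m hm K X Ξ hΞ

end Claimed.Agent.R280
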