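import Claimed.Agent.R280.Tw.B5
import Claimed.Agent.R280.Tw.ThmD

/-!
# Row 280, Tw/Main: glue `TwBase.lvl` (PROVED): level data over every finite `L/K` with `p ^ h ∤ [L : K]`  ⇐  thm B + thm D
-/

set_option autoImplicit false

namespace Claimed.Agent.R280

open WithZero WeierstrassCurve Cardinal
open scoped Classical

variable {p : ℕ} [Fact p.Prime]

/-- glue: level data over every finite `L/K` with `p ^ h ∤ [L : K]` -/
theorem TwBase.lvl {K X : Type} [Field K] [Field X] [Algebra K X] (T : TwBase p K X) (m h s : ℕ)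
    (hN : T.N = p ^ s) (hu : T.R.u = 0) (hs : h ≤ s) (hthr : m * (h + Nat.log p m) < p ^ (s - h))
    (L XL : Type) [Field L] [Field XL] [Algebra K L] [Algebra K XL] [Algebra L XL] [Algebra X XL]
    [IsScalarTower K L XL] [IsScalarTower K X XL] [FiniteDimensional K L]
    (po : Algebra.IsPushout K L X XL) (hdiv : ¬ p ^ h ∣ Module.finrank K L) :
    Nonempty (LevelData p m K X {P | T.IsMarked P} L XL) := by
  obtain ⟨T', hN', hu', hmark⟩ := T.baseChange L XL po
  have hp : p.Prime := Fact.out
  set c := Module.finrank K L with hc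
  have hc0 : c ≠ 0 := Module.finrank_pos.ne'
  set a := padicValNat p c with ha
  have ha_lt : a < h := by
    by_contra hcon
    exact hdiv ((pow_dvd_pow p (not_lt.mp hcon)).trans pow_padicValNat_dvd)
  have hgcd : Nat.gcd (p ^ s) c = p ^ a := by
    apply Nat.dvd_antisymm
    · obtain ⟨k, hk, hk'⟩ := (Nat.dvd_prime_pow hp).1 (Nat.gcd_dvd_left (p ^ s) c)
      rw [hk']
      apply pow_dvd_pow
      exact (padicValNat_dvd_iff_le hc0).1 (hk' ▸ Nat.gcd_dvd_right (p ^ s) c)
    · exact Nat.dvd_gcd (pow_dvd_pow p (by omega)) pow_padicValNat_dvd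
  have hN'' : T'.N = p ^ (s - a) := by
    rw [hN', hN, hgcd, Nat.pow_div (by omega) hp.pos]
  refine T'.levelData m ?_ K X _ (fun P' => ?_)
  · rw [hN'', hu', hu, zero_add]
    calc m * (a + Nat.log p m) ≤ m * (h + Nat.log p m) := by gcongr
      _ < p ^ (s - h) := hthr
      _ ≤ p ^ (s - a) := Nat.pow_le_pow_right hp.pos (by omega)
  · rw [hmark]; rfl

end Claimed.Agent.R280
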