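import Claimed.Agent.R280.Gauss.Perms
import Claimed.Agent.R280.FF.OverH

/-!
# Row 280, Tw/Marked (glue, PROVED from GA0, GA4, Ell2, FF-OVERH): marked places and morphisms of twists
-/

set_option autoImplicit false

namespace Claimed.Agent.R280

open WithZero WeierstrassCurve
open scoped Classical

/-- places at points, along a morphism of Weierstrass function fields -/
theorem Place.isAtPt_iff_of_overH {k' l' M' N' : Type} [Field k'] [Field l'] [Field M'] [Field N']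
    [Algebra k' M'] [Algebra l' N'] {j1 : M' →+* N'} {i1 : k' →+* l'}
    (hc : ∀ c, j1 (algebraMap k' M' c) = algebraMap l' N' (i1 c)) {P1' : Place l' N'}
    {P1 : Place k' M'} (h : P1'.OverH j1 P1) {W : WeierstrassCurve k'} {W' : WeierstrassCurve l'}
    {R : W.toAffine.Point} {R' : W'.toAffine.Point} (hR : PtMap i1 R R') (x y : M') :
    P1'.IsAtPt (j1 x) (j1 y) R' ↔ P1.IsAtPt x y R := by
  rcases R with _ | ⟨a, b, hab⟩ <;> rcases R' with _ | ⟨a', b', hab'⟩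
  · show 1 < P1'.v (j1 x) ↔ 1 < P1.v x
    rw [← not_le, ← not_le, h.le_one_iff]
  · exact hR.elim
  · exact hR.elim
  · obtain ⟨rfl, rfl⟩ := hR
    show (P1'.v (j1 x - algebraMap l' N' (i1 a)) < 1 ∧ P1'.v (j1 y - algebraMap l' N' (i1 b)) < 1) ↔
      (P1.v (x - algebraMap k' M' a) < 1 ∧ P1.v (y - algebraMap k' M' b) < 1)
    rw [← hc, ← hc, ← map_sub, ← map_sub, h.lt_one_iff, h.lt_one_iff]

/-- every place of `XX1` over a marked place is at a label -/
theorem TwBase.marked_above {p : ℕ} [Fact p.Prime] {L XX : Type} [Field L] [Field XX] [Algebra L XX]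
    (T : TwBase p L XX) {P₀ : Place L XX} (h : T.IsMarked P₀) (P1 : Place T.L1 T.XX1)
    (h1 : P1.Over P₀) : ∃ i, P1.IsAtPt T.xt T.yt (T.ξ i) := by
  obtain ⟨π, hπ, -⟩ := T.toFldBase.exists_perm_ξ
  have hΔ : T.Wt.Δ ≠ 0 := T.red_W.disc_ne_zero T.R.hΔ
  obtain ⟨A⟩ := T.twL.nonempty_twFam hΔ T.ξ T.toFldBase.ξ_inj π hπ
  obtain ⟨i, P2, hP2, hP2'⟩ := h
  have hΔ' : (T.Wt.baseChange T.L1).Δ ≠ 0 := by
    rw [WeierstrassCurve.baseChange, WeierstrassCurve.map_Δ]; exact (map_ne_zero _).2 hΔ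
  have e1 : P2 = A.pl i := (T.twL.wff.existsUnique_atPt hΔ' (T.ξ i)).unique hP2 (A.pl_at i)
  have e2 : (A.pl i).Over (A.P (Cyc.mk π i)) := (A.over_iff _ _).2 ⟨i, rfl, rfl⟩
  have e3 : P₀ = A.P (Cyc.mk π i) := Place.OverH.unique (e1 ▸ hP2') e2
  obtain ⟨i', -, rfl⟩ := (A.over_iff _ _).1 (e3 ▸ h1)
  exact ⟨i', A.pl_at i'⟩

end Claimed.Agent.R280
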