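import Claimed.Agent.R280.Tw.DiscDefs

/-!
# Row 280, leaf TW-D2 (~600 lines): the shift has order `n`; Artin's theorem for `fixF σ`
Mathlib: `FixedPoints.subfield`, `FixedPoints.finrank_eq_card`, `IsGalois.of_fixed_field` for the action of `Subgroup.zpowers σ`.
-/

set_option autoImplicit false

namespace Claimed.Agent.R280

open WithZero WeierstrassCurve Cardinal
open scoped Classical

/-- `psPerm` as a monoid homomorphism -/
noncomputable def twD2PermHom (n : ℕ) (R : Type) [CommRing R] : Equiv.Perm (Fin n) →* (PSr n R ≃+* PSr n R) where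
  toFun := psPerm n R
  map_one' := by
    ext f : 1
    ext j : 1
    simp [psPerm]
  map_mul' := by
    intro e e'
    ext f : 1
    ext j : 1
    simp [psPerm, MvPolynomial.rename_rename]

theorem twD2_psPerm_CX (n : ℕ) (R : Type) [CommRing R] (e : Equiv.Perm (Fin n)) (i : Fin n) :
    psPerm n R e (PowerSeries.C (MvPolynomial.X i)) = PowerSeries.C (MvPolynomial.X (e i)) := by
  simp [psPerm]

theorem twD2_orderOf_finRotate (n : ℕ) (hn : 0 < n) : orderOf (finRotate n) = n := by
  rcases Nat.lt_or_ge n 2 with h | h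
  · obtain rfl : n = 1 := by omega
    rw [orderOf_eq_one_iff]
    exact Subsingleton.elim _ _
  · rw [(isCycle_finRotate_of_le h).orderOf, support_finRotate_of_le h]
    simp

theorem psShift_orderOf (n : ℕ) (hn : 0 < n) (R : Type) [CommRing R] [IsDomain R] :
    orderOf (psShift n R) = n := by
  have h1 : psShift n R = ((IsFractionRing.ringEquivOfRingEquivHom (PSr n R) (PSf n R)).comp
      (twD2PermHom n R)) (finRotate n) := rfl
  rw [h1, orderOf_injective _ ?_, twD2_orderOf_finRotate n hn]
  intro e e' h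
  ext i : 1
  have h2 := congrArg (fun φ : PSf n R ≃+* PSf n R =>
    φ (algebraMap (PSr n R) (PSf n R) (PowerSeries.C (MvPolynomial.X i)))) h
  simp only [MonoidHom.comp_apply, IsFractionRing.ringEquivOfRingEquivHom_apply] at h2
  rw [IsFractionRing.ringEquivOfRingEquiv_algebraMap, IsFractionRing.ringEquivOfRingEquiv_algebraMap] at h2
  have h3 := IsFractionRing.injective (PSr n R) (PSf n R) h2
  change psPerm n R e _ = psPerm n R e' _ at h3
  rw [twD2_psPerm_CX, twD2_psPerm_CX] at h3
  exact MvPolynomial.X_injective (PowerSeries.C_injective h3)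


theorem twD2_fix_eq {K : Type} [Field K] (σ : K ≃+* K) :
    fixF σ = FixedPoints.subfield (Subgroup.zpowers (σ : RingAut K)) K := by
  ext a
  constructor
  · intro ha g
    obtain ⟨g, k, rfl⟩ := g
    change (σ ^ k : RingAut K) a = a
    have ha' : σ a = a := ha
    induction k using Int.induction_on with
    | zero => simp
    | succ i ih =>
      rw [zpow_add, zpow_one, RingAut.mul_apply, ha', ih]
    | pred i ih =>
      rw [zpow_sub, zpow_one, RingAut.mul_apply]
      have : (σ⁻¹ : RingAut K) a = a := by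
        change σ.symm a = a
        rw [RingEquiv.symm_apply_eq, ha']
      rw [this, ih]
  · intro ha
    exact ha ⟨σ, Subgroup.mem_zpowers σ⟩

/-- Artin -/
theorem fix_galois {K : Type} [Field K] (σ : K ≃+* K) (n : ℕ) (hn : 0 < n) (hσ : orderOf σ = n) :
    FiniteDimensional (fixF σ) K ∧ IsGalois (fixF σ) K ∧ Module.finrank (fixF σ) K = n ∧
      ∃ σ' : K ≃ₐ[fixF σ] K, (∀ a, σ' a = σ a) ∧ ∀ τ : K ≃ₐ[fixF σ] K, τ ∈ Subgroup.zpowers σ' := by
  rw [twD2_fix_eq σ]
  have hcard : Nat.card (Subgroup.zpowers (σ : RingAut K)) = n := by rw [Nat.card_zpowers]; exact hσ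
  have : Finite (Subgroup.zpowers (σ : RingAut K)) := Nat.finite_of_card_ne_zero (by omega)
  have : Fintype (Subgroup.zpowers (σ : RingAut K)) := Fintype.ofFinite _
  refine ⟨inferInstance, inferInstance, ?_, ?_⟩
  · rw [FixedPoints.finrank_eq_card, ← Nat.card_eq_fintype_card, hcard]
  · refine ⟨MulSemiringAction.toAlgAut (Subgroup.zpowers (σ : RingAut K)) _ K ⟨σ, Subgroup.mem_zpowers σ⟩,
      fun a => rfl, fun τ => ?_⟩
    obtain ⟨⟨g, k, rfl⟩, rfl⟩ := (FixedPoints.toAlgAut_bijective (Subgroup.zpowers (σ : RingAut K)) K).2 τ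
    refine ⟨k, ?_⟩
    simp only
    rw [← map_zpow]
    rfl

end Claimed.Agent.R280
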