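import Claimed.Agent.R280.Tw.DiscDefs

/-!
# Row 280, leaf TW-D4 (~500 lines): residue field of a fixed field (trace trick)
`c ∈ S` with `∑_j σb^j c = 1` (independence of characters); for `a ∈ Fix σb` lift `c a` to `y`, then `∑_j σ^j y ∈ Fix σ` is integral with residue `a`.
-/

set_option autoImplicit false

namespace Claimed.Agent.R280

open WithZero WeierstrassCurve Cardinal
open scoped Classical

/-- `res` on integral elements -/
theorem d4_res_eq {K : Type} [Field K] {v : Valuation K ℚᵐ⁰} {k : Type} [Field k] (r : ResMap v k) {x : K}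
    (h : v x ≤ 1) : r.res x = r.toHom ⟨x, (Valuation.mem_valuationSubring_iff v x).2 h⟩ := by
  rw [ResMap.res, dif_pos h]

/-- the orbit sum of a ring automorphism -/
noncomputable def d4Tr {K : Type} [Field K] (σ : K ≃+* K) (n : ℕ) (a : K) : K :=
  ∑ j ∈ Finset.range n, (σ ^ j) a

theorem d4Tr_fixed {K : Type} [Field K] (σ : K ≃+* K) (n : ℕ) (hσ : σ ^ n = 1) (a : K) :
    σ (d4Tr σ n a) = d4Tr σ n a := by
  unfold d4Tr
  rw [map_sum]
  have h1 : ∀ j, σ ((σ ^ j) a) = (σ ^ (j + 1)) a := fun j => by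
    rw [pow_succ']
    rfl
  simp_rw [h1]
  have h2 := Finset.sum_range_succ' (fun j => (σ ^ j) a) n
  have h3 := Finset.sum_range_succ (fun j => (σ ^ j) a) n
  rw [h3] at h2
  simp only [hσ, pow_zero] at h2
  exact (add_right_cancel h2).symm

theorem d4_pow_fixed {K : Type} [Field K] (σ : K ≃+* K) {t : K} (ht : σ t = t) (j : ℕ) :
    (σ ^ j) t = t := by
  induction j with
  | zero => rfl
  | succ j ih =>
    rw [pow_succ]
    show (σ ^ j) (σ t) = t
    rw [ht, ih]

theorem d4Tr_mul_fixed {K : Type} [Field K] (σ : K ≃+* K) (n : ℕ) {t : K} (ht : σ t = t) (a : K) :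
    d4Tr σ n (a * t) = d4Tr σ n a * t := by
  unfold d4Tr
  rw [Finset.sum_mul]
  refine Finset.sum_congr rfl fun j _ => ?_
  rw [map_mul, d4_pow_fixed σ ht]

/-- independence of characters: some orbit sum does not vanish -/
theorem d4_exists_tr_ne_zero {S : Type} [Field S] (σb : S ≃+* S) (n : ℕ) (hn : 0 < n)
    (hσb : orderOf σb = n) : ∃ c : S, d4Tr σb n c ≠ 0 := by
  by_contra hcon
  push Not at hcon
  have hli := linearIndependent_monoidHom S S
  have hinj : Function.Injective fun j : Fin n => (((σb ^ (j : ℕ) : S ≃+* S) : S →+* S) : S →* S) := by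
    intro i j hij
    have h1 : σb ^ (i : ℕ) = σb ^ (j : ℕ) := by
      ext a
      exact DFunLike.congr_fun hij a
    exact Fin.ext (pow_injOn_Iio_orderOf (by rw [hσb]; exact i.2) (by rw [hσb]; exact j.2) h1)
  have hli' := hli.comp _ hinj
  rw [Fintype.linearIndependent_iff] at hli'
  have h0 := hli' (fun _ => 1) (by
    funext a
    have := hcon a
    unfold d4Tr at this
    rw [← Fin.sum_univ_eq_sum_range (fun j => (σb ^ j) a) n] at this
    simpa [Finset.sum_apply] using this) ⟨0, hn⟩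
  exact one_ne_zero h0

/-- the trace trick: an element of orbit sum one -/
theorem d4_exists_tr_eq_one {S : Type} [Field S] (σb : S ≃+* S) (n : ℕ) (hn : 0 < n)
    (hσb : orderOf σb = n) : ∃ c : S, d4Tr σb n c = 1 := by
  obtain ⟨c, hc⟩ := d4_exists_tr_ne_zero σb n hn hσb
  have hpow : σb ^ n = 1 := hσb ▸ pow_orderOf_eq_one σb
  have ht : σb (d4Tr σb n c) = d4Tr σb n c := d4Tr_fixed σb n hpow c
  refine ⟨c * (d4Tr σb n c)⁻¹, ?_⟩
  rw [d4Tr_mul_fixed σb n (by rw [map_inv₀, ht]), mul_inv_cancel₀ hc]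

theorem d4_val_pow {K1 : Type} [Field K1] (v1 : Valuation K1 ℚᵐ⁰) (σ : K1 ≃+* K1)
    (hval : ∀ a, v1 (σ a) = v1 a) (j : ℕ) (a : K1) : v1 ((σ ^ j) a) = v1 a := by
  induction j with
  | zero => rfl
  | succ j ih =>
    rw [pow_succ']
    show v1 (σ ((σ ^ j) a)) = v1 a
    rw [hval, ih]

theorem d4_res_pow {K1 S : Type} [Field K1] [Field S] (v1 : Valuation K1 ℚᵐ⁰) (r1 : ResMap v1 S)
    (σ : K1 ≃+* K1) (σb : S ≃+* S) (hval : ∀ a, v1 (σ a) = v1 a)
    (hres : ∀ a, v1 a ≤ 1 → r1.res (σ a) = σb (r1.res a)) (j : ℕ) (a : K1) (ha : v1 a ≤ 1) :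
    r1.res ((σ ^ j) a) = (σb ^ j) (r1.res a) := by
  induction j with
  | zero => rfl
  | succ j ih =>
    rw [pow_succ', pow_succ']
    show r1.res (σ ((σ ^ j) a)) = σb ((σb ^ j) (r1.res a))
    rw [hres _ (by rw [d4_val_pow v1 σ hval]; exact ha), ih]

theorem d4_res_sum {K1 S : Type} [Field K1] [Field S] (v1 : Valuation K1 ℚᵐ⁰) (r1 : ResMap v1 S)
    {ι : Type} (s : Finset ι) (f : ι → K1) (hf : ∀ i ∈ s, v1 (f i) ≤ 1) :
    v1 (∑ i ∈ s, f i) ≤ 1 ∧ r1.res (∑ i ∈ s, f i) = ∑ i ∈ s, r1.res (f i) := by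
  induction s using Finset.induction_on with
  | empty =>
    refine ⟨by simp, ?_⟩
    rw [Finset.sum_empty, Finset.sum_empty, d4_res_eq r1 (by simp)]
    exact map_zero r1.toHom
  | insert i s hi ih =>
    obtain ⟨h1, h2⟩ := ih fun j hj => hf j (Finset.mem_insert_of_mem hj)
    have hi1 : v1 (f i) ≤ 1 := hf i (Finset.mem_insert_self i s)
    rw [Finset.sum_insert hi, Finset.sum_insert hi]
    have h3 : v1 (f i + ∑ j ∈ s, f j) ≤ 1 := (v1.map_add _ _).trans (max_le hi1 h1)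
    refine ⟨h3, ?_⟩
    rw [← h2, d4_res_eq r1 h3, d4_res_eq r1 hi1, d4_res_eq r1 h1, ← map_add]
    rfl

/-- D4 (trace trick): `σ` isometric of finite order inducing `σb` of the same order on the residue field -/
theorem fix_resMap {K1 S : Type} [Field K1] [Field S] (v1 : Valuation K1 ℚᵐ⁰) (r1 : ResMap v1 S)
    (σ : K1 ≃+* K1) (σb : S ≃+* S) (n : ℕ) (hn : 0 < n) (hσ : orderOf σ = n) (hσb : orderOf σb = n)
    (hval : ∀ a, v1 (σ a) = v1 a) (hres : ∀ a, v1 a ≤ 1 → r1.res (σ a) = σb (r1.res a)) :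
    ∃ r : ResMap (v1.comap (fixF σ).subtype) (fixF σb),
      ∀ a : fixF σ, v1 (a : K1) ≤ 1 → ((r.res a : fixF σb) : S) = r1.res (a : K1) := by
  set w : Valuation (fixF σ) ℚᵐ⁰ := v1.comap (fixF σ).subtype with hw
  have hwv : ∀ a : fixF σ, w a = v1 (a : K1) := fun a => rfl
  -- the inclusion of the valuation rings
  let ι : w.valuationSubring →+* v1.valuationSubring :=
    { toFun := fun a => ⟨((a : fixF σ) : K1), (Valuation.mem_valuationSubring_iff v1 _).2
        ((Valuation.mem_valuationSubring_iff w _).1 a.2)⟩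
      map_one' := rfl
      map_mul' := fun _ _ => rfl
      map_zero' := rfl
      map_add' := fun _ _ => rfl }
  have hfix : ∀ a : w.valuationSubring, (r1.toHom.comp ι) a ∈ fixF σb := by
    intro a
    have ha1 : v1 ((a : fixF σ) : K1) ≤ 1 := (Valuation.mem_valuationSubring_iff w _).1 a.2
    have h1 := hres _ ha1
    have h2 : σ ((a : fixF σ) : K1) = ((a : fixF σ) : K1) := (a : fixF σ).2
    rw [h2, d4_res_eq r1 ha1] at h1
    exact h1.symm
  let φ : w.valuationSubring →+* fixF σb := (r1.toHom.comp ι).codRestrict (fixF σb) hfix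
  have hφ : ∀ a : w.valuationSubring, ((φ a : fixF σb) : S) = r1.toHom (ι a) := fun a => rfl
  have hpow : σ ^ n = 1 := hσ ▸ pow_orderOf_eq_one σ
  have hsurj : Function.Surjective φ := by
    intro a
    obtain ⟨c, hc⟩ := d4_exists_tr_eq_one σb n hn hσb
    obtain ⟨y, hy⟩ := r1.surj (c * (a : S))
    have hy1 : v1 (y : K1) ≤ 1 := (Valuation.mem_valuationSubring_iff v1 _).1 y.2
    have hyres : r1.res (y : K1) = c * (a : S) := by
      rw [d4_res_eq r1 hy1]
      exact hy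
    obtain ⟨hz1, hz2⟩ := d4_res_sum v1 r1 (Finset.range n) (fun j => (σ ^ j) (y : K1))
      (fun j _ => by rw [d4_val_pow v1 σ hval]; exact hy1)
    have hzfix : d4Tr σ n (y : K1) ∈ fixF σ := d4Tr_fixed σ n hpow _
    refine ⟨⟨⟨d4Tr σ n (y : K1), hzfix⟩, (Valuation.mem_valuationSubring_iff w _).2 hz1⟩, ?_⟩
    apply Subtype.ext
    rw [hφ]
    have h3 : r1.toHom (ι ⟨⟨d4Tr σ n (y : K1), hzfix⟩, (Valuation.mem_valuationSubring_iff w _).2 hz1⟩)
        = r1.res (∑ j ∈ Finset.range n, (σ ^ j) (y : K1)) := by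
      rw [d4_res_eq r1 hz1]
      rfl
    rw [h3, hz2]
    have h4 : ∀ j ∈ Finset.range n, r1.res ((σ ^ j) (y : K1)) = (σb ^ j) (c * (a : S)) := fun j _ => by
      rw [d4_res_pow v1 r1 σ σb hval hres j _ hy1, hyres]
    rw [Finset.sum_congr rfl h4]
    have h5 := d4Tr_mul_fixed σb n (t := (a : S)) a.2 c
    unfold d4Tr at h5 hc
    rw [h5, hc, one_mul]
  have hker : ∀ x : w.valuationSubring, φ x = 0 ↔ w (x : fixF σ) < 1 := by
    intro x
    have h1 : r1.toHom (ι x) = 0 ↔ w (x : fixF σ) < 1 := r1.ker (ι x)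
    rw [← h1, ← hφ]
    exact ⟨fun h => by rw [h]; rfl, fun h => Subtype.ext h⟩
  refine ⟨⟨φ, hsurj, hker⟩, fun a ha => ?_⟩
  rw [d4_res_eq _ (show w a ≤ 1 from ha), d4_res_eq r1 ha]
  rfl

end Claimed.Agent.R280
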