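import Claimed.Agent.R280.Tw.Defs
import Claimed.Agent.R280.Tw.D2
import Claimed.Agent.R280.Tw.D4
import Claimed.Agent.R280.Ell.Main

/-!
# Row 280, package TW-A3: **A3** existence of the twist (notes C3).   Glue `exists_twist` PROVED from two leaves:
* TW-A3a (~150 lines) `IsWFF.delta_pow`: `δ^j` is `σ^j`-semilinear and translates by `j • Q` (induction with `IsWFF.delta_comp`; `Q` is `σ`-fixed).
* TW-A3b (~450 lines) `pushout_of_fix` (Speiser / Artin): `δ` of order `n = [k':k]` inducing the generator `σ` on `k'`: `M' = Fix δ ⊗_k k'`.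
  A `k`-basis `b` of `k'` is linearly independent over `Fix δ` (apply `δ^j` to a relation; the matrix `σ^j b_i` is invertible: independence of characters / `Algebra.discr` of a separable extension), and
  `[M' : Fix δ] = n` (`fix_galois`), so it is a basis; `IsBaseChange` from a basis mapping to a basis (`IsBaseChange.of_basis` or `Algebra.IsPushout` via `TensorProduct` equivalence).
-/

set_option autoImplicit false

namespace Claimed.Agent.R280

open WithZero WeierstrassCurve Cardinal
open scoped Classical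

/-- TW-A3a -/
theorem IsWFF.delta_pow {k₀ k M : Type} [Field k₀] [Field k] [Field M] [Algebra k₀ k] [Algebra k M]
    {W₀ : WeierstrassCurve k₀} {x y : M} (h : IsWFF (W₀.baseChange k) M x y) (hΔ : W₀.Δ ≠ 0)
    {σ : k ≃ₐ[k₀] k} {Q : (W₀.baseChange k).toAffine.Point}
    (hfix : Affine.Point.map (W' := W₀.toAffine) σ.toAlgHom Q = Q) {δ : M ≃+* M}
    (h1 : ∀ c, δ (algebraMap k M c) = algebraMap k M (σ c))
    (h2 : IsTransBy (W₀.baseChange k) x y (δ x) (δ y) Q) (j : ℕ) :
    (∀ c, (δ ^ j) (algebraMap k M c) = algebraMap k M ((σ ^ j) c)) ∧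
      IsTransBy (W₀.baseChange k) x y ((δ ^ j) x) ((δ ^ j) y) (j • Q) := by
  have hfixj : ∀ i : ℕ, Affine.Point.map (W' := W₀.toAffine) (σ ^ i).toAlgHom Q = Q := by
    intro i
    induction i with
    | zero =>
      rw [pow_zero]
      cases Q <;> rfl
    | succ i ih =>
      have e : ((σ ^ (i + 1) : k ≃ₐ[k₀] k)).toAlgHom =
          ((σ ^ i : k ≃ₐ[k₀] k)).toAlgHom.comp σ.toAlgHom := by
        ext c
        rw [pow_succ]
        rfl
      rw [e, ← Affine.Point.map_map, hfix, ih]
  induction j with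
  | zero =>
    refine ⟨fun c => by rw [pow_zero, pow_zero]; rfl, ?_⟩
    rw [pow_zero, zero_nsmul]
    exact ⟨rfl, rfl⟩
  | succ j ih =>
    obtain ⟨a1, a2⟩ := ih
    have hz : ∀ w, (δ ^ (j + 1)) w = (δ ^ j) (δ w) := fun w => by
      rw [pow_succ]
      rfl
    refine ⟨fun c => ?_, ?_⟩
    · rw [hz, h1, a1, pow_succ]
      rfl
    · have h3 := h.delta_comp hΔ h1 h2 a1 a2
      rw [hfixj j, ← succ_nsmul] at h3
      rw [hz, hz]
      exact h3

theorem a3b_pow_alg {k k' M' : Type} [Field k] [Field k'] [Field M'] [Algebra k k'] [Algebra k' M']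
    (σ : k' ≃ₐ[k] k') (δ : M' ≃+* M') (hδ : ∀ c, δ (algebraMap k' M' c) = algebraMap k' M' (σ c))
    (j : ℕ) (c : k') : (δ ^ j) (algebraMap k' M' c) = algebraMap k' M' ((σ ^ j) c) := by
  induction j generalizing c with
  | zero => rfl
  | succ j ih =>
    rw [pow_succ, pow_succ]
    show (δ ^ j) (δ (algebraMap k' M' c)) = algebraMap k' M' ((σ ^ j) (σ c))
    rw [hδ, ih]

theorem a3b_sum_aut {k k' : Type} [Field k] [Field k'] [Algebra k k'] [FiniteDimensional k k']
    [IsGalois k k'] (σ : k' ≃ₐ[k] k') (hσ : ∀ τ : k' ≃ₐ[k] k', τ ∈ Subgroup.zpowers σ) (c : k') :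
    ∑ j ∈ Finset.range (Module.finrank k k'), (σ ^ j) c = algebraMap k k' (Algebra.trace k k' c) := by
  rw [trace_eq_sum_automorphisms]
  have hσord : orderOf σ = Module.finrank k k' := by
    have h := IsGalois.card_aut_eq_finrank k k'
    rw [← h, ← Nat.card_zpowers]
    have : Subgroup.zpowers σ = ⊤ := (Subgroup.eq_top_iff' _).2 hσ
    rw [this, Nat.card_congr Subgroup.topEquiv.toEquiv]
  have hinj : Set.InjOn (fun j : ℕ => σ ^ j) (Finset.range (Module.finrank k k') : Set ℕ) := by
    intro a ha b hb hab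
    refine pow_injOn_Iio_orderOf ?_ ?_ hab
    · rw [hσord]; exact Finset.mem_range.1 ha
    · rw [hσord]; exact Finset.mem_range.1 hb
  have himg : (Finset.range (Module.finrank k k')).image (fun j : ℕ => σ ^ j) = Finset.univ := by
    apply Finset.eq_univ_of_card
    rw [Finset.card_image_of_injOn hinj, Finset.card_range, ← Nat.card_eq_fintype_card,
      IsGalois.card_aut_eq_finrank]
  rw [← himg, Finset.sum_image hinj]

theorem a3b_tr_alg {k k' M' : Type} [Field k] [Field k'] [Field M'] [Algebra k k']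
    [Algebra k' M'] [Algebra k M'] [IsScalarTower k k' M'] [FiniteDimensional k k'] [IsGalois k k']
    (σ : k' ≃ₐ[k] k') (hσ : ∀ τ : k' ≃ₐ[k] k', τ ∈ Subgroup.zpowers σ) (δ : M' ≃+* M')
    (hδ : ∀ c, δ (algebraMap k' M' c) = algebraMap k' M' (σ c)) (c : k') :
    d4Tr δ (Module.finrank k k') (algebraMap k' M' c) = algebraMap k M' (Algebra.trace k k' c) := by
  unfold d4Tr
  simp_rw [a3b_pow_alg σ δ hδ]
  rw [← map_sum, a3b_sum_aut σ hσ, ← IsScalarTower.algebraMap_apply]

theorem a3b_tr_sum {K ι : Type} [Field K] (σ : K ≃+* K) (n : ℕ) (s : Finset ι) (f : ι → K) :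
    d4Tr σ n (∑ i ∈ s, f i) = ∑ i ∈ s, d4Tr σ n (f i) := by
  unfold d4Tr
  simp_rw [map_sum]
  exact Finset.sum_comm

theorem a3b_linInd {k k' M' : Type} [Field k] [Field k'] [Field M'] [Algebra k k']
    [Algebra k' M'] [Algebra k M'] [IsScalarTower k k' M'] [FiniteDimensional k k'] [IsGalois k k']
    (σ : k' ≃ₐ[k] k') (hσ : ∀ τ : k' ≃ₐ[k] k', τ ∈ Subgroup.zpowers σ) (δ : M' ≃+* M')
    (hδ : ∀ c, δ (algebraMap k' M' c) = algebraMap k' M' (σ c))
    (b : Module.Basis (Fin (Module.finrank k k')) k k') :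
    LinearIndependent (fixF δ) (fun i => algebraMap k' M' (b i)) := by
  rw [Fintype.linearIndependent_iff]
  intro g hg l
  set bd := (Algebra.traceForm k k').dualBasis (traceForm_nondegenerate k k') b with hbd
  have h1 : d4Tr δ (Module.finrank k k') ((∑ i, g i • algebraMap k' M' (b i)) * algebraMap k' M' (bd l)) = 0 := by
    rw [hg, zero_mul]
    simp [d4Tr]
  have h2 : ∀ i, d4Tr δ (Module.finrank k k') (g i • algebraMap k' M' (b i) * algebraMap k' M' (bd l)) =
      if i = l then (g i : M') else 0 := by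
    intro i
    have e1 : g i • algebraMap k' M' (b i) * algebraMap k' M' (bd l) =
        algebraMap k' M' (b i * bd l) * (g i : M') := by
      rw [map_mul, Subfield.smul_def, smul_eq_mul]
      ring
    rw [e1, d4Tr_mul_fixed δ _ (g i).2, a3b_tr_alg σ hσ δ hδ, ← Algebra.traceForm_apply,
      LinearMap.BilinForm.apply_dualBasis_right _ (Algebra.traceForm_isSymm k) b i l]
    split_ifs <;> simp
  rw [Finset.sum_mul, a3b_tr_sum, Finset.sum_congr rfl fun i _ => h2 i] at h1
  simpa using h1

/-- TW-A3b (Speiser) -/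
theorem pushout_of_fix {k k' M' : Type} [Field k] [Field k'] [Field M'] [Algebra k k']
    [Algebra k' M'] [Algebra k M'] [IsScalarTower k k' M'] [FiniteDimensional k k'] [IsGalois k k']
    (σ : k' ≃ₐ[k] k') (hσ : ∀ τ : k' ≃ₐ[k] k', τ ∈ Subgroup.zpowers σ) (δ : M' ≃+* M')
    (hδ : ∀ c, δ (algebraMap k' M' c) = algebraMap k' M' (σ c))
    (hord : orderOf δ = Module.finrank k k') [Algebra k (fixF δ)] [IsScalarTower k (fixF δ) M'] :
    Algebra.IsPushout k k' (fixF δ) M' := by
  have hn0 : 0 < Module.finrank k k' := Module.finrank_pos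
  obtain ⟨hfd, -, hrank, -⟩ := fix_galois δ _ hn0 hord
  let b := Module.finBasis k k'
  have hli := a3b_linInd σ hσ δ hδ b
  have : Nonempty (Fin (Module.finrank k k')) := ⟨⟨0, hn0⟩⟩
  let B : Module.Basis (Fin (Module.finrank k k')) (fixF δ) M' :=
    basisOfLinearIndependentOfCardEqFinrank hli (by rw [Fintype.card_fin, hrank])
  have hB : ∀ i, B i = algebraMap k' M' (b i) := fun i => by
    simp [B]
  have h1 : IsBaseChange (fixF δ) (Fintype.linearCombination k B) :=
    IsBaseChange.of_fintype_basis k B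
  have h2 := IsBaseChange.comp_equiv b.equivFun _ h1
  have h3 : (Fintype.linearCombination k B).comp b.equivFun.toLinearMap =
      (IsScalarTower.toAlgHom k k' M').toLinearMap := by
    refine LinearMap.ext fun c => ?_
    have e := b.sum_equivFun c
    simp only [LinearMap.comp_apply, LinearEquiv.coe_coe, Fintype.linearCombination_apply, hB,
      AlgHom.toLinearMap_apply, IsScalarTower.coe_toAlgHom']
    conv_rhs => rw [← e]
    rw [map_sum]
    refine Finset.sum_congr rfl fun i _ => ?_
    rw [Algebra.smul_def, Algebra.smul_def, map_mul, ← IsScalarTower.algebraMap_apply]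
  rw [h3] at h2
  exact (Algebra.IsPushout.mk h2).symm

/-- **A3**: existence of the twist -/
theorem exists_twist {k k' : Type} [Field k] [Field k'] [Algebra k k'] [FiniteDimensional k k']
    [IsGalois k k'] (W : WeierstrassCurve k) (hΔ : W.Δ ≠ 0) (σ : k' ≃ₐ[k] k')
    (hσ : ∀ τ : k' ≃ₐ[k] k', τ ∈ Subgroup.zpowers σ) (Q : (W.baseChange k').toAffine.Point)
    (hfix : Affine.Point.map (W' := W.toAffine) σ.toAlgHom Q = Q)
    (htors : Module.finrank k k' • Q = 0) :
    ∃ (M M' : Type) (_ : Field M) (_ : Field M') (_ : Algebra k M) (_ : Algebra k' M')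
      (_ : Algebra M M') (_ : Algebra k M') (_ : IsScalarTower k k' M') (_ : IsScalarTower k M M')
      (x y : M'), IsTwist W σ Q M M' x y := by
  obtain ⟨M', _, _, x, y, wff⟩ := exists_isWFF (W.baseChange k')
  obtain ⟨δ, ⟨h1, h2⟩, -⟩ := wff.exists_delta hΔ σ Q
  set n := Module.finrank k k' with hn
  have hn0 : 0 < n := Module.finrank_pos
  -- order of `σ`
  have hσord : orderOf σ = n := by
    have h := IsGalois.card_aut_eq_finrank k k'
    rw [hn, ← h, ← Nat.card_zpowers]
    have : Subgroup.zpowers σ = ⊤ := (Subgroup.eq_top_iff' _).2 hσ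
    rw [this, Nat.card_congr Subgroup.topEquiv.toEquiv]
  -- `δ ^ n = 1`
  have hpow : δ ^ n = 1 := by
    obtain ⟨a1, a2⟩ := wff.delta_pow hΔ hfix h1 h2 n
    rw [htors] at a2
    have hσn : σ ^ n = 1 := hσord ▸ pow_orderOf_eq_one σ
    obtain ⟨δ₀, -, huniq⟩ := wff.exists_delta hΔ (1 : k' ≃ₐ[k] k') 0
    rw [huniq (δ ^ n) ⟨fun c => by rw [a1, hσn], a2⟩]
    exact (huniq 1 ⟨fun c => rfl, ⟨rfl, rfl⟩⟩).symm
  have hord : orderOf δ = n := by
    apply Nat.dvd_antisymm (orderOf_dvd_of_pow_eq_one hpow)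
    rw [← hσord]
    apply orderOf_dvd_of_pow_eq_one
    ext c
    have := (wff.delta_pow hΔ hfix h1 h2 (orderOf δ)).1 c
    rw [pow_orderOf_eq_one] at this
    exact ((algebraMap k' M').injective this).symm
  letI : Algebra k M' := ((algebraMap k' M').comp (algebraMap k k')).toAlgebra
  haveI : IsScalarTower k k' M' := IsScalarTower.of_algebraMap_eq fun _ => rfl
  have hk : ∀ c : k, algebraMap k M' c ∈ fixF δ := fun c => by
    show δ (algebraMap k' M' (algebraMap k k' c)) = algebraMap k' M' (algebraMap k k' c)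
    rw [h1, σ.commutes]
  letI : Algebra k (fixF δ) := ((algebraMap k M').codRestrict (fixF δ) hk).toAlgebra
  haveI : IsScalarTower k (fixF δ) M' := IsScalarTower.of_algebraMap_eq fun _ => rfl
  obtain ⟨-, -, -, δ', hδ', -⟩ := fix_galois δ n hn0 hord
  exact ⟨fixF δ, M', inferInstance, inferInstance, inferInstance, inferInstance, inferInstance,
    inferInstance, inferInstance, inferInstance, x, y,
    { wff := wff
      po := pushout_of_fix σ hσ δ h1 hord
      gen := hσ
      twist := ⟨δ', fun c => by rw [hδ', h1], by rw [hδ', hδ']; exact h2⟩ }⟩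

end Claimed.Agent.R280
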