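import Claimed.Agent.R280.Tw.A4
import Claimed.Agent.R280.FF.ConstB

/-!
# Row 280, leaf TW-A5 (~900 lines): **A5** the index of a twist (notes C4)
`z` place of `M/k` of degree `b`; `D := conorm k' M' z` has degree `b` (FF7) and is `δ`-invariant; `IsWFF.existsUnique_isSum`, `IsSum.of_invariant`: `σ v - b • Q = v`; apply `cob`.
-/

set_option autoImplicit false

namespace Claimed.Agent.R280

open WithZero WeierstrassCurve Cardinal
open scoped Classical

variable {k k' : Type} [Field k] [Field k'] [Algebra k k'] [FiniteDimensional k k'] [IsGalois k k']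
  {W : WeierstrassCurve k} {σ : k' ≃ₐ[k] k'} {Q : (W.baseChange k').toAffine.Point}
  {M M' : Type} [Field M] [Field M'] [Algebra k M] [Algebra k' M'] [Algebra M M'] [Algebra k M']
  [IsScalarTower k k' M'] [IsScalarTower k M M'] {x y : M'}

/-- **A5**: the index of the twist -/
theorem index_of_cob (h : IsTwist W σ Q M M' x y) (hΔ : W.Δ ≠ 0) (N : ℕ)
    (cob : ∀ (v : (W.baseChange k').toAffine.Point) (b : ℤ),
      Affine.Point.map (W' := W.toAffine) σ.toAlgHom v - b • Q = v → (N : ℤ) ∣ b)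
    (P : Place k M) : N ∣ P.deg := by
  have := h.isFF
  obtain ⟨δ, h1, h2⟩ := h.twist
  have hΔk : (W.baseChange k').Δ ≠ 0 := ell5c_Δ_ne_zero hΔ
  set D₀ : Dvsr k M := Finsupp.single P 1 with hD₀
  set D : Dvsr k' M' := conorm k' M' D₀ with hD
  have hdeg : D.deg = (P.deg : ℤ) := by
    rw [hD, deg_conorm_constExt h.po, hD₀, Dvsr.deg_single, one_mul]
  have hinv : ∀ P1 P2 : Place k' M', (∀ f, P1.v (δ.toRingEquiv f) = P2.v f) → D P1 = D P2 := by
    intro P1 P2 h12
    obtain ⟨R1, ⟨e, he0, he⟩, -⟩ := Place.existsUnique_below_constExt h.po P1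
    have hO2 : P2.Over R1 := by
      refine ⟨e, he0, fun f => ?_⟩
      rw [← h12, ← he]
      congr 1
      exact δ.commutes f
    rw [hD, conorm_constExt_apply h.po D₀ ⟨e, he0, he⟩, conorm_constExt_apply h.po D₀ hO2]
  obtain ⟨R, hR⟩ := h.wff.exists_isSum hΔk D
  have key := IsSum.of_invariant h.wff hΔ (δ := δ.toRingEquiv) h1 h2 hinv hR
  have := cob R D.deg key
  rw [hdeg] at this
  exact Int.natCast_dvd_natCast.1 this

end Claimed.Agent.R280
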