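import Mathlib

/-!
# Row 280, leaf TW-B1a (~350 lines, pure Galois theory, Mathlib only): compositum of a cyclic extension with an arbitrary extension
`K1/K` finite Galois, `Gal(K1/K) = ⟨σ⟩`, `L/K` any field extension.  `Ω := AlgebraicClosure L`, `j : K1 →ₐ[K] Ω` (`IsAlgClosed.lift`), `L1 := IntermediateField.adjoin L (Set.range j)` (as a type), `i1 := j` corestricted.
* `L1/L` finite Galois: `K1 = K(θ)` (`Field.exists_primitive_element`), `g = minpoly K θ` separable and split in `K1`; `L1 = L(j θ)` is a splitting field of `g.map (algebraMap K L)` (`IsGalois.of_separable_splitting_field`), or: normal + separable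
  because it is generated by the roots `j (τ θ)` of a separable polynomial (`IntermediateField.normal_iff…`, `IntermediateField.isSeparable_adjoin_iff_isSeparable`).
* `Algebra.adjoin L (range i1) = ⊤`: `IntermediateField.adjoin_algebraic_toSubalgebra` (the generators are algebraic), then transport to the subtype.
* restriction `ρ : Gal(L1/L) →* Gal(K1/K)`: `τ` maps `i1 K1` to itself (`K1/K` normal: `AlgHom.restrictNormal` w.r.t. the `K`-algebra structure `K → L → L1` and `i1 : K1 →ₐ[K] L1`; `AlgEquiv.restrictNormalHom`), `i1 (ρ τ c) = τ (i1 c)`;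
  injective since `L1` is generated by `range i1`.
* the image `H` of `ρ` is a subgroup of the cyclic group `⟨σ⟩` of order `n = [K1:K]`, `|H| = [L1:L] =: m`; put `a := n / m`; `σ ^ a` has order `m` and `⟨σ ^ a⟩` is the only subgroup of order `m`
  (`IsCyclic.card_subgroup…`/`Subgroup.eq_of_le_of_card_ge`: every `h = σ ^ k ∈ H` satisfies `h ^ m = 1`, so `n ∣ k m`, `a ∣ k`, `h ∈ ⟨σ ^ a⟩`; equal cardinalities).  `σ' := ρ⁻¹ (σ ^ a)`.
Owner of the statement: helper256.
-/

set_option autoImplicit false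

namespace Claimed.Agent.R280

open Polynomial

/-- a group injecting into a finite cyclic group `⟨σ⟩` is generated by the preimage of `σ ^ a`,
`a = |G| / |H|` -/
theorem b1a_cyclic {G H : Type} [Group G] [Group H] [Finite G] (σ : G)
    (hσ : ∀ τ : G, τ ∈ Subgroup.zpowers σ) (ρ : H →* G) (hρ : Function.Injective ρ) :
    ∃ (σ' : H) (a : ℕ), ρ σ' = σ ^ a ∧ (∀ τ : H, τ ∈ Subgroup.zpowers σ') ∧
      a * Nat.card H = Nat.card G := by
  have : Finite H := Finite.of_injective ρ hρ
  have hn : orderOf σ = Nat.card G := orderOf_eq_card_of_forall_mem_zpowers hσ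
  have hdvd : Nat.card H ∣ Nat.card G := Subgroup.card_dvd_of_injective ρ hρ
  obtain ⟨a, ha⟩ := hdvd
  have hm0 : 0 < Nat.card H := Nat.card_pos
  have hn0 : 0 < Nat.card G := Nat.card_pos
  have ha0 : a ≠ 0 := by
    rintro rfl
    simp at ha
    omega
  have hle : ρ.range ≤ Subgroup.zpowers (σ ^ a) := by
    rintro _ ⟨h, rfl⟩
    obtain ⟨k, hk⟩ := hσ (ρ h)
    replace hk : σ ^ k = ρ h := hk
    have h1 : σ ^ (k * (Nat.card H : ℤ)) = 1 := by
      rw [zpow_mul, hk]
      simp only [zpow_natCast]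
      rw [← map_pow, pow_card_eq_one', map_one]
    rw [← orderOf_dvd_iff_zpow_eq_one, hn, ha] at h1
    push_cast at h1
    rw [mul_comm (Nat.card H : ℤ) (a : ℤ)] at h1
    have h2 : (a : ℤ) ∣ k := Int.dvd_of_mul_dvd_mul_right (by exact_mod_cast hm0.ne') h1
    obtain ⟨k', rfl⟩ := h2
    refine ⟨k', ?_⟩
    show (σ ^ a) ^ k' = ρ h
    rw [← hk, zpow_mul, zpow_natCast]
  have hcard : Nat.card (Subgroup.zpowers (σ ^ a)) ≤ Nat.card ρ.range := by
    rw [Nat.card_zpowers, orderOf_pow_of_dvd ha0 (by rw [hn, ha]; exact Dvd.intro_left _ rfl), hn,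
      ha, Nat.mul_div_cancel _ (Nat.pos_of_ne_zero ha0)]
    exact le_of_eq (Nat.card_congr (Equiv.ofInjective ρ hρ))
  have heq := Subgroup.eq_of_le_of_card_ge hle hcard
  obtain ⟨σ', hσ'⟩ : σ ^ a ∈ ρ.range := by
    rw [heq]; exact Subgroup.mem_zpowers _
  refine ⟨σ', a, hσ', fun τ => ?_, by rw [ha, mul_comm]⟩
  obtain ⟨z, hz⟩ := hle ⟨τ, rfl⟩
  replace hz : (σ ^ a) ^ z = ρ τ := hz
  refine ⟨z, hρ ?_⟩
  show ρ (σ' ^ z) = ρ τ
  rw [map_zpow, hσ', hz]

/-- TW-B1a -/
theorem exists_compositum {K K1 : Type} [Field K] [Field K1] [Algebra K K1] [FiniteDimensional K K1]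
    [IsGalois K K1] (σ : K1 ≃ₐ[K] K1) (hσ : ∀ τ : K1 ≃ₐ[K] K1, τ ∈ Subgroup.zpowers σ)
    (L : Type) [Field L] [Algebra K L] :
    ∃ (L1 : Type) (_ : Field L1) (_ : Algebra L L1) (_ : FiniteDimensional L L1) (_ : IsGalois L L1)
      (i1 : K1 →+* L1) (σ' : L1 ≃ₐ[L] L1) (a : ℕ),
      (∀ c : K, i1 (algebraMap K K1 c) = algebraMap L L1 (algebraMap K L c)) ∧
      Algebra.adjoin L (Set.range i1) = ⊤ ∧
      (∀ τ : L1 ≃ₐ[L] L1, τ ∈ Subgroup.zpowers σ') ∧
      (∀ c : K1, σ' (i1 c) = i1 ((σ ^ a) c)) ∧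
      a * Module.finrank L L1 = Module.finrank K K1 := by
  classical
  obtain ⟨g, hsep, hsplit⟩ := IsGalois.is_separable_splitting_field K K1
  set gL := g.map (algebraMap K L) with hgL
  have hgal : IsGalois L gL.SplittingField :=
    IsGalois.of_separable_splitting_field (p := gL) hsep.map
  have hfin : FiniteDimensional L gL.SplittingField := IsSplittingField.finiteDimensional _ gL
  have hs : (g.map (algebraMap K gL.SplittingField)).Splits := by
    have := SplittingField.splits gL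
    rwa [hgL, Polynomial.map_map, ← IsScalarTower.algebraMap_eq] at this
  let i1 : K1 →ₐ[K] gL.SplittingField := IsSplittingField.lift K1 g hs
  let _ : Algebra K1 gL.SplittingField := i1.toRingHom.toAlgebra
  have _ : IsScalarTower K K1 gL.SplittingField :=
    IsScalarTower.of_algebraMap_eq fun c => (i1.commutes c).symm
  have hadj : Algebra.adjoin L (Set.range i1) = ⊤ := by
    rw [eq_top_iff, ← IsSplittingField.adjoin_rootSet gL.SplittingField gL]
    apply Algebra.adjoin_mono
    have h1 : gL.rootSet gL.SplittingField = g.rootSet gL.SplittingField := by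
      rw [rootSet, rootSet, hgL, aroots_map]
    rw [h1, ← (IsSplittingField.splits K1 g).image_rootSet i1]
    rintro _ ⟨z, -, rfl⟩
    exact ⟨z, rfl⟩
  let ρ : (gL.SplittingField ≃ₐ[L] gL.SplittingField) →* (K1 ≃ₐ[K] K1) :=
    (AlgEquiv.restrictNormalHom K1).comp (AlgEquiv.restrictScalarsHom K)
  have hρc : ∀ (τ : gL.SplittingField ≃ₐ[L] gL.SplittingField) (c : K1), i1 (ρ τ c) = τ (i1 c) := by
    intro τ c
    exact AlgEquiv.restrictNormal_commutes (τ.restrictScalars K) K1 c
  have hρ : Function.Injective ρ := by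
    intro τ τ' h
    have h2 : (τ : gL.SplittingField →ₐ[L] gL.SplittingField) = τ' := by
      apply AlgHom.ext_of_adjoin_eq_top hadj
      rintro _ ⟨c, rfl⟩
      show τ (i1 c) = τ' (i1 c)
      rw [← hρc, ← hρc, h]
    exact AlgEquiv.coe_toAlgHom_injective h2
  obtain ⟨σ', a, h1, h2, h3⟩ := b1a_cyclic σ hσ ρ hρ
  refine ⟨gL.SplittingField, inferInstance, inferInstance, hfin, hgal, i1.toRingHom, σ', a,
    fun c => ?_, hadj, h2, fun c => ?_, ?_⟩
  · show i1 (algebraMap K K1 c) = _
    rw [i1.commutes, IsScalarTower.algebraMap_apply K L]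
  · show σ' (i1 c) = i1 ((σ ^ a) c)
    rw [← h1, hρc]
  · rw [← IsGalois.card_aut_eq_finrank L, ← IsGalois.card_aut_eq_finrank K K1]
    exact h3

end Claimed.Agent.R280
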