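import Claimed.Agent.R280.Spec.ValIface

/-!
# Row 280, Tw/B1b (glue, PROVED): functoriality of residue maps; a criterion for "cyclic Galois"
* `exists_resHom`  : an isometric ring homomorphism of valued fields induces a ring homomorphism of the residue fields.
* `exists_resAut`  : an isometric automorphism of `L1/L` induces an automorphism of `S/F`.
* `isGalois_of_finrank_le_orderOf` : `[S:F] ≤ ord σb` implies `S/F` Galois with group `⟨σb⟩`.
Owner: helper256.
-/

set_option autoImplicit false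

namespace Claimed.Agent.R280

open WithZero

theorem ResMap.exists_res_eq {K k : Type} [Field K] [Field k] {v : Valuation K ℚᵐ⁰} (r : ResMap v k)
    (c : k) : ∃ a : K, v a ≤ 1 ∧ r.res a = c := by
  obtain ⟨x, hx⟩ := r.surj c
  have h1 : v (x : K) ≤ 1 := (Valuation.mem_valuationSubring_iff v _).1 x.2
  exact ⟨x, h1, by rw [r.res_eq h1]; exact hx⟩

/-- an isometric ring homomorphism induces a homomorphism of residue fields -/
theorem exists_resHom {K K' k k' : Type} [Field K] [Field K'] [Field k] [Field k']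
    {v : Valuation K ℚᵐ⁰} {v' : Valuation K' ℚᵐ⁰} (r : ResMap v k) (r' : ResMap v' k')
    (i : K →+* K') (hv : ∀ c, v' (i c) = v c) :
    ∃ ib : k →+* k', ∀ c, v c ≤ 1 → r'.res (i c) = ib (r.res c) := by
  have hmem : ∀ x : v.valuationSubring, i (x : K) ∈ v'.valuationSubring := fun x => by
    rw [Valuation.mem_valuationSubring_iff, hv]
    exact (Valuation.mem_valuationSubring_iff v _).1 x.2
  let iO : v.valuationSubring →+* v'.valuationSubring :=
    (i.comp v.valuationSubring.subtype).codRestrict v'.valuationSubring.toSubring hmem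
  refine ⟨r.lift (r'.toHom.comp iO) (fun x hx => ?_), fun c hc => ?_⟩
  · rw [RingHom.comp_apply, r'.ker]
    show v' (i (x : K)) < 1
    rw [hv]; exact hx
  · rw [r.res_eq hc, ResMap.lift_toHom, r'.res_eq ((hv c).trans_le hc)]
    rfl

/-- an isometric automorphism induces an automorphism of the residue extension -/
theorem exists_resAut {L L1 F S : Type} [Field L] [Field L1] [Field F] [Field S] [Algebra L L1]
    [Algebra F S] {vL : Valuation L ℚᵐ⁰} {vL1 : Valuation L1 ℚᵐ⁰} {rL : ResMap vL F}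
    {rL1 : ResMap vL1 S} (hext : ValExt vL1 vL) (hres : ResExt rL1 rL) (σ : L1 ≃ₐ[L] L1)
    (hσ : ∀ a, vL1 (σ a) = vL1 a) :
    ∃ σb : S ≃ₐ[F] S, ∀ a, vL1 a ≤ 1 → rL1.res (σ a) = σb (rL1.res a) := by
  have hσ' : ∀ a, vL1 (σ.symm a) = vL1 a := fun a => by
    rw [← hσ (σ.symm a), AlgEquiv.apply_symm_apply]
  obtain ⟨f, hf⟩ := exists_resHom rL1 rL1 (σ : L1 →+* L1) hσ
  obtain ⟨g, hg⟩ := exists_resHom rL1 rL1 (σ.symm : L1 →+* L1) hσ'
  replace hf : ∀ c, vL1 c ≤ 1 → rL1.res (σ c) = f (rL1.res c) := hf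
  replace hg : ∀ c, vL1 c ≤ 1 → rL1.res (σ.symm c) = g (rL1.res c) := hg
  have hgf : ∀ c, g (f c) = c := fun c => by
    obtain ⟨a, ha, rfl⟩ := rL1.exists_res_eq c
    rw [← hf a ha, ← hg _ ((hσ a).trans_le ha)]
    congr 1
    exact σ.symm_apply_apply a
  have hfg : ∀ c, f (g c) = c := fun c => by
    obtain ⟨a, ha, rfl⟩ := rL1.exists_res_eq c
    rw [← hg a ha, ← hf _ ((hσ' a).trans_le ha)]
    congr 1
    exact σ.apply_symm_apply a
  refine ⟨AlgEquiv.ofRingEquiv (f := RingEquiv.ofRingHom f g (RingHom.ext hfg) (RingHom.ext hgf))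
    (fun c => ?_), fun a ha => hf a ha⟩
  obtain ⟨a, ha, rfl⟩ := rL.exists_res_eq c
  show f _ = _
  rw [← hres a ha, ← hf _ ((hext a).trans_le ha)]
  congr 1
  exact σ.commutes a

/-- enough automorphisms: cyclic Galois -/
theorem isGalois_of_finrank_le_orderOf {F S : Type} [Field F] [Field S] [Algebra F S]
    [FiniteDimensional F S] (σb : S ≃ₐ[F] S) (h : Module.finrank F S ≤ orderOf σb) :
    IsGalois F S ∧ ∀ τ : S ≃ₐ[F] S, τ ∈ Subgroup.zpowers σb := by
  have h1 : Nat.card (Subgroup.zpowers σb) = orderOf σb := Nat.card_zpowers σb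
  have h2 : Nat.card (S ≃ₐ[F] S) ≤ Module.finrank F S := by
    rw [Nat.card_eq_fintype_card]
    exact AlgEquiv.card_le
  have h3 : Nat.card (Subgroup.zpowers σb) ≤ Nat.card (S ≃ₐ[F] S) :=
    Subgroup.card_le_card_group _
  have h4 : Nat.card (S ≃ₐ[F] S) = Module.finrank F S := by omega
  have h5 : Subgroup.zpowers σb = ⊤ := Subgroup.eq_top_of_card_eq _ (by omega)
  refine ⟨IsGalois.of_card_aut_eq_finrank F S h4, fun τ => ?_⟩
  rw [h5]; trivial

end Claimed.Agent.R280
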