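import Claimed.Agent.R280.Tw.B1d

/-!
# Row 280, leaf TW-B1e (PROVED, helper151; Mathlib only, field theory): the rank of differentials drops by at most `v_p [T:S]` in a finite extension  ([T] Lemma 4.6 in derivation language)
* `derRk_le_purelyInsep` by strong induction on `[T:S]` (all `S`, `T`).  If `algebraMap S T` is onto, `T/S` is separable: `derRk_le_of_extend`, `exists_der_extend_sep`.  Otherwise `α ∉ S`, `k` minimal with `α ^ p ^ k ∈ S`
  (`IsPurelyInseparable.pow_mem`, `Nat.find`), `k ≥ 1`, `β := α ^ p ^ (k-1) ∉ S`, `β ^ p = b ∈ S`; `b` is not a `p`-th power in `S` (`(β - c) ^ p = 0`, `sub_pow_char`/`frobenius` injective).  `S₁ := S⟮β⟯`, `[S₁:S] = p` (`minpoly = X ^ p - C b`,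
  `X_pow_sub_C_irreducible_of_prime`, `IntermediateField.adjoin.finrank`); `derRk_le_of_extend_ker b` + `exists_der_extend_insep` (`Algebra.adjoin S {gen} = ⊤` in `S₁`: `IntermediateField.adjoin_simple_toSubalgebra_of_integral`);
  `T/S₁` purely inseparable (`IsPurelyInseparable.tower_top`), `[T:S₁] = [T:S] / p < [T:S]`; `padicValNat.mul`, `padicValNat_self`.
* `derRk_le_finite_ext`: `S₀ := separableClosure S T`; `S₀/S` separable (no loss), `T/S₀` purely inseparable (`separableClosure.isPurelyInseparable`), `v_p [T:S] = v_p [S₀:S] + v_p [T:S₀]`.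
Owner of the statements: helper256.
-/

set_option autoImplicit false

namespace Claimed.Agent.R280

open Polynomial IntermediateField

/-- one step of degree `p` -/
theorem b1e_step (p : ℕ) [Fact p.Prime] {S T : Type} [Field S] [Field T] [Algebra S T]
    [CharP S p] {β : T} {b : S} (hβ : β ^ p = algebraMap S T b) (hβS : β ∉ (algebraMap S T).range) :
    Module.finrank S S⟮β⟯ = p ∧ ∀ {I : Type} (c : I → S) (A : Finset I),
      derRk c A ≤ derRk (fun i => algebraMap S S⟮β⟯ (c i)) A + 1 := by
  have hp : p.Prime := Fact.out
  have : CharP T p := charP_of_injective_algebraMap (algebraMap S T).injective p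
  have hb : ∀ c : S, c ^ p ≠ b := by
    intro c hc
    apply hβS
    refine ⟨c, ?_⟩
    apply frobenius_inj T p
    rw [frobenius_def, frobenius_def, hβ, ← hc, map_pow]
  have hirr : Irreducible (X ^ p - C b : S[X]) := X_pow_sub_C_irreducible_of_prime hp hb
  have hmin : minpoly S β = X ^ p - C b := by
    symm
    apply minpoly.eq_of_irreducible_of_monic hirr _ (monic_X_pow_sub_C b hp.ne_zero)
    simp [hβ]
  have hint : IsIntegral S β := ⟨X ^ p - C b, monic_X_pow_sub_C b hp.ne_zero, by simp [hβ]⟩
  refine ⟨?_, fun c A => ?_⟩
  · rw [adjoin.finrank hint, hmin, natDegree_X_pow_sub_C]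
  · refine derRk_le_of_extend_ker b (fun θ hθ => ?_) c A
    refine exists_der_extend_insep hp (β := AdjoinSimple.gen S β) ?_ hb ?_ θ hθ
    · apply Subtype.ext
      simpa using hβ
    · have := (adjoin.powerBasis hint).adjoin_gen_eq_top
      simpa using this

theorem b1e_induction (p : ℕ) [Fact p.Prime] (d : ℕ) :
    ∀ (S T : Type) [Field S] [Field T] [Algebra S T] [FiniteDimensional S T] [CharP S p]
      [IsPurelyInseparable S T], Module.finrank S T = d → ∀ {I : Type} (c : I → S) (A : Finset I),
      derRk c A ≤ derRk (fun i => algebraMap S T (c i)) A + padicValNat p (Module.finrank S T) := by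
  induction d using Nat.strong_induction_on with
  | _ d ih =>
  intro S T _ _ _ _ _ _ hd I c A
  have hp : p.Prime := Fact.out
  by_cases hsurj : Function.Surjective (algebraMap S T)
  · have : Algebra.IsSeparable S T := ⟨fun t => by
      obtain ⟨s, rfl⟩ := hsurj t
      exact isSeparable_algebraMap s⟩
    exact (derRk_le_of_extend exists_der_extend_sep c A).trans (Nat.le_add_right _ _)
  · obtain ⟨α, hα⟩ : ∃ α : T, α ∉ (algebraMap S T).range := by
      by_contra hcon
      push Not at hcon
      exact hsurj fun t => hcon t
    have hex := IsPurelyInseparable.pow_mem S p α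
    classical
    set k := Nat.find hex with hk
    have hk1 : α ^ p ^ k ∈ (algebraMap S T).range := Nat.find_spec hex
    have hk0 : k ≠ 0 := by
      intro h0
      rw [h0] at hk1
      simp only [pow_zero, pow_one] at hk1
      exact hα hk1
    obtain ⟨b, hb⟩ := hk1
    have hβS : α ^ p ^ (k - 1) ∉ (algebraMap S T).range :=
      Nat.find_min hex (by omega)
    have hβ : (α ^ p ^ (k - 1)) ^ p = algebraMap S T b := by
      rw [hb, ← pow_mul, ← pow_succ, Nat.sub_add_cancel (Nat.pos_of_ne_zero hk0)]
    obtain ⟨hdeg, hstep⟩ := b1e_step p hβ hβS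
    set S₁ := S⟮α ^ p ^ (k - 1)⟯ with hS₁
    have : CharP S₁ p := charP_of_injective_algebraMap (algebraMap S S₁).injective p
    have : FiniteDimensional S₁ T := FiniteDimensional.right S S₁ T
    have : IsPurelyInseparable S₁ T := IsPurelyInseparable.tower_top S S₁ T
    have hmul : Module.finrank S S₁ * Module.finrank S₁ T = Module.finrank S T :=
      Module.finrank_mul_finrank S S₁ T
    rw [hdeg] at hmul
    have hpos : 0 < Module.finrank S₁ T := Module.finrank_pos
    have hlt : Module.finrank S₁ T < d := by
      rw [← hd, ← hmul]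
      exact lt_mul_of_one_lt_left hpos hp.one_lt
    have h2 := ih _ hlt S₁ T rfl (fun i => algebraMap S S₁ (c i)) A
    have hval : padicValNat p (Module.finrank S T) = 1 + padicValNat p (Module.finrank S₁ T) := by
      rw [← hmul, padicValNat.mul hp.ne_zero hpos.ne', padicValNat_self]
    have h1 := hstep c A
    have h3 : (fun i => algebraMap S₁ T (algebraMap S S₁ (c i))) = fun i => algebraMap S T (c i) := rfl
    rw [h3] at h2
    omega

theorem derRk_le_purelyInsep (p : ℕ) [Fact p.Prime] {S T : Type} [Field S] [Field T] [Algebra S T]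
    [FiniteDimensional S T] [CharP S p] [IsPurelyInseparable S T] {I : Type} (c : I → S)
    (A : Finset I) :
    derRk c A ≤ derRk (fun i => algebraMap S T (c i)) A + padicValNat p (Module.finrank S T) :=
  b1e_induction p _ S T rfl c A

/-- TW-B1e -/
theorem derRk_le_finite_ext (p : ℕ) [Fact p.Prime] {S T : Type} [Field S] [Field T] [Algebra S T]
    [FiniteDimensional S T] [CharP S p] {I : Type} (c : I → S) (A : Finset I) :
    derRk c A ≤ derRk (fun i => algebraMap S T (c i)) A + padicValNat p (Module.finrank S T) := by
  have hp : p.Prime := Fact.out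
  set S₀ := separableClosure S T with hS₀
  have : CharP S₀ p := charP_of_injective_algebraMap (algebraMap S S₀).injective p
  have : FiniteDimensional S₀ T := FiniteDimensional.right S S₀ T
  have h1 : derRk c A ≤ derRk (fun i => algebraMap S S₀ (c i)) A :=
    derRk_le_of_extend exists_der_extend_sep c A
  have h2 := derRk_le_purelyInsep p (S := S₀) (T := T) (fun i => algebraMap S S₀ (c i)) A
  have h3 : (fun i => algebraMap S₀ T (algebraMap S S₀ (c i))) = fun i => algebraMap S T (c i) := rfl
  rw [h3] at h2
  have hmul : Module.finrank S S₀ * Module.finrank S₀ T = Module.finrank S T :=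
    Module.finrank_mul_finrank S S₀ T
  have hpos : 0 < Module.finrank S₀ T := Module.finrank_pos
  have hpos' : 0 < Module.finrank S S₀ := Module.finrank_pos
  have hval : padicValNat p (Module.finrank S T)
      = padicValNat p (Module.finrank S S₀) + padicValNat p (Module.finrank S₀ T) := by
    rw [← hmul, padicValNat.mul hpos'.ne' hpos.ne']
  omega

end Claimed.Agent.R280
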