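import Claimed.Agent.R280.Tw.Move
import Claimed.Agent.R280.Tw.B1a
import Claimed.Agent.R280.Tw.B1b
import Claimed.Agent.R280.Tw.B1e
import Claimed.Agent.R280.Ins.PBasis
import Claimed.Agent.R280.Val.Main

/-!
# Row 280, package TW-B1: field level base change.  THIS FILE IS GLUE (everything here is proved)

    FldBase.exists_bc ⇐ exists_compositum (TW-B1a, pure Galois theory)
                      + exists_valExt, sph_finite_ext, sph_ext_unique (package Val)
                      + exists_resHom, exists_resAut, isGalois_of_finrank_le_orderOf (Tw/B1b, proved)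
                      + derRk_le_finite_ext (TW-B1e ⇐ TW-B1c extension of derivations, TW-B1d linear algebra)
                      + hasPDeg_of_finite (Ins/PBasis P5)
                      + ResMove.toResSide, FldMove.toFldBase, FldMove.toFldBC (Tw/Move, proved)

Route (simpler than the notes: no lift `θ` of a generator, no reduction of minimal polynomials).  `L1' = L·K1`, `σ'` a generator of `Gal(L1'/L)`, `σ' ∘ i1 = i1 ∘ σ ^ a`, `a [L1':L] = [K1:K]`.  Prolongations `vL'`, `vL1'` with residue fields
`F' ⊆ S'`, `[F':F] = [L:K]`, `[S':F'] = [L1':L]`.  `vL1' ∘ i1 = vL1` and `σ'` is isometric by uniqueness of prolongations; so `i1` induces `iS : S → S'` and `σ'` induces `σb' ∈ Aut(S'/F')` with `σb' ∘ iS = iS ∘ σb ^ a`.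
If `σb' ^ j = 1` then `σb ^ (a j) = 1`, so `a [S':F'] = [S:F] ∣ a j`: `ord σb' ≥ [S':F']`, hence `S'/F'` is Galois with group `⟨σb'⟩`.  `a [S':S] = [L:K]`, so `v_p [S':S] ≤ v_p [L:K]`.
-/

set_option autoImplicit false

namespace Claimed.Agent.R280

open WithZero WeierstrassCurve Cardinal
open scoped Classical

variable {p : ℕ} [Fact p.Prime]

theorem derRank_eq_derRk {S I : Type} [Field S] (c : I → S) (A : Finset I) :
    derRank c A = derRk c A := rfl

/-- the characteristic `p` part of B1 -/
theorem b1_charP {F S F' S' : Type} [Field F] [Field S] [Field F'] [Field S'] [Algebra F S]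
    [Algebra F F'] [Algebra F' S'] [FiniteDimensional F S] [FiniteDimensional F F']
    [FiniteDimensional F' S'] [CharP S p] [CharP S' p] (iS : S →+* S')
    (hcomm : ∀ c : F, iS (algebraMap F S c) = algebraMap F' S' (algebraMap F F' c)) (a : ℕ)
    (ha : a * Module.finrank F' S' = Module.finrank F S) :
    iS.IsIntegral ∧
    (∀ pd : ℕ, Module.finrank (frobenius S p).fieldRange S = p ^ pd →
      Module.finrank (frobenius S' p).fieldRange S' = p ^ pd) ∧
    ∀ (I : Type) (c : I → S) (A : Finset I),
      derRank c A ≤ derRank (fun i => iS (c i)) A + padicValNat p (Module.finrank F F') := by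
  let aSS' : Algebra S S' := iS.toAlgebra
  let aFS' : Algebra F S' := ((algebraMap F' S').comp (algebraMap F F')).toAlgebra
  have t1 : IsScalarTower F F' S' := IsScalarTower.of_algebraMap_eq' rfl
  have t2 : IsScalarTower F S S' := IsScalarTower.of_algebraMap_eq fun c => (hcomm c).symm
  have f1 : FiniteDimensional F S' := Module.Finite.trans F' S'
  have f2 : FiniteDimensional S S' := Module.Finite.of_restrictScalars_finite F S S'
  refine ⟨?_, fun pd h => ?_, fun I c A => ?_⟩
  · exact algebraMap_isIntegral_iff.2 (inferInstance : Algebra.IsIntegral S S')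
  · exact hasPDeg_of_finite (p := p) S (M := S') h
  · have h1 := derRk_le_finite_ext p (T := S') c A
    have e1 : Module.finrank F S * Module.finrank S S' = Module.finrank F S' :=
      Module.finrank_mul_finrank F S S'
    have e2 : Module.finrank F F' * Module.finrank F' S' = Module.finrank F S' :=
      Module.finrank_mul_finrank F F' S'
    have hm : 0 < Module.finrank F' S' := Module.finrank_pos
    have hx : 0 < Module.finrank S S' := Module.finrank_pos
    have hn : 0 < Module.finrank F S := Module.finrank_pos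
    have ha0 : a ≠ 0 := by
      rintro rfl
      rw [zero_mul] at ha
      omega
    have e3 : a * Module.finrank S S' = Module.finrank F F' := by
      apply Nat.eq_of_mul_eq_mul_right hm
      rw [e2, ← e1, ← ha]
      ring
    have e4 : padicValNat p (Module.finrank S S') ≤ padicValNat p (Module.finrank F F') := by
      rw [← e3, padicValNat.mul ha0 hx.ne']
      omega
    rw [derRank_eq_derRk, derRank_eq_derRk]
    exact h1.trans (Nat.add_le_add_left e4 _)

/-- powers of `σ` and reduction -/
theorem FldBase.pow_res {K : Type} [Field K] (B : FldBase p K) (j : ℕ) (x : B.L1)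
    (hx : B.vL1 x ≤ 1) :
    B.vL1 ((B.σ ^ j) x) ≤ 1 ∧ B.rL1.res ((B.σ ^ j) x) = (B.R.σb ^ j) (B.rL1.res x) := by
  induction j with
  | zero => exact ⟨hx, rfl⟩
  | succ j ih =>
    obtain ⟨h1, h2⟩ := ih
    rw [pow_succ', pow_succ', AlgEquiv.mul_apply, AlgEquiv.mul_apply]
    exact ⟨(B.σ_val _).trans_le h1, by rw [B.σ_res _ h1, h2]⟩

theorem ResSide.orderOf_σb (R : ResSide p) : orderOf R.σb = Module.finrank R.F R.S := by
  have h : Subgroup.zpowers R.σb = ⊤ := (Subgroup.eq_top_iff' _).2 R.σb_gen
  rw [← Nat.card_zpowers, h, Subgroup.card_top, IsGalois.card_aut_eq_finrank]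

/-- **B1** -/
theorem FldBase.exists_bc {K : Type} [Field K] (B : FldBase p K) (hsurj : Function.Surjective B.vL)
    (hsph : IsSphComplete B.vL) (L : Type) [Field L] [Algebra K L] [FiniteDimensional K L] :
    ∃ B' : FldBase p L, Nonempty (FldBC B B') ∧ Function.Surjective B'.vL ∧ IsSphComplete B'.vL ∧
      B'.R.u = B.R.u + padicValNat p (Module.finrank K L) := by
  obtain ⟨L1, _, _, _, _, i1, σ', a, hi1, hgen, hσ'gen, hσ'comm, hdeg⟩ :=
    exists_compositum B.σ B.σ_gen L
  obtain ⟨vL', F', _, _, rL', hext, hres⟩ := exists_valExt B.vL B.rL L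
  obtain ⟨hsurj', hsph', hfinF, hdegF⟩ := sph_finite_ext hsurj hsph hext hres
  have : Infinite F' := Infinite.of_injective _ (algebraMap B.R.F F').injective
  obtain ⟨vL1', S', _, _, rL1', hext1, hres1⟩ := exists_valExt vL' rL' L1
  obtain ⟨-, -, hfinS, hdegS⟩ := sph_finite_ext hsurj' hsph' hext1 hres1
  -- compatibility of the valuations
  have hval1 : ∀ c, vL1' (i1 c) = B.vL1 c := by
    have h2 : ValExt (vL1'.comap i1) B.vL := fun c => by
      show vL1' (i1 (algebraMap K B.L1 c)) = B.vL c
      rw [hi1, hext1, hext]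
    have := sph_ext_unique B.rL hsurj hsph h2 B.ext1
    exact fun c => congrArg (fun w : Valuation B.L1 ℚᵐ⁰ => w c) this
  obtain ⟨iS, hiS⟩ := exists_resHom B.rL1 rL1' i1 hval1
  have hiS_comm : ∀ c : B.R.F,
      iS (algebraMap B.R.F B.R.S c) = algebraMap F' S' (algebraMap B.R.F F' c) := fun c => by
    obtain ⟨x, hx, rfl⟩ := B.rL.exists_res_eq c
    rw [← B.rext1 x hx, ← hiS _ ((B.ext1 x).trans_le hx), hi1, hres1 _ ((hext x).trans_le hx),
      hres x hx]
  -- the induced automorphism
  have hσ'val : ∀ x, vL1' (σ' x) = vL1' x := by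
    have h2 : ValExt (vL1'.comap (σ' : L1 →+* L1)) vL' := fun c => by
      show vL1' (σ' (algebraMap L L1 c)) = vL' c
      rw [σ'.commutes]; exact hext1 c
    have := sph_ext_unique rL' hsurj' hsph' h2 hext1
    exact fun c => congrArg (fun w : Valuation L1 ℚᵐ⁰ => w c) this
  obtain ⟨σb', hσb'⟩ := exists_resAut hext1 hres1 σ' hσ'val
  have hσb'comm : ∀ c : B.R.S, σb' (iS c) = iS ((B.R.σb ^ a) c) := fun c => by
    obtain ⟨x, hx, rfl⟩ := B.rL1.exists_res_eq c
    rw [← hiS x hx, ← hσb' _ ((hval1 x).trans_le hx), hσ'comm, hiS _ (B.pow_res a x hx).1,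
      (B.pow_res a x hx).2]
  have hdeg_a : a * Module.finrank F' S' = Module.finrank B.R.F B.R.S := by
    rw [hdegS, hdeg, B.deg_eq]
  have ha0 : 0 < a := by
    rcases Nat.eq_zero_or_pos a with rfl | h
    · rw [zero_mul] at hdeg_a
      have : 0 < Module.finrank B.R.F B.R.S := Module.finrank_pos
      omega
    · exact h
  have hm : Module.finrank F' S' ≤ orderOf σb' := by
    have h1 : ∀ (j : ℕ) (c : B.R.S), (σb' ^ j) (iS c) = iS ((B.R.σb ^ (a * j)) c) := by
      intro j
      induction j with
      | zero => intro c; rfl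
      | succ j ih =>
        intro c
        rw [pow_succ', AlgEquiv.mul_apply, ih, hσb'comm, ← AlgEquiv.mul_apply, ← pow_add]
        congr 3
        ring
    have h2 : B.R.σb ^ (a * orderOf σb') = 1 := by
      ext c
      apply iS.injective
      rw [← h1, pow_orderOf_eq_one]
      rfl
    have h3 : orderOf B.R.σb ∣ a * orderOf σb' := orderOf_dvd_of_pow_eq_one h2
    rw [B.R.orderOf_σb, ← hdeg_a] at h3
    exact Nat.le_of_dvd (orderOf_pos σb') (Nat.dvd_of_mul_dvd_mul_left ha0 h3)
  obtain ⟨hgal, hσb'gen⟩ := isGalois_of_finrank_le_orderOf σb' hm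
  have : CharP F' p := charP_of_injective_algebraMap (algebraMap B.R.F F').injective p
  have : CharP S' p := charP_of_injective_algebraMap (algebraMap F' S').injective p
  obtain ⟨hint, hpd, hrank⟩ := b1_charP (p := p) iS hiS_comm a hdeg_a
  let MR : ResMove B.R :=
    { F := F', S := S', iF := algebraMap B.R.F F', iS := iS, iS_comm := hiS_comm, σb := σb'
      σb_gen := hσb'gen, a := a, σb_comm := hσb'comm, deg_a := hdeg_a, pd := B.R.pd
      pdeg := hpd _ B.R.pdeg, u := B.R.u + padicValNat p (Module.finrank K L)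
      rank := fun A => by
        have h1 : A.card ≤ derRank (fun i => ptX (B.R.t i)) A + B.R.u := B.R.rank A
        have h2 := hrank _ (fun i => ptX (B.R.t i)) A
        rw [hdegF] at h2
        show A.card ≤ derRank (fun i => iS (ptX (B.R.t i))) A + _
        omega }
  let M : FldMove B MR.toResSide L :=
    { L1 := L1, i0 := algebraMap K L, i1 := i1, iF := algebraMap B.R.F F', iS := iS
      i1_comm := hi1, iS_comm := hiS_comm, vL := vL', rL := rL', vL1 := vL1', rL1 := rL1'
      ext1 := hext1, rext1 := hres1, deg_eq := hdegS.symm, σ := σ', σ_val := hσ'val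
      σ_res := hσb', σ_gen := hσ'gen, val := hext, val1 := hval1, res := hres, res1 := hiS
      a := a, σ_comm := hσ'comm, deg_a := hdeg, W0_eq := rfl, Qb_eq := MR.img_spec _
      eD := Equiv.refl _, db_eq := fun _ => MR.img_spec _, eI := Equiv.refl _
      t_eq := fun _ => MR.img_spec _ }
  have hdegF' : @Module.finrank B.R.F F' _ _ (algebraMap B.R.F F').toAlgebra.toModule
      = Module.finrank K L := by
    have e : (algebraMap B.R.F F').toAlgebra = (inferInstance : Algebra B.R.F F') :=
      Algebra.algebra_ext _ _ fun _ => rfl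
    rw [e]
    exact hdegF
  exact ⟨M.toFldBase, ⟨M.toFldBC rfl hgen hint hdegF' hσb'comm⟩, hsurj', hsph', rfl⟩

end Claimed.Agent.R280
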