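import Mathlib

/-!
# Row 280, leaf TW-B1c (~300 lines, Mathlib only): extension of derivations to algebraic extensions
`Derivation ℤ S S` is what the rest of the row calls `Der S`.
* `exists_der_extend_sep`: `T/S` separable algebraic.  `Algebra.FormallyEtale.of_isSeparable`, `KaehlerDifferential.tensorKaehlerEquivOfFormallyEtale ℤ S T : T ⊗[S] Ω[S⁄ℤ] ≃ₗ[T] Ω[T⁄ℤ]` and
  `…_symm_D_algebraMap`: `θ` = `S`-linear map `Ω[S⁄ℤ] → S → T` (`Derivation.liftKaehlerDifferential`), base change (`LinearMap.liftBaseChange`), compose with the inverse equivalence and with `KaehlerDifferential.D ℤ T`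
  (`LinearMap.compDer`).
* `exists_der_extend_insep`: `T = S[β]`, `β ^ p = b`, `b` not a `p`-th power in `S`, `θ b = 0`.  `minpoly S β = X ^ p - C b` (`X_pow_sub_C_irreducible_of_prime`).  With `letI : Differential S := ⟨θ⟩` take `d := Differential.mapCoeffs` on `S[X]`,
  `Derivation.liftOfSurjective` along `aeval β : S[X] → T` (onto by `htop`); the kernel is generated by `X ^ p - C b`, and `d (q (X ^ p - C b)) = d q (X ^ p - C b) - q C (θ b)`  (cf. the instance `Differential (AdjoinRoot p)` in
  `Mathlib/FieldTheory/Differential/Basic.lean`).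
Owner of the statements: helper256.
-/

set_option autoImplicit false

namespace Claimed.Agent.R280

open TensorProduct KaehlerDifferential Polynomial

/-- the rank of the differentials of the elements `c i`, `i ∈ A` (`= derRank` of `Tw/Move.lean`, by `rfl`) -/
noncomputable def derRk {S I : Type} [Field S] (c : I → S) (A : Finset I) : ℕ :=
  Module.finrank S
    (LinearMap.range ((LinearMap.pi fun i : A =>
      ({ toFun := fun θ : Derivation ℤ S S => θ (c i.1)
         map_add' := fun _ _ => rfl
         map_smul' := fun _ _ => rfl } : Derivation ℤ S S →ₗ[S] S)) :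
        Derivation ℤ S S →ₗ[S] (A → S)))

/-- derivations extend along separable algebraic extensions -/
theorem exists_der_extend_sep {S T : Type} [Field S] [Field T] [Algebra S T]
    [Algebra.IsSeparable S T] (θ : Derivation ℤ S S) :
    ∃ θ' : Derivation ℤ T T, ∀ x : S, θ' (algebraMap S T x) = algebraMap S T (θ x) := by
  have : Algebra.FormallyEtale S T := Algebra.FormallyEtale.of_isSeparable S T
  let θT : Derivation ℤ S T := (Algebra.linearMap S T).compDer θ
  let ℓ : Ω[S⁄ℤ] →ₗ[S] T := θT.liftKaehlerDifferential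
  let e := KaehlerDifferential.tensorKaehlerEquivOfFormallyEtale ℤ S T
  refine ⟨((ℓ.liftBaseChange T) ∘ₗ e.symm.toLinearMap).compDer (KaehlerDifferential.D ℤ T), ?_⟩
  intro x
  show (ℓ.liftBaseChange T) (e.symm (KaehlerDifferential.D ℤ T (algebraMap S T x))) = _
  rw [KaehlerDifferential.tensorKaehlerEquivOfFormallyEtale_symm_D_algebraMap]
  simp only [LinearMap.liftBaseChange_tmul, one_smul]
  show θT.liftKaehlerDifferential (KaehlerDifferential.D ℤ S x) = _
  rw [Derivation.liftKaehlerDifferential_comp_D]
  rfl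

/-- a derivation killing `b` extends to `S(b ^ (1/p))` -/
theorem exists_der_extend_insep {p : ℕ} (hp : p.Prime) {S T : Type} [Field S] [Field T]
    [Algebra S T] {β : T} {b : S} (hβ : β ^ p = algebraMap S T b) (hb : ∀ c : S, c ^ p ≠ b)
    (htop : Algebra.adjoin S {β} = ⊤) (θ : Derivation ℤ S S) (hθ : θ b = 0) :
    ∃ θ' : Derivation ℤ T T, ∀ x : S, θ' (algebraMap S T x) = algebraMap S T (θ x) := by
  let _ : Differential S := ⟨θ⟩
  let f : S[X] →ₐ[ℤ] T := (aeval β : S[X] →ₐ[S] T).toRingHom.toIntAlgHom
  have hf : ∀ q : S[X], f q = aeval β q := fun _ => rfl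
  have hsurj : Function.Surjective f := by
    intro z
    have hz : z ∈ Algebra.adjoin S {β} := by rw [htop]; trivial
    rw [Algebra.adjoin_singleton_eq_range_aeval] at hz
    obtain ⟨q, hq⟩ := hz
    exact ⟨q, hq⟩
  have hirr : Irreducible (X ^ p - C b : S[X]) := X_pow_sub_C_irreducible_of_prime hp hb
  have hmin : X ^ p - C b = minpoly S β :=
    minpoly.eq_of_irreducible_of_monic hirr (by simp [hβ]) (monic_X_pow_sub_C b hp.ne_zero)
  have hker : ∀ q : S[X], f q = 0 → f (Differential.mapCoeffs q) = 0 := by
    intro q hq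
    have h1 : (X ^ p - C b : S[X]) ∣ q := hmin ▸ minpoly.dvd S β hq
    obtain ⟨r, rfl⟩ := h1
    have h2 : Differential.mapCoeffs (X ^ p - C b : S[X]) = 0 := by
      rw [map_sub, Derivation.leibniz_pow, Differential.mapCoeffs_X, Differential.mapCoeffs_C]
      have : (Differential.deriv b : S) = 0 := hθ
      simp [this]
    rw [Derivation.leibniz, h2, smul_zero, add_zero, smul_eq_mul, hf, map_mul]
    have h3 : aeval β (X ^ p - C b : S[X]) = 0 := by simp [hβ]
    rw [h3, zero_mul]
  refine ⟨Derivation.liftOfSurjective hsurj hker, fun x => ?_⟩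
  have h4 : algebraMap S T x = f (C x) := by rw [hf, aeval_C]
  rw [h4, Derivation.liftOfSurjective_apply, Differential.mapCoeffs_C, hf, aeval_C]
  rfl

end Claimed.Agent.R280
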