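import Claimed.Agent.R280.Tw.B1c

/-!
# Row 280, leaf TW-B1d (PROVED, helper151; Mathlib only, linear algebra): the rank of differentials under a field extension
`ev_S : Der S → S^A`, `θ ↦ (θ (c i))_i`; `derRk c A = dim_S (range ev_S)`.
* `linearIndependent_map_algebraMap`: `S`-independent vectors of `S^A` stay independent in `T^A`: a left inverse `π : S^A → S^n` of `(x_k) ↦ ∑ x_k w_k` (`LinearMap.exists_leftInverse_of_injective`) is a matrix `P` over `S`; apply `P.map (algebraMap S T)`.
* `derRk_le_of_extend`: a basis `w_k = ev_S θ_k` of the range; `ev_T θ_k' = algebraMap ∘ w_k` are independent vectors of `range ev_T` (`LinearIndependent.fintype_card_le_finrank` in the range, or `finrank_span_eq_card` + `Submodule.finrank_mono`).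
* `derRk_le_of_extend_ker`: `D₀ := ker (θ ↦ θ b)`; `range ev_S = ev_S D₀ + S · ev_S θ₀` for any `θ₀` with `θ₀ b ≠ 0` (`θ - (θ b / θ₀ b) θ₀ ∈ D₀`), so `dim (ev_S D₀) + 1 ≥ dim (range ev_S)`; then as before for a basis of `ev_S D₀`.
Owner of the statements: helper256.
-/

set_option autoImplicit false

namespace Claimed.Agent.R280

theorem linearIndependent_map_algebraMap {S T : Type} [Field S] [Field T] [Algebra S T]
    {A n : Type} [Finite A] [Finite n] {w : n → A → S} (hw : LinearIndependent S w) :
    LinearIndependent T fun (k : n) (a : A) => algebraMap S T (w k a) := by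
  classical
  cases nonempty_fintype A
  cases nonempty_fintype n
  have hinj : Function.Injective (Fintype.linearCombination S w) :=
    hw.fintypeLinearCombination_injective
  obtain ⟨π, hπ⟩ := LinearMap.exists_leftInverse_of_injective (Fintype.linearCombination S w)
    (LinearMap.ker_eq_bot.2 hinj)
  -- the matrix of `π`
  have hP : ∀ k k' : n, ∑ a, w k a * π (Pi.single a 1) k' = if k = k' then 1 else 0 := by
    intro k k'
    have h1 : π (w k) = Pi.single k 1 := by
      have := LinearMap.congr_fun hπ (Pi.single k 1)
      simpa [Fintype.linearCombination_apply_single] using this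
    have h2 : π (w k) = ∑ a, w k a • π (Pi.single a 1) := by
      conv_lhs => rw [← Finset.univ_sum_single (w k)]
      rw [map_sum]
      refine Finset.sum_congr rfl fun a _ => ?_
      rw [← map_smul]
      congr 1
      ext a'
      simp [Pi.single_apply]
    have h3 := congrFun (h2.symm.trans h1) k'
    simpa [Pi.single_apply, eq_comm] using h3
  rw [Fintype.linearIndependent_iff]
  intro t ht k'
  have h1 : ∀ a, ∑ k, t k * algebraMap S T (w k a) = 0 := by
    intro a
    have := congrFun ht a
    simpa using this
  have h2 : ∑ a, (∑ k, t k * algebraMap S T (w k a)) * algebraMap S T (π (Pi.single a 1) k') = 0 := by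
    simp [h1]
  simp only [Finset.sum_mul] at h2
  rw [Finset.sum_comm] at h2
  have h3 : ∀ k, ∑ a, t k * algebraMap S T (w k a) * algebraMap S T (π (Pi.single a 1) k')
      = t k * if k = k' then 1 else 0 := by
    intro k
    simp only [mul_assoc, ← Finset.mul_sum, ← map_mul, ← map_sum, hP]
    split_ifs <;> simp
  simpa [h3] using h2

/-- the evaluation map `θ ↦ (θ (c i))_i` -/
noncomputable def b1dEv {S I : Type} [Field S] (c : I → S) (A : Finset I) :
    Derivation ℤ S S →ₗ[S] (A → S) :=
  LinearMap.pi fun i : A =>
      ({ toFun := fun θ : Derivation ℤ S S => θ (c i.1)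
         map_add' := fun _ _ => rfl
         map_smul' := fun _ _ => rfl } : Derivation ℤ S S →ₗ[S] S)

theorem b1dEv_apply {S I : Type} [Field S] (c : I → S) (A : Finset I) (θ : Derivation ℤ S S)
    (i : A) : b1dEv c A θ i = θ (c i.1) := rfl

theorem derRk_eq_b1dEv {S I : Type} [Field S] (c : I → S) (A : Finset I) :
    derRk c A = Module.finrank S (LinearMap.range (b1dEv c A)) := rfl

/-- independent vectors inside a finite dimensional subspace -/
theorem b1d_card_le {K V n : Type} [Field K] [AddCommGroup V] [Module K V] [Fintype n]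
    (U : Submodule K V) [FiniteDimensional K U] {v : n → V} (hv : LinearIndependent K v)
    (hU : ∀ k, v k ∈ U) : Fintype.card n ≤ Module.finrank K U := by
  have : LinearIndependent K (fun k => (⟨v k, hU k⟩ : U)) :=
    LinearIndependent.of_comp U.subtype hv
  exact this.fintype_card_le_finrank

theorem b1d_exists_basis {K V : Type} [Field K] [AddCommGroup V] [Module K V]
    [FiniteDimensional K V] (U : Submodule K V) :
    ∃ w : Fin (Module.finrank K U) → V, LinearIndependent K w ∧ ∀ k, w k ∈ U :=
  ⟨fun k => (Module.finBasis K U k : V),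
    (Module.finBasis K U).linearIndependent.map' U.subtype (Submodule.ker_subtype U),
    fun k => (Module.finBasis K U k).2⟩

/-- if all derivations in the subspace `D` extend, the rank of `D` does not drop -/
theorem b1d_key {S T : Type} [Field S] [Field T] [Algebra S T]
    (D : Submodule S (Derivation ℤ S S))
    (hext : ∀ θ ∈ D, ∃ θ' : Derivation ℤ T T,
      ∀ x : S, θ' (algebraMap S T x) = algebraMap S T (θ x))
    {I : Type} (c : I → S) (A : Finset I) :
    Module.finrank S (D.map (b1dEv c A)) ≤ derRk (fun i => algebraMap S T (c i)) A := by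
  obtain ⟨w, hli, hex⟩ := b1d_exists_basis (D.map (b1dEv c A))
  have hli' := linearIndependent_map_algebraMap (T := T) hli
  choose θ hθD hθ using hex
  choose θ' hθ' using fun k => hext (θ k) (hθD k)
  rw [derRk_eq_b1dEv]
  have := b1d_card_le (LinearMap.range (b1dEv (fun i => algebraMap S T (c i)) A)) hli' (fun k => by
    refine ⟨θ' k, ?_⟩
    funext a
    rw [b1dEv_apply, hθ', ← hθ, b1dEv_apply])
  simpa using this

/-- if all derivations extend, the rank does not drop -/
theorem derRk_le_of_extend {S T : Type} [Field S] [Field T] [Algebra S T]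
    (hext : ∀ θ : Derivation ℤ S S, ∃ θ' : Derivation ℤ T T,
      ∀ x : S, θ' (algebraMap S T x) = algebraMap S T (θ x))
    {I : Type} (c : I → S) (A : Finset I) :
    derRk c A ≤ derRk (fun i => algebraMap S T (c i)) A := by
  rw [derRk_eq_b1dEv, LinearMap.range_eq_map]
  exact b1d_key ⊤ (fun θ _ => hext θ) c A

/-- restricting a linear map to a hyperplane lowers the rank by at most one -/
theorem b1d_rank_ker {K V W : Type} [Field K] [AddCommGroup V] [Module K V] [AddCommGroup W]
    [Module K W] [FiniteDimensional K W] (f : V →ₗ[K] W) (φ : V →ₗ[K] K) :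
    Module.finrank K (LinearMap.range f) ≤ Module.finrank K ((LinearMap.ker φ).map f) + 1 := by
  by_cases h : ∃ v₀, φ v₀ ≠ 0
  · obtain ⟨v₀, hv₀⟩ := h
    have hle : LinearMap.range f ≤ (LinearMap.ker φ).map f ⊔ Submodule.span K {f v₀} := by
      rintro _ ⟨v, rfl⟩
      have : f v = f (v - (φ v / φ v₀) • v₀) + (φ v / φ v₀) • f v₀ := by
        rw [map_sub, map_smul, sub_add_cancel]
      rw [this]
      refine Submodule.add_mem_sup (Submodule.mem_map_of_mem ?_)
        (Submodule.smul_mem _ _ (Submodule.mem_span_singleton_self _))
      rw [LinearMap.mem_ker, map_sub, map_smul, smul_eq_mul, div_mul_cancel₀ _ hv₀, sub_self]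
    calc Module.finrank K (LinearMap.range f)
        ≤ Module.finrank K ((LinearMap.ker φ).map f ⊔ Submodule.span K {f v₀} : Submodule K W) :=
          Submodule.finrank_mono hle
      _ ≤ Module.finrank K ((LinearMap.ker φ).map f) + Module.finrank K (Submodule.span K {f v₀}) :=
          Submodule.finrank_add_le_finrank_add_finrank _ _
      _ ≤ Module.finrank K ((LinearMap.ker φ).map f) + 1 := by
          gcongr
          exact (finrank_span_le_card _).trans (by simp)
  · push Not at h
    have : LinearMap.ker φ = ⊤ := by
      rw [eq_top_iff]; intro v _; exact h v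
    rw [this, ← LinearMap.range_eq_map]
    exact Nat.le_succ _

/-- if all derivations killing `b` extend, the rank drops by at most one -/
theorem derRk_le_of_extend_ker {S T : Type} [Field S] [Field T] [Algebra S T] (b : S)
    (hext : ∀ θ : Derivation ℤ S S, θ b = 0 → ∃ θ' : Derivation ℤ T T,
      ∀ x : S, θ' (algebraMap S T x) = algebraMap S T (θ x))
    {I : Type} (c : I → S) (A : Finset I) :
    derRk c A ≤ derRk (fun i => algebraMap S T (c i)) A + 1 := by
  let φ : Derivation ℤ S S →ₗ[S] S :=
    { toFun := fun θ => θ b
      map_add' := fun _ _ => rfl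
      map_smul' := fun _ _ => rfl }
  rw [derRk_eq_b1dEv]
  refine (b1d_rank_ker (b1dEv c A) φ).trans ?_
  gcongr
  exact b1d_key (LinearMap.ker φ) (fun θ hθ => hext θ hθ) c A

end Claimed.Agent.R280
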