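import Claimed.Agent.R280.Tw.Defs
import Claimed.Agent.R280.FF.Main
import Claimed.Agent.R280.FF.OverH

/-!
# Row 280, leaf TW-B3 (~500 lines): the index after base change
`P` place of `N/l`, `P₀` the place of `M/k` below (`Place.exists_overH`); `k(P₀) → k(P)` over `k`; `[k(P):k] = [k(P):l][l:k] = [k(P):k(P₀)] deg P₀`: `n ∣ deg P₀ ∣ [l:k] deg_l P`.   (`l/k` may be inseparable; no pushout needed.)
-/

set_option autoImplicit false

namespace Claimed.Agent.R280

open WithZero WeierstrassCurve Cardinal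
open scoped Classical

/-- arithmetic: `n ∣ c d`, `c > 0` gives `n / gcd (n, c) ∣ d` -/
theorem b3_arith {n c d : ℕ} (hc0 : 0 < c) (h : n ∣ c * d) : n / Nat.gcd n c ∣ d := by
  have hg : 0 < Nat.gcd n c := Nat.gcd_pos_of_pos_right n hc0
  have hcop : Nat.Coprime (n / Nat.gcd n c) (c / Nat.gcd n c) := Nat.coprime_div_gcd_div_gcd hg
  refine hcop.dvd_of_dvd_mul_left ?_
  generalize hgg : Nat.gcd n c = g at *
  obtain ⟨a, ha⟩ : g ∣ n := hgg ▸ Nat.gcd_dvd_left n c
  obtain ⟨b, hb⟩ : g ∣ c := hgg ▸ Nat.gcd_dvd_right n c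
  subst ha hb
  rw [Nat.mul_div_cancel_left a hg, Nat.mul_div_cancel_left b hg]
  rw [mul_assoc] at h
  exact Nat.dvd_of_mul_dvd_mul_left hg h

section

variable {k l M N : Type} [Field k] [Field l] [Field M] [Field N] [Algebra k M] [Algebra l N]

/-- the map of valuation rings induced by `j` -/
def b3O (j : M →+* N) {P : Place l N} {P₀ : Place k M} (h : P.OverH j P₀) : P₀.O →+* P.O :=
  (j.comp P₀.O.subtype).codRestrict P.O.toSubring fun a => by
    have : P.v (j (a : M)) ≤ 1 := (h.le_one_iff _).2 ((Valuation.mem_valuationSubring_iff _ _).1 a.2)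
    exact (Valuation.mem_valuationSubring_iff _ _).2 this

theorem b3O_coe (j : M →+* N) {P : Place l N} {P₀ : Place k M} (h : P.OverH j P₀) (a : P₀.O) :
    ((b3O j h a : P.O) : N) = j (a : M) := rfl

theorem b3_isUnit_iff (P : Place k M) (a : P.O) : IsUnit a ↔ ¬ P.v (a : M) < 1 := by
  have h1 : P.v (a : M) ≤ 1 := (Valuation.mem_valuationSubring_iff _ _).1 a.2
  rw [not_lt]
  constructor
  · intro ha
    obtain ⟨u, rfl⟩ := ha
    have h2 : P.v ((↑u⁻¹ : P.O) : M) ≤ 1 := (Valuation.mem_valuationSubring_iff _ _).1 (↑u⁻¹ : P.O).2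
    have h3 : P.v ((u : P.O) : M) * P.v ((↑u⁻¹ : P.O) : M) = 1 := by
      rw [← map_mul, ← P.O.coe_mul, Units.mul_inv]; simp
    calc (1 : ℤᵐ⁰) = P.v ((u : P.O) : M) * P.v ((↑u⁻¹ : P.O) : M) := h3.symm
      _ ≤ P.v ((u : P.O) : M) * 1 := by gcongr
      _ = _ := mul_one _
  · intro h2
    have h3 : P.v (a : M) = 1 := le_antisymm h1 h2
    have ha0 : (a : M) ≠ 0 := by
      intro h0; rw [h0, map_zero] at h3; exact zero_ne_one h3
    have hinv : (a : M)⁻¹ ∈ P.O := by
      rw [Valuation.mem_valuationSubring_iff, map_inv₀, h3, inv_one]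
    refine IsUnit.of_mul_eq_one (⟨(a : M)⁻¹, hinv⟩ : P.O) ?_
    apply Subtype.ext
    show (a : M) * (a : M)⁻¹ = 1
    exact mul_inv_cancel₀ ha0

instance b3O_local (j : M →+* N) {P : Place l N} {P₀ : Place k M} (h : P.OverH j P₀) :
    IsLocalHom (b3O j h) := by
  constructor
  intro a ha
  rw [b3_isUnit_iff] at ha ⊢
  rw [b3O_coe, h.lt_one_iff] at ha
  exact ha

/-- the degree of the place below divides `[l : k]` times the degree -/
theorem b3_deg_dvd (i0 : k →+* l) (j : M →+* N)
    (hj : ∀ c : k, j (algebraMap k M c) = algebraMap l N (i0 c)) {P : Place l N} {P₀ : Place k M}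
    (h : P.OverH j P₀) :
    P₀.deg ∣ @Module.finrank k l _ _ i0.toAlgebra.toModule * P.deg := by
  let _ : Algebra k l := i0.toAlgebra
  let _ : Algebra k P.Res := ((algebraMap l P.Res).comp i0).toAlgebra
  have : IsScalarTower k l P.Res := IsScalarTower.of_algebraMap_eq fun _ => rfl
  let _ : Algebra P₀.Res P.Res := (IsLocalRing.ResidueField.map (b3O j h)).toAlgebra
  have : IsScalarTower k P₀.Res P.Res := IsScalarTower.of_algebraMap_eq fun c => by
    show algebraMap l P.Res (i0 c) = IsLocalRing.ResidueField.map (b3O j h) (algebraMap k P₀.Res c)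
    have e1 : algebraMap k P₀.Res c = IsLocalRing.residue P₀.O (algebraMap k P₀.O c) := rfl
    have e2 : algebraMap l P.Res (i0 c) = IsLocalRing.residue P.O (algebraMap l P.O (i0 c)) := rfl
    rw [e1, e2, IsLocalRing.ResidueField.map_residue]
    congr 1
    apply Subtype.ext
    rw [b3O_coe]
    exact (hj c).symm
  have t1 : Module.finrank k l * Module.finrank l P.Res = Module.finrank k P.Res :=
    Module.finrank_mul_finrank k l P.Res
  have t2 : Module.finrank k P₀.Res * Module.finrank P₀.Res P.Res = Module.finrank k P.Res :=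
    Module.finrank_mul_finrank k P₀.Res P.Res
  show Module.finrank k P₀.Res ∣ Module.finrank k l * Module.finrank l P.Res
  rw [t1, ← t2]
  exact Dvd.intro _ rfl

end

/-- **B3**: the index after base change.  `j : M → N` integral over `i0 : k → l` finite, every place of `M/k` has degree divisible by `n`:
every place of `N/l` has degree divisible by `n / gcd (n, [l:k])`. -/
theorem index_bc {k l M N : Type} [Field k] [Field l] [Field M] [Field N] [Algebra k M]
    [Algebra l N] [IsFF k M] [IsFF l N] (i0 : k →+* l) (j : M →+* N)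
    (hj : ∀ c : k, j (algebraMap k M c) = algebraMap l N (i0 c)) (hint : j.IsIntegral) (c : ℕ)
    (hc0 : 0 < c) (hc : @Module.finrank k l _ _ i0.toAlgebra.toModule = c) (n : ℕ)
    (hn : ∀ P : Place k M, n ∣ P.deg) (P : Place l N) : n / Nat.gcd n c ∣ P.deg := by
  obtain ⟨P₀, h⟩ := Place.exists_overH j hint (fun a => ⟨i0 a, hj a⟩) P
  have h1 := b3_deg_dvd i0 j hj h
  rw [hc] at h1
  exact b3_arith hc0 ((hn P₀).trans h1)

end Claimed.Agent.R280
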