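import Claimed.Agent.R280.Tw.Defs

/-!
# Row 280, Tw/Pt: toolbox for `PtMap` (image of a point under a ring homomorphism) and `RedPt`
-/

set_option autoImplicit false

namespace Claimed.Agent.R280

open WithZero WeierstrassCurve
open scoped Classical

section PtMap

variable {k k' k'' : Type} [Field k] [Field k'] [Field k'']

theorem PtMap.unique (f : k →+* k') {W : WeierstrassCurve k} {W' : WeierstrassCurve k'}
    {P : W.toAffine.Point} {P₁ P₂ : W'.toAffine.Point} (h₁ : PtMap f P P₁) (h₂ : PtMap f P P₂) :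
    P₁ = P₂ := by
  rcases P with _ | ⟨a, b, h⟩ <;> rcases P₁ with _ | ⟨a₁, b₁, h₁'⟩ <;>
    rcases P₂ with _ | ⟨a₂, b₂, h₂'⟩ <;> simp_all [PtMap]

theorem PtMap.inj (f : k →+* k') {W : WeierstrassCurve k} {W' : WeierstrassCurve k'}
    {P₁ P₂ : W.toAffine.Point} {P : W'.toAffine.Point} (h₁ : PtMap f P₁ P) (h₂ : PtMap f P₂ P) :
    P₁ = P₂ := by
  rcases P with _ | ⟨a, b, h⟩ <;> rcases P₁ with _ | ⟨a₁, b₁, h₁'⟩ <;>
    rcases P₂ with _ | ⟨a₂, b₂, h₂'⟩ <;> simp_all [PtMap]
  exact ⟨f.injective (h₁.1.trans h₂.1.symm), f.injective (h₁.2.trans h₂.2.symm)⟩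

/-- the image of a point -/
theorem PtMap.exists (f : k →+* k') (W : WeierstrassCurve k) (P : W.toAffine.Point) :
    ∃ P' : (W.map f).toAffine.Point, PtMap f P P' := by
  rcases P with _ | ⟨a, b, h⟩
  · exact ⟨.zero, trivial⟩
  · exact ⟨.some (f a) (f b) ((W.toAffine.map_nonsingular f.injective a b).mpr h), rfl, rfl⟩

theorem PtMap.zero (f : k →+* k') {W : WeierstrassCurve k} {W' : WeierstrassCurve k'} :
    PtMap f (0 : W.toAffine.Point) (0 : W'.toAffine.Point) := trivial

theorem PtMap.comp (f : k →+* k') (g : k' →+* k'') {W : WeierstrassCurve k}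
    {W' : WeierstrassCurve k'} {W'' : WeierstrassCurve k''} {P : W.toAffine.Point}
    {P' : W'.toAffine.Point} {P'' : W''.toAffine.Point} (h : PtMap f P P') (h' : PtMap g P' P'') :
    PtMap (g.comp f) P P'' := by
  rcases P with _ | ⟨a, b, h⟩ <;> rcases P' with _ | ⟨a₁, b₁, h₁'⟩ <;>
    rcases P'' with _ | ⟨a₂, b₂, h₂'⟩ <;> simp_all [PtMap]

theorem PtMap.neg (f : k →+* k') {W : WeierstrassCurve k} {P : W.toAffine.Point}
    {P' : (W.map f).toAffine.Point} (h : PtMap f P P') : PtMap f (-P) (-P') := by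
  rcases P with _ | ⟨a, b, hab⟩ <;> rcases P' with _ | ⟨a', b', hab'⟩
  · trivial
  · exact h.elim
  · exact h.elim
  · obtain ⟨rfl, rfl⟩ := h
    rw [Affine.Point.neg_some, Affine.Point.neg_some]
    exact ⟨rfl, by rw [Affine.map_negY]⟩

theorem PtMap.add (f : k →+* k') {W : WeierstrassCurve k} {P Q : W.toAffine.Point}
    {P' Q' : (W.map f).toAffine.Point} (h : PtMap f P P') (h' : PtMap f Q Q') :
    PtMap f (P + Q) (P' + Q') := by
  rcases P with _ | ⟨x₁, y₁, h₁⟩ <;> rcases P' with _ | ⟨x₁', y₁', h₁'⟩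
  · change PtMap f (0 + Q) (0 + Q'); simpa using h'
  · exact h.elim
  · exact h.elim
  rcases Q with _ | ⟨x₂, y₂, h₂⟩ <;> rcases Q' with _ | ⟨x₂', y₂', h₂'⟩
  · change PtMap f (_ + 0) (_ + 0); simpa using h
  · exact h'.elim
  · exact h'.elim
  obtain ⟨rfl, rfl⟩ := h
  obtain ⟨rfl, rfl⟩ := h'
  by_cases hxy : x₁ = x₂ ∧ y₁ = W.toAffine.negY x₂ y₂
  · rw [Affine.Point.add_of_Y_eq hxy.left hxy.right,
      Affine.Point.add_of_Y_eq (congr_arg _ hxy.left) (by rw [hxy.right, Affine.map_negY])]
    trivial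
  · rw [Affine.Point.add_some hxy, Affine.Point.add_some
      (fun h => hxy ⟨f.injective h.1, f.injective (by rw [h.2, Affine.map_negY])⟩)]
    exact ⟨((congrArg _ (Affine.map_slope (W := W.toAffine) f x₁ x₂ y₁ y₂)).trans
        (Affine.map_addX (W' := W.toAffine) f x₁ x₂ _)).symm,
      ((congrArg _ (Affine.map_slope (W := W.toAffine) f x₁ x₂ y₁ y₂)).trans
        (Affine.map_addY (W' := W.toAffine) f x₁ y₁ x₂ _)).symm⟩

theorem PtMap.sub (f : k →+* k') {W : WeierstrassCurve k} {P Q : W.toAffine.Point}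
    {P' Q' : (W.map f).toAffine.Point} (h : PtMap f P P') (h' : PtMap f Q Q') :
    PtMap f (P - Q) (P' - Q') := by
  rw [sub_eq_add_neg, sub_eq_add_neg]; exact h.add f (h'.neg f)

theorem PtMap.nsmul (f : k →+* k') {W : WeierstrassCurve k} {P : W.toAffine.Point}
    {P' : (W.map f).toAffine.Point} (h : PtMap f P P') (j : ℕ) : PtMap f (j • P) (j • P') := by
  induction j with
  | zero => simpa using PtMap.zero f
  | succ j ih => rw [succ_nsmul, succ_nsmul]; exact ih.add f h

theorem PtMap.zsmul (f : k →+* k') {W : WeierstrassCurve k} {P : W.toAffine.Point}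
    {P' : (W.map f).toAffine.Point} (h : PtMap f P P') (j : ℤ) : PtMap f (j • P) (j • P') := by
  rcases j with j | j
  · simpa using h.nsmul f j
  · simpa [negSucc_zsmul] using (h.nsmul f (j + 1)).neg f

/-- the homomorphism `W(k) → W'(k')`, `W' = W.map f` -/
noncomputable def ptHom (f : k →+* k') (W : WeierstrassCurve k) :
    W.toAffine.Point →+ (W.map f).toAffine.Point where
  toFun P := (PtMap.exists f W P).choose
  map_zero' := PtMap.unique f (PtMap.exists f W 0).choose_spec (PtMap.zero f)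
  map_add' P Q := PtMap.unique f (PtMap.exists f W (P + Q)).choose_spec
    ((PtMap.exists f W P).choose_spec.add f (PtMap.exists f W Q).choose_spec)

theorem ptHom_spec (f : k →+* k') (W : WeierstrassCurve k) (P : W.toAffine.Point) :
    PtMap f P (ptHom f W P) := (PtMap.exists f W P).choose_spec

theorem ptHom_injective (f : k →+* k') (W : WeierstrassCurve k) :
    Function.Injective (ptHom f W) := fun P Q h =>
  PtMap.inj f (ptHom_spec f W P) (h ▸ ptHom_spec f W Q)

theorem PtMap.eq_ptHom (f : k →+* k') {W : WeierstrassCurve k} {P : W.toAffine.Point}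
    {P' : (W.map f).toAffine.Point} (h : PtMap f P P') : P' = ptHom f W P :=
  PtMap.unique f h (ptHom_spec f W P)

section Primed

variable (f : k →+* k') {W : WeierstrassCurve k} {W' : WeierstrassCurve k'} (hW : W' = W.map f)

include hW

theorem PtMap.neg' {P : W.toAffine.Point} {P' : W'.toAffine.Point} (h : PtMap f P P') :
    PtMap f (-P) (-P') := by subst hW; exact h.neg f

theorem PtMap.add' {P Q : W.toAffine.Point} {P' Q' : W'.toAffine.Point} (h : PtMap f P P')
    (h' : PtMap f Q Q') : PtMap f (P + Q) (P' + Q') := by subst hW; exact h.add f h'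

theorem PtMap.sub' {P Q : W.toAffine.Point} {P' Q' : W'.toAffine.Point} (h : PtMap f P P')
    (h' : PtMap f Q Q') : PtMap f (P - Q) (P' - Q') := by subst hW; exact h.sub f h'

theorem PtMap.nsmul' {P : W.toAffine.Point} {P' : W'.toAffine.Point} (h : PtMap f P P') (j : ℕ) :
    PtMap f (j • P) (j • P') := by subst hW; exact h.nsmul f j

theorem PtMap.zsmul' {P : W.toAffine.Point} {P' : W'.toAffine.Point} (h : PtMap f P P') (j : ℤ) :
    PtMap f (j • P) (j • P') := by subst hW; exact h.zsmul f j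

theorem PtMap.exists' (P : W.toAffine.Point) : ∃ P' : W'.toAffine.Point, PtMap f P P' := by
  subst hW; exact PtMap.exists f W P

omit hW in
/-- the homomorphism `W(k) → W'(k')`, `W' = W.map f` -/
noncomputable def ptHom' (hW : W' = W.map f) : W.toAffine.Point →+ W'.toAffine.Point where
  toFun P := (PtMap.exists' f hW P).choose
  map_zero' := PtMap.unique f (PtMap.exists' f hW 0).choose_spec (PtMap.zero f)
  map_add' P Q := PtMap.unique f (PtMap.exists' f hW (P + Q)).choose_spec
    ((PtMap.exists' f hW P).choose_spec.add' f hW (PtMap.exists' f hW Q).choose_spec)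

theorem ptHom'_spec (P : W.toAffine.Point) : PtMap f P (ptHom' f hW P) :=
  (PtMap.exists' f hW P).choose_spec

theorem ptHom'_injective : Function.Injective (ptHom' f hW) := fun P Q h =>
  PtMap.inj f (ptHom'_spec f hW P) (h ▸ ptHom'_spec f hW Q)

end Primed

/-- Mathlib's `Affine.Point.map` in terms of `PtMap` -/
theorem ptMap_pointMap {k₀ : Type} [Field k₀] [Algebra k₀ k] [Algebra k₀ k']
    (W₀ : WeierstrassCurve k₀) (f : k →ₐ[k₀] k') (P : (W₀.baseChange k).toAffine.Point) :
    PtMap (f : k →+* k') P (Affine.Point.map (W' := W₀.toAffine) f P) := by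
  rcases P with _ | ⟨a, b, h⟩
  · trivial
  · exact ⟨rfl, rfl⟩

end PtMap

end Claimed.Agent.R280
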