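import Claimed.Agent.R280.Tw.A4
import Claimed.Agent.R280.Tw.A3
import Claimed.Agent.R280.Tw.Pt

/-!
# Row 280, leaves TW-TB1a (~600 lines) `twist_map`, TW-TB1b (~900 lines) `twist_bc`: twists and base change
`k ⊆ k'` (gen. `σ`), `l ⊆ l'` (gen. `σ'`), `i0 : k → l`, `i1 : k' → l'`, `σ' ∘ i1 = i1 ∘ σ^a`, `Q' = i1 (a • Q)`.
* `twist_map` (two twists with compatible data): `j1 : M' → N'` by `IsWFF.lift`; `j1 ∘ δ^a = δ' ∘ j1` (check on `k'`, `x`, `y`; `IsWFF.delta_comp`, `Q` is `σ`-fixed); `N = Fix δ'` (`IsTwist.aut_eq_zpowers`-type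
  statement: `N'/N` Galois with group `⟨δ'⟩`), so `j1 M ⊆ N`.  Integrality: `N' = l'(x',y')` is integral over `j1 M' ⊇ i1 k', x', y'`; `M'` is finite over `M`.
* `twist_bc` (the twist over `l` ON A GIVEN pushout `N = M ⊗_k l`): `N' := l'(W)` (`exists_isWFF`), `j1 : M' → N'` (`IsWFF.lift`), `N → N'` by the universal property of the pushout (`Algebra.IsPushout.desc`),
  `δ'` by `IsWFF.exists_delta`; it fixes the images of `M` (as above) and of `l`, hence `N`.  `N' = N ⊗_l l'`: `M ⊗_k k' = M'`, `M' ⊗_{k'} l' = N'` (`IsWFF.isPushout`), so `M ⊗_k l' = N'`; cancel `M ⊗_k l = N`.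
-/

set_option autoImplicit false

namespace Claimed.Agent.R280

open WithZero WeierstrassCurve Cardinal
open scoped Classical

/-- the curve over `l'` is the image of the curve over `k'` -/
theorem tb1_curve {k k' l l' : Type} [Field k] [Field k'] [Field l] [Field l'] [Algebra k k']
    [Algebra l l'] (W : WeierstrassCurve k) (i0 : k →+* l) (i1 : k' →+* l')
    (hi1 : ∀ c : k, i1 (algebraMap k k' c) = algebraMap l l' (i0 c)) :
    (W.map i0).baseChange l' = (W.baseChange k').map i1 := by
  ext <;> simp [WeierstrassCurve.baseChange, hi1]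

theorem tb1_curve2 {k' l' M' N' : Type} [Field k'] [Field l'] [Field M'] [Field N'] [Algebra k' M']
    [Algebra l' N'] (V : WeierstrassCurve k') (i1 : k' →+* l') (j1 : M' →+* N')
    (hj : ∀ c, j1 (algebraMap k' M' c) = algebraMap l' N' (i1 c)) :
    (V.map i1).baseChange N' = (V.baseChange M').map j1 := by
  ext <;> simp [WeierstrassCurve.baseChange, hj]

/-- ring homomorphisms respect `IsTransBy` -/
theorem tb1_trans {k' l' M' N' : Type} [Field k'] [Field l'] [Field M'] [Field N'] [Algebra k' M']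
    [Algebra l' N'] (V : WeierstrassCurve k') (i1 : k' →+* l') (j1 : M' →+* N')
    (hj : ∀ c, j1 (algebraMap k' M' c) = algebraMap l' N' (i1 c)) {x y u v : M'}
    {P : V.toAffine.Point} {P' : (V.map i1).toAffine.Point} (hP : PtMap i1 P P')
    (h : IsTransBy V x y u v P) : IsTransBy (V.map i1) (j1 x) (j1 y) (j1 u) (j1 v) P' := by
  rcases P with _ | ⟨a, b, hab⟩ <;> rcases P' with _ | ⟨a', b', hab'⟩
  · exact ⟨by rw [h.1], by rw [h.2]⟩
  · exact hP.elim
  · exact hP.elim
  · obtain ⟨rfl, rfl⟩ := hP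
    obtain ⟨rfl, rfl⟩ := h
    constructor
    · unfold transX
      rw [tb1_curve2 V i1 j1 hj, ← hj, ← hj, ← map_sub, ← map_sub, ← map_div₀]
      exact (Affine.map_addX (W' := (V.baseChange M').toAffine) j1 _ _ _).symm
    · unfold transY
      rw [tb1_curve2 V i1 j1 hj, ← hj, ← hj, ← map_sub, ← map_sub, ← map_div₀]
      exact (Affine.map_addY (W' := (V.baseChange M').toAffine) j1 _ _ _ _).symm

section common

variable {k k' l l' : Type} [Field k] [Field k'] [Field l] [Field l'] [Algebra k k'] [Algebra l l']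
  {W : WeierstrassCurve k} {W' : WeierstrassCurve l} {M' N' : Type} [Field M'] [Field N']
  [Algebra k' M'] [Algebra l' N'] {x y : M'} {x' y' : N'}

/-- the embedding `M' = k'(x,y) → N' = l'(x',y')` over `i1 : k' → l'` -/
theorem tb1_lift (i0 : k →+* l) (hW : W' = W.map i0) (i1 : k' →+* l')
    (hi1 : ∀ c : k, i1 (algebraMap k k' c) = algebraMap l l' (i0 c))
    (wff : IsWFF (W.baseChange k') M' x y) (wff' : IsWFF (W'.baseChange l') N' x' y') :
    ∃ j1 : M' →+* N', (∀ c, j1 (algebraMap k' M' c) = algebraMap l' N' (i1 c)) ∧ j1 x = x' ∧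
      j1 y = y' := by
  subst hW
  obtain ⟨j1, h, -⟩ := wff.lift ((algebraMap l' N').comp i1) x' y' (by
    have e : (W.baseChange k').map ((algebraMap l' N').comp i1)
        = ((W.map i0).baseChange l').baseChange N' := by
      rw [tb1_curve W i0 i1 hi1]
      ext <;> simp [WeierstrassCurve.baseChange]
    rw [e]
    exact wff'.equation) (by
    intro q hq h0
    apply wff'.transc
    refine ⟨q.map i1, ?_, ?_⟩
    · rwa [Ne, Polynomial.map_eq_zero_iff i1.injective]
    · rw [Polynomial.aeval_def, Polynomial.eval₂_eq_eval_map, Polynomial.map_map]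
      exact h0)
  exact ⟨j1, h⟩

/-- `j1 ∘ δ ^ a = δ' ∘ j1` -/
theorem tb1_comm (hΔ : W.Δ ≠ 0) (i0 : k →+* l) (hW : W' = W.map i0) {σ : k' ≃ₐ[k] k'}
    {σ' : l' ≃ₐ[l] l'} {Q : (W.baseChange k').toAffine.Point}
    {Q' : (W'.baseChange l').toAffine.Point} (i1 : k' →+* l')
    (hi1 : ∀ c : k, i1 (algebraMap k k' c) = algebraMap l l' (i0 c)) (a : ℕ)
    (hσ : ∀ c : k', σ' (i1 c) = i1 ((σ ^ a) c)) (hQ : PtMap i1 (a • Q) Q')
    (hfix : Affine.Point.map (W' := W.toAffine) σ.toAlgHom Q = Q)
    (wff : IsWFF (W.baseChange k') M' x y) {δ : M' ≃+* M'}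
    (h1 : ∀ c, δ (algebraMap k' M' c) = algebraMap k' M' (σ c))
    (h2 : IsTransBy (W.baseChange k') x y (δ x) (δ y) Q) {δ' : N' ≃+* N'}
    (h1' : ∀ c, δ' (algebraMap l' N' c) = algebraMap l' N' (σ' c))
    (h2' : IsTransBy (W'.baseChange l') x' y' (δ' x') (δ' y') Q') (j1 : M' →+* N')
    (hjk : ∀ c, j1 (algebraMap k' M' c) = algebraMap l' N' (i1 c)) (hjx : j1 x = x')
    (hjy : j1 y = y') (z : M') : j1 ((δ ^ a) z) = δ' (j1 z) := by
  subst hW
  obtain ⟨p1, p2⟩ := wff.delta_pow hΔ hfix h1 h2 a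
  have hV := tb1_curve W i0 i1 hi1
  have key : ∀ (V' : WeierstrassCurve l') (e : V' = (W.baseChange k').map i1)
      (R : V'.toAffine.Point), PtMap i1 (a • Q) R →
      IsTransBy V' x' y' (δ' x') (δ' y') R →
      j1 ((δ ^ a) x) = δ' x' ∧ j1 ((δ ^ a) y) = δ' y' := by
    intro V' e R hR hT
    subst e
    have := tb1_trans (W.baseChange k') i1 j1 hjk hR p2
    rw [hjx, hjy] at this
    exact this.unique_ell hT
  obtain ⟨ex, ey⟩ := key _ hV Q' hQ h2'
  have := wff.ell1a_hom_ext (j1.comp ((δ ^ a : M' ≃+* M') : M' →+* M'))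
    ((δ' : N' →+* N').comp j1) (fun c => by
      show j1 ((δ ^ a) (algebraMap k' M' c)) = δ' (j1 (algebraMap k' M' c))
      rw [p1, hjk, hjk, h1', hσ]) (by
      show j1 ((δ ^ a) x) = δ' (j1 x)
      rw [hjx, ex]) (by
      show j1 ((δ ^ a) y) = δ' (j1 y)
      rw [hjy, ey])
  exact RingHom.congr_fun this z

end common

/-- an element of `l'` fixed by a generator of the Galois group lies in `l` -/
theorem tb1_fix_base {l l' : Type} [Field l] [Field l'] [Algebra l l'] [FiniteDimensional l l']
    [IsGalois l l'] {σ' : l' ≃ₐ[l] l'} (hσ' : ∀ τ : l' ≃ₐ[l] l', τ ∈ Subgroup.zpowers σ') {c : l'}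
    (hc : σ' c = c) : ∃ c₀ : l, algebraMap l l' c₀ = c := by
  refine (IsGalois.mem_range_algebraMap_iff_fixed c).2 fun τ => ?_
  have hle : Subgroup.zpowers σ' ≤ MulAction.stabilizer (l' ≃ₐ[l] l') c := by
    rw [Subgroup.zpowers_le]
    exact hc
  exact hle (hσ' τ)

/-- `N = Fix δ'` in `N' = N ⊗_l l'` -/
theorem tb1_fix_mem {l l' N N' : Type} [Field l] [Field l'] [Field N] [Field N'] [Algebra l l']
    [Algebra l N] [Algebra l' N'] [Algebra N N'] [Algebra l N'] [IsScalarTower l l' N']
    [IsScalarTower l N N'] [FiniteDimensional l l'] [IsGalois l l']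
    (po : Algebra.IsPushout l l' N N') {σ' : l' ≃ₐ[l] l'}
    (hσ' : ∀ τ : l' ≃ₐ[l] l', τ ∈ Subgroup.zpowers σ') (δ' : N' ≃ₐ[N] N')
    (hδ' : ∀ c, δ' (algebraMap l' N' c) = algebraMap l' N' (σ' c)) {z : N'} (hz : δ' z = z) :
    ∃ f : N, algebraMap N N' f = z := by
  set b := Module.Basis.ofVectorSpace l N with hb
  set B := po.out.basis b with hB
  have hBi : ∀ i, B i = algebraMap N N' (b i) := fun i => po.out.basis_apply b i
  have h1 : Finsupp.linearCombination l' B ((B.repr z).mapRange σ' (map_zero _)) = δ' z := by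
    conv_rhs => rw [← B.linearCombination_repr z]
    rw [Finsupp.linearCombination_apply, Finsupp.linearCombination_apply,
      Finsupp.sum_mapRange_index (by intro i; simp), Finsupp.sum, Finsupp.sum, map_sum]
    refine Finset.sum_congr rfl fun i _ => ?_
    rw [Algebra.smul_def, Algebra.smul_def, map_mul, hδ', hBi, AlgEquiv.commutes]
  rw [hz] at h1
  have h2 : (B.repr z).mapRange σ' (map_zero _) = B.repr z := by
    have := congrArg B.repr h1
    rwa [B.repr_linearCombination] at this
  have h3 : ∀ i, ∃ c₀ : l, algebraMap l l' c₀ = B.repr z i := by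
    intro i
    apply tb1_fix_base hσ'
    have := DFunLike.congr_fun h2 i
    rwa [Finsupp.mapRange_apply] at this
  choose c hc using h3
  refine ⟨∑ i ∈ (B.repr z).support, c i • b i, ?_⟩
  conv_rhs => rw [← B.linearCombination_repr z]
  rw [Finsupp.linearCombination_apply, Finsupp.sum, map_sum]
  refine Finset.sum_congr rfl fun i _ => ?_
  rw [Algebra.smul_def, Algebra.smul_def, map_mul, hBi, ← hc,
    ← IsScalarTower.algebraMap_apply l N N', ← IsScalarTower.algebraMap_apply l l' N']

/-- `N' = l'(x',y')` is integral over the image of `M' = k'(x,y)` when `l'` is integral over `k'` -/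
theorem tb1_int {k' l' M' N' : Type} [Field k'] [Field l'] [Field M'] [Field N'] [Algebra k' M']
    [Algebra l' N'] {V' : WeierstrassCurve l'} {x' y' : N'} (wff' : IsWFF V' N' x' y')
    (i1 : k' →+* l') (hint : i1.IsIntegral) (j1 : M' →+* N')
    (hjk : ∀ c, j1 (algebraMap k' M' c) = algebraMap l' N' (i1 c)) {x y : M'} (hjx : j1 x = x')
    (hjy : j1 y = y') : j1.IsIntegral := by
  intro m
  have hm : m ∈ IntermediateField.adjoin l' {x', y'} := by
    rw [wff'.gen]
    exact IntermediateField.mem_top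
  let _ : Algebra M' N' := j1.toAlgebra
  show IsIntegral M' m
  induction hm using IntermediateField.adjoin_induction with
  | mem z hz =>
    rcases hz with rfl | hz
    · rw [← hjx]
      exact isIntegral_algebraMap (R := M') (A := N') (x := x)
    · rw [Set.mem_singleton_iff] at hz
      subst hz
      rw [← hjy]
      exact isIntegral_algebraMap (R := M') (A := N') (x := y)
  | algebraMap c =>
    have h1 := (hint c).map (algebraMap l' N')
    have e : (algebraMap l' N').comp i1 = j1.comp (algebraMap k' M') := by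
      ext c
      exact (hjk c).symm
    rw [e] at h1
    exact h1.of_comp
  | add f1 f2 _ _ h1 h2 => exact h1.add h2
  | inv f1 _ h1 => exact h1.inv
  | mul f1 f2 _ _ h1 h2 => exact h1.mul h2

/-- a power of an `M`-automorphism fixes `M` -/
theorem tb1_pow_fix {M M' : Type} [Field M] [Field M'] [Algebra M M'] (δ : M' ≃ₐ[M] M') (a : ℕ)
    (f : M) : ((δ : M' ≃+* M') ^ a) (algebraMap M M' f) = algebraMap M M' f := by
  induction a with
  | zero => rfl
  | succ a ih =>
    rw [pow_succ, RingAut.mul_apply]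
    have : (δ : M' ≃+* M') (algebraMap M M' f) = algebraMap M M' f := δ.commutes f
    rw [this, ih]

/-- **TB1a**: two twists with compatible data -/
theorem twist_map {k k' l l' : Type} [Field k] [Field k'] [Field l] [Field l'] [Algebra k k']
    [Algebra l l'] [FiniteDimensional k k'] [IsGalois k k'] [FiniteDimensional l l'] [IsGalois l l']
    {W : WeierstrassCurve k} (hΔ : W.Δ ≠ 0) (i0 : k →+* l) {W' : WeierstrassCurve l}
    (hW : W' = W.map i0) {σ : k' ≃ₐ[k] k'} {σ' : l' ≃ₐ[l] l'}
    {Q : (W.baseChange k').toAffine.Point} {Q' : (W'.baseChange l').toAffine.Point}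
    (i1 : k' →+* l') (hi1 : ∀ c : k, i1 (algebraMap k k' c) = algebraMap l l' (i0 c))
    (hint : i1.IsIntegral) (a : ℕ)
    (hσ : ∀ c : k', σ' (i1 c) = i1 ((σ ^ a) c)) (hQ : PtMap i1 (a • Q) Q')
    (hfix : Affine.Point.map (W' := W.toAffine) σ.toAlgHom Q = Q)
    {M M' N N' : Type} [Field M] [Field M'] [Field N] [Field N'] [Algebra k M] [Algebra k' M']
    [Algebra M M'] [Algebra k M'] [IsScalarTower k k' M'] [IsScalarTower k M M'] [Algebra l N]
    [Algebra l' N'] [Algebra N N'] [Algebra l N'] [IsScalarTower l l' N'] [IsScalarTower l N N']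
    {x y : M'} {x' y' : N'} (hM : IsTwist W σ Q M M' x y) (hN : IsTwist W' σ' Q' N N' x' y') :
    ∃ (j : M →+* N) (j1 : M' →+* N'), j1 x = x' ∧ j1 y = y' ∧
      (∀ c : k', j1 (algebraMap k' M' c) = algebraMap l' N' (i1 c)) ∧
      (∀ f : M, j1 (algebraMap M M' f) = algebraMap N N' (j f)) ∧
      (∀ c : k, j (algebraMap k M c) = algebraMap l N (i0 c)) ∧ j.IsIntegral ∧ j1.IsIntegral := by
  obtain ⟨δ, h1, h2⟩ := hM.twist
  obtain ⟨δ', h1', h2'⟩ := hN.twist
  obtain ⟨j1, hjk, hjx, hjy⟩ := tb1_lift i0 hW i1 hi1 hM.wff hN.wff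
  have hcomm := tb1_comm hΔ i0 hW i1 hi1 a hσ hQ hfix hM.wff (δ := (δ : M' ≃+* M')) h1 h2
    (δ' := (δ' : N' ≃+* N')) h1' h2' j1 hjk hjx hjy
  have hmem : ∀ f : M, ∃ g : N, algebraMap N N' g = j1 (algebraMap M M' f) := fun f =>
    tb1_fix_mem hN.po hN.gen δ' h1' (by
      have := hcomm (algebraMap M M' f)
      rw [tb1_pow_fix] at this
      exact this.symm)
  choose j0 hj0 using hmem
  have hinj : Function.Injective (algebraMap N N') := (algebraMap N N').injective
  let j : M →+* N :=
    { toFun := j0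
      map_one' := hinj (by rw [hj0, map_one, map_one, map_one])
      map_mul' := fun f g => hinj (by rw [hj0, map_mul, map_mul, map_mul, hj0, hj0])
      map_zero' := hinj (by rw [hj0, map_zero, map_zero, map_zero])
      map_add' := fun f g => hinj (by rw [hj0, map_add, map_add, map_add, hj0, hj0]) }
  have hj : ∀ f : M, j1 (algebraMap M M' f) = algebraMap N N' (j f) := fun f => (hj0 f).symm
  have hj1int : j1.IsIntegral := tb1_int hN.wff i1 hint j1 hjk hjx hjy
  refine ⟨j, j1, hjx, hjy, hjk, hj, fun c => hinj ?_, ?_, hj1int⟩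
  · rw [← hj, ← IsScalarTower.algebraMap_apply k M M', IsScalarTower.algebraMap_apply k k' M', hjk,
      hi1, ← IsScalarTower.algebraMap_apply l l' N', ← IsScalarTower.algebraMap_apply l N N']
  · have := hM.po
    have hMM : (algebraMap M M').IsIntegral :=
      (Algebra.IsPushout.isIntegral k M k' M').isIntegral
    refine RingHom.IsIntegral.tower_bot j (algebraMap N N') hinj ?_
    have e : (algebraMap N N').comp j = j1.comp (algebraMap M M') := by
      ext f
      exact (hj f).symm
    rw [e]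
    exact RingHom.IsIntegral.trans _ _ hMM hj1int

/-- **TB1b**: the twist over `l` on a given pushout `N = M ⊗_k l` -/
theorem twist_bc {k k' l l' : Type} [Field k] [Field k'] [Field l] [Field l'] [Algebra k k']
    [Algebra l l'] [Algebra k l] [FiniteDimensional k k'] [IsGalois k k'] [FiniteDimensional l l']
    [IsGalois l l'] [FiniteDimensional k l]
    {W : WeierstrassCurve k} (hΔ : W.Δ ≠ 0) {W' : WeierstrassCurve l}
    (hW : W' = W.map (algebraMap k l)) {σ : k' ≃ₐ[k] k'} {σ' : l' ≃ₐ[l] l'}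
    (hσ' : ∀ τ : l' ≃ₐ[l] l', τ ∈ Subgroup.zpowers σ')
    {Q : (W.baseChange k').toAffine.Point} {Q' : (W'.baseChange l').toAffine.Point}
    (i1 : k' →+* l') (hi1 : ∀ c : k, i1 (algebraMap k k' c) = algebraMap l l' (algebraMap k l c))
    (hgen : Algebra.adjoin l (Set.range i1) = ⊤) (a : ℕ)
    (hσ : ∀ c : k', σ' (i1 c) = i1 ((σ ^ a) c)) (hQ : PtMap i1 (a • Q) Q')
    (hfix : Affine.Point.map (W' := W.toAffine) σ.toAlgHom Q = Q)
    {M M' : Type} [Field M] [Field M'] [Algebra k M] [Algebra k' M']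
    [Algebra M M'] [Algebra k M'] [IsScalarTower k k' M'] [IsScalarTower k M M']
    {x y : M'} (hM : IsTwist W σ Q M M' x y)
    (N : Type) [Field N] [Algebra k N] [Algebra l N] [Algebra M N] [IsScalarTower k l N]
    [IsScalarTower k M N] (po : Algebra.IsPushout k l M N) :
    ∃ (N' : Type) (_ : Field N') (_ : Algebra l' N') (_ : Algebra N N') (_ : Algebra l N')
      (_ : IsScalarTower l l' N') (_ : IsScalarTower l N N') (x' y' : N') (j1 : M' →+* N'),
      IsTwist W' σ' Q' N N' x' y' ∧ j1 x = x' ∧ j1 y = y' ∧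
      (∀ c : k', j1 (algebraMap k' M' c) = algebraMap l' N' (i1 c)) ∧
      (∀ f : M, j1 (algebraMap M M' f) = algebraMap N N' (algebraMap M N f)) ∧ j1.IsIntegral := by
  have hΔ' : W'.Δ ≠ 0 := by
    rw [hW, WeierstrassCurve.map_Δ]
    exact (map_ne_zero _).2 hΔ
  obtain ⟨N', _, _, x', y', wff'⟩ := exists_isWFF (W'.baseChange l')
  obtain ⟨j1, hjk, hjx, hjy⟩ := tb1_lift (algebraMap k l) hW i1 hi1 hM.wff wff'
  obtain ⟨δ, h1, h2⟩ := hM.twist
  obtain ⟨δ', ⟨h1', h2'⟩, -⟩ := wff'.exists_delta hΔ' σ' Q'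
  have hcomm := tb1_comm hΔ (algebraMap k l) hW i1 hi1 a hσ hQ hfix hM.wff (δ := (δ : M' ≃+* M'))
    h1 h2 h1' h2' j1 hjk hjx hjy
  -- the algebra structures on `N'`
  let _ : Algebra l N' := ((algebraMap l' N').comp (algebraMap l l')).toAlgebra
  have _ : IsScalarTower l l' N' := IsScalarTower.of_algebraMap_eq fun _ => rfl
  let _ : Algebra k N' := ((algebraMap l N').comp (algebraMap k l)).toAlgebra
  have _ : IsScalarTower k l N' := IsScalarTower.of_algebraMap_eq fun _ => rfl
  let g : M →ₐ[k] N' :=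
    { j1.comp (algebraMap M M') with
      commutes' := fun c => by
        show j1 (algebraMap M M' (algebraMap k M c)) = algebraMap l' N' (algebraMap l l' (algebraMap k l c))
        rw [← IsScalarTower.algebraMap_apply k M M', IsScalarTower.algebraMap_apply k k' M', hjk,
          hi1] }
  let φ : N →ₐ[k] N' :=
    Algebra.pushoutDesc N (IsScalarTower.toAlgHom k l N') g (fun _ _ => mul_comm _ _)
  have hφl : ∀ c : l, φ (algebraMap l N c) = algebraMap l N' c := fun c =>
    Algebra.pushoutDesc_left N (IsScalarTower.toAlgHom k l N') g (fun _ _ => mul_comm _ _) c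
  have hφM : ∀ f : M, φ (algebraMap M N f) = j1 (algebraMap M M' f) := fun f =>
    Algebra.pushoutDesc_right N (IsScalarTower.toAlgHom k l N') g (fun _ _ => mul_comm _ _) f
  let _ : Algebra N N' := φ.toRingHom.toAlgebra
  have _ : IsScalarTower l N N' := IsScalarTower.of_algebraMap_eq fun c => (hφl c).symm
  have hNM : ∀ f : M, algebraMap N N' (algebraMap M N f) = j1 (algebraMap M M' f) := hφM
  -- `δ'` fixes `N`
  have hfixN : ∀ z : N, δ' (algebraMap N N' z) = algebraMap N N' z := by
    intro z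
    refine po.out.inductionOn z (fun z => δ' (algebraMap N N' z) = algebraMap N N' z) ?_ ?_ ?_ ?_
    · rw [map_zero, map_zero]
    · intro f
      show δ' (algebraMap N N' (algebraMap M N f)) = algebraMap N N' (algebraMap M N f)
      rw [hNM, ← hcomm, tb1_pow_fix]
    · intro c z hz
      rw [Algebra.smul_def, map_mul, map_mul, hz, ← IsScalarTower.algebraMap_apply l N N',
        IsScalarTower.algebraMap_apply l l' N', h1', AlgEquiv.commutes]
    · intro z₁ z₂ h₁ h₂
      rw [map_add, map_add, h₁, h₂]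
  let δN : N' ≃ₐ[N] N' := AlgEquiv.ofRingEquiv (f := δ') hfixN
  -- the remaining algebra structures
  let _ : Algebra k' l' := i1.toAlgebra
  let _ : Algebra k l' := ((algebraMap l l').comp (algebraMap k l)).toAlgebra
  have _ : IsScalarTower k l l' := IsScalarTower.of_algebraMap_eq fun _ => rfl
  have _ : IsScalarTower k k' l' := IsScalarTower.of_algebraMap_eq fun c => (hi1 c).symm
  let _ : Algebra M' N' := j1.toAlgebra
  let _ : Algebra k' N' := ((algebraMap l' N').comp i1).toAlgebra
  let _ : Algebra M N' := (j1.comp (algebraMap M M')).toAlgebra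
  have _ : IsScalarTower k l' N' := IsScalarTower.of_algebraMap_eq fun _ => rfl
  have _ : IsScalarTower k' l' N' := IsScalarTower.of_algebraMap_eq fun _ => rfl
  have _ : IsScalarTower k' M' N' := IsScalarTower.of_algebraMap_eq fun c => (hjk c).symm
  have _ : IsScalarTower M M' N' := IsScalarTower.of_algebraMap_eq fun _ => rfl
  have _ : IsScalarTower k M N' := IsScalarTower.of_algebraMap_eq fun c => (g.commutes c).symm
  have _ : IsScalarTower k M' N' := IsScalarTower.of_algebraMap_eq fun c => by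
    rw [IsScalarTower.algebraMap_apply k M M', ← IsScalarTower.algebraMap_apply M M' N',
      ← IsScalarTower.algebraMap_apply k M N']
  have _ : IsScalarTower M N N' := IsScalarTower.of_algebraMap_eq fun f => (hNM f).symm
  have _ : IsScalarTower k N N' := IsScalarTower.of_algebraMap_eq fun c => (φ.commutes c).symm
  have _ : FiniteDimensional k l' := Module.Finite.trans l l'
  have _ : Algebra.IsAlgebraic k' l' := Algebra.IsAlgebraic.tower_top (K := k) k'
  have po1 : Algebra.IsPushout k' l' M' N' := by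
    refine IsWFF.isPushout hM.wff ?_
    have e : (W.baseChange k').baseChange l' = W'.baseChange l' := by
      rw [hW, tb1_curve W (algebraMap k l) i1 hi1]
      rfl
    rw [e]
    have ex : algebraMap M' N' x = x' := hjx
    have ey : algebraMap M' N' y = y' := hjy
    rw [ex, ey]
    exact wff'
  have _ := hM.po
  have po2 : Algebra.IsPushout k l' M N' := (Algebra.IsPushout.comp_iff k k' M M').2 po1
  have po3 : Algebra.IsPushout l l' N N' := (Algebra.IsPushout.comp_iff k l M N).1 po2
  have hint : j1.IsIntegral := (Algebra.IsPushout.isIntegral k' M' l' N').isIntegral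
  exact ⟨N', inferInstance, inferInstance, inferInstance, inferInstance, inferInstance,
    inferInstance, x', y', j1,
    { wff := wff'
      po := po3
      gen := hσ'
      twist := ⟨δN, h1', h2'⟩ }, hjx, hjy, hjk, fun f => (hNM f).symm, hint⟩

end Claimed.Agent.R280
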