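import Claimed.Agent.R280.Tw.B1
import Claimed.Agent.R280.Tw.TB1
import Claimed.Agent.R280.Tw.B3
import Claimed.Agent.R280.Tw.A3
import Claimed.Agent.R280.Tw.A5
import Claimed.Agent.R280.Tw.Marked

/-!
# Row 280, glue TW-B5 (PROVED): **thm B** base change of the twisted marked curve to a finite extension `L/K`
`B'` from `FldBase.exists_bc`; the twist over `(L, L1')` ON `XL` from `twist_bc`; the twist `(EE',ES')` over `(F',S')` from `exists_twist`, `twist_map` gives `EE → EE'`, `index_bc` the index;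
marked places: `Tw/Marked.lean`, `FF/OverH.lean`.
-/

set_option autoImplicit false

namespace Claimed.Agent.R280

open WithZero WeierstrassCurve Cardinal
open scoped Classical

variable {p : ℕ} [Fact p.Prime]

/-- **thm B** (base change of the twisted marked curve to a finite extension `L/K`) -/
theorem TwBase.baseChange {K X : Type} [Field K] [Field X] [Algebra K X] (T : TwBase p K X)
    (L XL : Type) [Field L] [Field XL] [Algebra K L] [Algebra K XL] [Algebra L XL] [Algebra X XL]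
    [IsScalarTower K L XL] [IsScalarTower K X XL] [FiniteDimensional K L]
    (po : Algebra.IsPushout K L X XL) :
    ∃ T' : TwBase p L XL, T'.N = T.N / Nat.gcd T.N (Module.finrank K L) ∧
      T'.R.u = T.R.u + padicValNat p (Module.finrank K L) ∧
      ∀ P' : Place L XL, T'.IsMarked P' ↔ ∃ P₀ : Place K X, T.IsMarked P₀ ∧ P'.Over P₀ := by
  obtain ⟨B', ⟨C⟩, hsurj, hsph, hu⟩ := T.toFldBase.exists_bc T.vL_surj T.sph L
  have hΔt : T.Wt.Δ ≠ 0 := T.red_W.disc_ne_zero T.R.hΔ
  obtain ⟨N', _, _, _, _, _, _, x', y', j1, twL', hx, hy, hj1c, hj1M, hj1int⟩ :=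
    twist_bc hΔt C.Wt_eq B'.σ_gen C.i1 C.i1_comm C.gen1 C.a C.σ_comm C.Q_eq T.Q_fix T.twL XL po
  obtain ⟨EE', ES', _, _, _, _, _, _, _, _, x0', y0', twF'⟩ :=
    exists_twist B'.R.W0 B'.R.hΔ B'.R.σb B'.R.σb_gen B'.R.Qb B'.R.Qb_fix B'.R.Qb_tors
  obtain ⟨j, jS, -, -, -, -, hjc, hjint, -⟩ := twist_map T.R.hΔ C.iF C.W0_eq C.iS C.iS_comm C.intS
    C.a C.σb_comm C.Qb_eq T.R.Qb_fix T.twF twF'
  have ffE : IsFF T.R.F T.EE := T.twF.isFF
  have ffE' : IsFF B'.R.F EE' := twF'.isFF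
  have ffX : IsFF K X := T.twL.isFF
  have ffXL : IsFF L XL := twL'.isFF
  let T' : TwBase p L XL :=
    { toFldBase := B', vL_surj := hsurj, sph := hsph, XX1 := N', EE := EE', ES := ES'
      xt := x', yt := y', x0 := x0', y0 := y0', twL := twL', twF := twF'
      N := T.N / Nat.gcd T.N (Module.finrank K L)
      index := fun P => index_bc C.iF j hjc hjint _ Module.finrank_pos C.degF T.N T.index P }
  refine ⟨T', rfl, hu, fun P' => ?_⟩
  have intX1 : (algebraMap X T.XX1).IsIntegral := by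
    obtain ⟨δ, hδ, -⟩ := T.twL.twist
    have : IsGalois X T.XX1 := (T.twL.aut_eq_zpowers δ hδ).1
    exact fun z => Algebra.IsSeparable.isIntegral X z
  have hkX1 : ∀ a : K, ∃ a' : T.L1, algebraMap X T.XX1 (algebraMap K X a) = algebraMap T.L1 T.XX1 a' :=
    fun a => ⟨algebraMap K T.L1 a, by
      rw [← IsScalarTower.algebraMap_apply, ← IsScalarTower.algebraMap_apply]⟩
  have sq : ∀ f : X, (j1.comp (algebraMap X T.XX1)) f
      = ((algebraMap XL N').comp (algebraMap X XL)) f := fun f => hj1M f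
  constructor
  · rintro ⟨i', P1', hat, hov⟩
    obtain ⟨i, rfl⟩ := C.eI.surjective i'
    obtain ⟨P1, hP1⟩ := Place.exists_overH j1 hj1int (fun a => ⟨C.i1 a, hj1c a⟩) P1'
    obtain ⟨P₀, hP₀⟩ := Place.exists_overH (algebraMap X T.XX1) intX1 hkX1 P1
    have hat' : P1'.IsAtPt (j1 T.xt) (j1 T.yt) (B'.ξ (C.eI i)) := by rw [hx, hy]; exact hat
    refine ⟨P₀, ⟨i, P1, (Place.isAtPt_iff_of_overH hj1c hP1 (C.ξ_eq i) _ _).1 hat', hP₀⟩, ?_⟩
    exact Place.OverH.of_comp (j' := algebraMap XL N') hov ((hP1.trans hP₀).congr sq)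
  · rintro ⟨P₀, hmark, hov⟩
    obtain ⟨P1', hP1'⟩ := Place.exists_over_constExt twL'.po P'
    obtain ⟨P1, hP1⟩ := Place.exists_overH j1 hj1int (fun a => ⟨C.i1 a, hj1c a⟩) P1'
    have h2 : P1.Over P₀ := Place.OverH.of_comp (j' := j1) hP1
      ((Place.OverH.trans (j' := algebraMap XL N') hP1' hov).congr fun f => (sq f).symm)
    obtain ⟨i, hi⟩ := T.marked_above hmark P1 h2
    refine ⟨C.eI i, P1', ?_, hP1'⟩
    have := (Place.isAtPt_iff_of_overH hj1c hP1 (C.ξ_eq i) _ _).2 hi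
    rw [hx, hy] at this
    exact this

end Claimed.Agent.R280
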