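import Claimed.Agent.R280.Tw.DiscDefs
import Claimed.Agent.R280.Ell.Main

/-!
# Row 280, leaf TW-D0b (~700 lines): `[ℓ]` is surjective on `W(C)`, `C` algebraically closed, if it is not zero
No isogeny theory.  `M = C(W)` (`exists_isWFF`), `g = (x,y) ∈ W(M)` generic point, `ℓ • g = (x_ℓ, y_ℓ)`.  For `R ∈ W(C)` the valuation ring `O_R` of the place at `R` has residue field `C`
and reduction `W(M) → W(C)` is a group homomorphism (`RedPtA.add`, constant curve) sending `g ↦ R`; so `ℓ • g ↦ ℓ • R`.  `ℓ • g` is not constant: else it equals its reduction at infinity `= 0`,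
so `ℓ • R = 0` for all `R`.  Hence `x_ℓ` is transcendental; `x_ℓ - a` has a zero `R` (`exists_place_lt_one`, all places have degree one): `ℓ • R = ± Q`.
-/

set_option autoImplicit false

namespace Claimed.Agent.R280

open WithZero WeierstrassCurve Cardinal
open scoped Classical

theorem d0b_deg_one {C M : Type} [Field C] [IsAlgClosed C] [Field M] [Algebra C M] [IsFF C M]
    (P : Place C M) : P.deg = 1 := by
  have := P.finite_res
  have hsurj : Function.Surjective (algebraMap C P.Res) :=
    IsAlgClosed.algebraMap_bijective_of_isIntegral.2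
  unfold Place.deg
  rw [finrank_eq_one_iff_of_nonzero' (1 : P.Res) one_ne_zero]
  intro w
  obtain ⟨c, hc⟩ := hsurj w
  exact ⟨c, by rw [← hc, Algebra.smul_def, mul_one]⟩

theorem d0b_red_nsmul {K F : Type} [Field K] [Field F] (A : ValuationSubring K) (r : A →+* F)
    {Wt : WeierstrassCurve K} {W0 : WeierstrassCurve F}
    (hr : ∀ a : A, r a = 0 ↔ a ∈ IsLocalRing.maximalIdeal A)
    (hW : RedCurveA A r Wt W0) (hΔ : W0.Δ ≠ 0) {G : Wt.toAffine.Point} {T : W0.toAffine.Point}
    (h : RedPtA A r G T) (n : ℕ) : RedPtA A r (n • G) (n • T) := by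
  induction n with
  | zero =>
    rw [zero_smul, zero_smul]
    trivial
  | succ n ih =>
    rw [succ_nsmul, succ_nsmul]
    exact RedPtA.add A r hr hW hΔ ih h

theorem d0b_aux {C : Type} [Field C] [IsAlgClosed C] (W : WeierstrassCurve C) (hΔ : W.Δ ≠ 0)
    (ℓ : ℕ) (hℓ : ∃ R : (W.baseChange C).toAffine.Point, ℓ • R ≠ 0)
    (Q : (W.baseChange C).toAffine.Point) :
    ∃ R : (W.baseChange C).toAffine.Point, ℓ • R = Q := by
  obtain ⟨M, _, _, x, y, h⟩ := exists_isWFF (W.baseChange C)
  have := h.isFF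
  have hΔk : (W.baseChange C).Δ ≠ 0 := ell5c_Δ_ne_zero hΔ
  have hg := h.nonsingular_gen hΔ
  -- reduction of `ℓ • g` at a place
  have key : ∀ (P : Place C M) (T : (W.baseChange C).toAffine.Point), P.IsAtPt x y T →
      ∃ r : P.O →+* C, (∀ c : C, r ⟨algebraMap C M c, P.algebraMap_mem c⟩ = c) ∧
        (∀ a : P.O, r a = 0 ↔ a ∈ IsLocalRing.maximalIdeal P.O) ∧
        RedPtA P.O r (ℓ • Affine.Point.some x y hg) (ℓ • T) := by
    intro P T hP
    obtain ⟨r, hr1, hr2⟩ := P.exists_resHom (d0b_deg_one P)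
    refine ⟨r, hr1, hr2, ?_⟩
    exact d0b_red_nsmul P.O r hr2 (redCurveA_const W P r hr1) hΔk
      ((redPtA_some_iff P r hr1 hr2 hg T).mpr hP) ℓ
  rcases hG : ℓ • Affine.Point.some x y hg with _ | ⟨u, w, hns⟩
  · exfalso
    obtain ⟨R, hR⟩ := hℓ
    obtain ⟨P, hP, -⟩ := h.existsUnique_atPt hΔk R
    obtain ⟨r, hr1, hr2, hred⟩ := key P R hP
    rw [hG] at hred
    rcases hR' : ℓ • R with _ | ⟨a, b, hab⟩
    · exact hR hR'
    · rw [hR'] at hred
      exact hred
  · rcases Q with _ | ⟨a, b, hQ⟩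
    · exact ⟨0, smul_zero ℓ⟩
    · have htr : Transcendental C (u - algebraMap C M a) := by
        intro halg
        have hu : IsAlgebraic C u := by
          have := halg.add (isAlgebraic_algebraMap (A := M) a)
          simpa using this
        obtain ⟨c, hc⟩ := h.algClosed u hu
        obtain ⟨P, hP, -⟩ := h.existsUnique_atPt hΔk 0
        obtain ⟨r, hr1, hr2, hred⟩ := key P 0 hP
        rw [hG, smul_zero] at hred
        have hnot : u ∉ P.O := hred
        exact hnot (hc ▸ P.algebraMap_mem c)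
      obtain ⟨P, hP⟩ := exists_place_lt_one htr
      obtain ⟨T, hT⟩ := h.exists_atPt_of_deg_one hΔk (d0b_deg_one P)
      obtain ⟨r, hr1, hr2, hred⟩ := key P T hT
      rw [hG] at hred
      obtain ⟨huO, hua⟩ := (resA_eq_iff_ell P r hr1 hr2 u a).2 hP
      rcases hT' : ℓ • T with _ | ⟨a', b', hab'⟩
      · rw [hT'] at hred
        exact absurd huO hred
      · rw [hT'] at hred
        obtain ⟨-, -, h1, -⟩ := hred
        have haa : a' = a := by rw [← h1, hua]
        subst haa
        rcases Affine.Y_eq_of_X_eq hab'.left hQ.left rfl with hb | hb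
        · subst hb
          exact ⟨T, hT'⟩
        · refine ⟨-T, ?_⟩
          rw [smul_neg, hT', Affine.Point.neg_some]
          subst hb
          simp only [Affine.negY_negY]

/-- D0b: multiplication by `ℓ` is surjective on `W(C)`, `C` algebraically closed, if it is not identically zero -/
theorem smul_surjective {C : Type} [Field C] [IsAlgClosed C] (W : WeierstrassCurve C) (hΔ : W.Δ ≠ 0)
    (ℓ : ℕ) (hℓ : ∃ R : W.toAffine.Point, ℓ • R ≠ 0) (Q : W.toAffine.Point) :
    ∃ R : W.toAffine.Point, ℓ • R = Q :=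
  d0b_aux W hΔ ℓ hℓ Q

end Claimed.Agent.R280
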