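import Claimed.Agent.R280.Tw.D0a
import Claimed.Agent.R280.Tw.D0b

/-!
# Row 280, glue TW-D0 (~150 lines): points of exact order `p^s` (induction: `p • Q' = Q`)   (proof: helper20)
-/

set_option autoImplicit false

namespace Claimed.Agent.R280

open WithZero WeierstrassCurve Cardinal
open scoped Classical

theorem exists_ordinary (p : ℕ) [Fact p.Prime] :
    ∃ W : WeierstrassCurve (Kap p), W.Δ ≠ 0 ∧
      ∀ s : ℕ, ∃ P : W.toAffine.Point, addOrderOf P = p ^ s := by
  obtain ⟨W, hΔ, ⟨P, hP⟩, hR⟩ := exists_order_p p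
  have hp : p.Prime := Fact.out
  refine ⟨W, hΔ, fun s => ?_⟩
  cases s with
  | zero => exact ⟨0, by rw [addOrderOf_zero, pow_zero]⟩
  | succ s =>
    induction s with
    | zero => exact ⟨P, by rw [hP, zero_add, pow_one]⟩
    | succ s ih =>
      obtain ⟨Q, hQ⟩ := ih
      obtain ⟨Q', hQ'⟩ := smul_surjective W hΔ p hR Q
      refine ⟨Q', addOrderOf_eq_prime_pow ?_ ?_⟩
      · rw [pow_succ, mul_smul, hQ']
        intro h0
        have hd : p ^ (s + 1) ∣ p ^ s := hQ ▸ addOrderOf_dvd_of_nsmul_eq_zero h0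
        have := (Nat.pow_dvd_pow_iff_le_right hp.one_lt).1 hd
        omega
      · rw [pow_succ, mul_smul, hQ', ← hQ]
        exact addOrderOf_nsmul_eq_zero Q

end Claimed.Agent.R280
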