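import Claimed.Agent.R280.Tw.DiscDefs

/-!
# Row 280, leaf TW-D0a (~900 lines): an elliptic curve over `\bar F_p` with a point of order `p` ([T] Lemma 4.1, first part)
p = 2: `y^2 + xy = x^3 + 1` over `F_2`: 4 points, `(1,0)` has order 4 (so `2 • R ≠ 0`), `(0,1)` order 2.
p odd: Legendre curve `y^2 = x(x-1)(x-λ)`, `H(λ) = [x^(p-1)] f_λ^((p-1)/2) ≠ 0`; point count mod p over `F_q`, `q = p^l`, then over `F_(q^d)`; Cauchy/Sylow gives order `p`;
`(0,0)` has order 2, so `p • (0,0) ≠ 0`.  Work over finite subfields of `Kap p` (or `GaloisField`) and map points with `Affine.Point.map`.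
-/

set_option autoImplicit false

namespace Claimed.Agent.R280

open WithZero WeierstrassCurve Cardinal Polynomial
open scoped Classical

section PowerSums

variable {K : Type} [Field K] [Fintype K]

theorem d0a_sum_pow (i : ℕ) (hi : i ≠ 0) :
    ∑ x : K, x ^ i = if Fintype.card K - 1 ∣ i then -1 else 0 := by
  let φ : Kˣ ↪ K := ⟨fun x ↦ x, Units.val_injective⟩
  have h1 : Finset.univ.map φ = Finset.univ \ {0} := by
    ext x
    simpa only [Finset.mem_map, Finset.mem_univ, Function.Embedding.coeFn_mk, true_and,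
      Finset.mem_sdiff, Finset.mem_singleton, φ] using! isUnit_iff_ne_zero
  calc
    ∑ x : K, x ^ i = ∑ x ∈ Finset.univ \ {(0 : K)}, x ^ i := by
      rw [← Finset.sum_sdiff ({0} : Finset K).subset_univ, Finset.sum_singleton, zero_pow hi,
        add_zero]
    _ = ∑ x : Kˣ, (x ^ i : K) := by simp [φ, ← h1, Finset.univ.sum_map φ]
    _ = _ := FiniteField.sum_pow_units K i

theorem d0a_sum_eval (g : K[X]) (hg : g.natDegree < 2 * (Fintype.card K - 1)) :
    ∑ x : K, g.eval x = - g.coeff (Fintype.card K - 1) := by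
  have hq : 1 < Fintype.card K := Fintype.one_lt_card
  simp only [eval_eq_sum_range' hg]
  rw [Finset.sum_comm]
  simp only [← Finset.mul_sum]
  rw [Finset.sum_eq_single (Fintype.card K - 1)]
  · rw [d0a_sum_pow _ (by omega), if_pos dvd_rfl]
    ring
  · intro i hi hne
    by_cases h0 : i = 0
    · subst h0
      simp
    · rw [d0a_sum_pow _ h0, if_neg, mul_zero]
      rintro ⟨c, hc⟩
      rw [Finset.mem_range] at hi
      have hc1 : c = 1 := by
        rcases c with _ | _ | c
        · simp at hc; exact absurd hc h0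
        · rfl
        · exfalso
          have : 2 * (Fintype.card K - 1) ≤ (Fintype.card K - 1) * (c + 1 + 1) := by nlinarith
          omega
      subst hc1
      exact hne (by rw [hc, mul_one])
  · intro h
    exact absurd (Finset.mem_range.2 (by omega)) h

end PowerSums

section Count

variable {K : Type} [Field K]

/-- points = `0` and the nonsingular pairs -/
theorem d0a_equiv (W : WeierstrassCurve K) :
    Nonempty (W.toAffine.Point ≃ Option {q : K × K // W.toAffine.Nonsingular q.1 q.2}) :=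
  ⟨{ toFun := fun P => match P with
      | .zero => none
      | .some x y h => some ⟨(x, y), h⟩
     invFun := fun o => match o with
      | none => .zero
      | some q => .some q.1.1 q.1.2 q.2
     left_inv := fun P => by cases P <;> rfl
     right_inv := fun o => by cases o <;> rfl }⟩

theorem d0a_finite [Finite K] (W : WeierstrassCurve K) : Finite W.toAffine.Point :=
  Finite.of_equiv _ (d0a_equiv W).some.symm

theorem d0a_nonsingular_iff (W : WeierstrassCurve K) (h1 : W.a₁ = 0) (h3 : W.a₃ = 0)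
    (hΔ : W.Δ ≠ 0) (x y : K) :
    W.toAffine.Nonsingular x y ↔ y ^ 2 = x ^ 3 + W.a₂ * x ^ 2 + W.a₄ * x + W.a₆ := by
  rw [← W.toAffine.equation_iff_nonsingular_of_Δ_ne_zero hΔ, Affine.equation_iff, h1, h3]
  simp

variable [Fintype K]

theorem d0a_card_points_nat (W : WeierstrassCurve K) (h1 : W.a₁ = 0)
    (h3 : W.a₃ = 0) (hΔ : W.Δ ≠ 0) :
    Nat.card W.toAffine.Point = 1 + ∑ x : K,
      ({y : K | y ^ 2 = x ^ 3 + W.a₂ * x ^ 2 + W.a₄ * x + W.a₆}.toFinset).card := by
  rw [Nat.card_congr (d0a_equiv W).some, Nat.card_eq_fintype_card, Fintype.card_option,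
    Fintype.card_subtype, add_comm]
  congr 1
  rw [Finset.card_filter, Fintype.sum_prod_type]
  refine Finset.sum_congr rfl fun x _ => ?_
  rw [Set.toFinset_ofPred, Finset.card_filter]
  refine Finset.sum_congr rfl fun y _ => ?_
  simp only [d0a_nonsingular_iff W h1 h3 hΔ]

theorem d0a_card_points (hK : ringChar K ≠ 2) (W : WeierstrassCurve K) (h1 : W.a₁ = 0)
    (h3 : W.a₃ = 0) (hΔ : W.Δ ≠ 0) :
    ((Nat.card W.toAffine.Point : ℕ) : K) = 1 + ∑ x : K,
      (x ^ 3 + W.a₂ * x ^ 2 + W.a₄ * x + W.a₆) ^ (Fintype.card K / 2) := by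
  rw [d0a_card_points_nat W h1 h3 hΔ]
  push_cast
  congr 1
  have h : ∀ x : K,
      ((({y : K | y ^ 2 = x ^ 3 + W.a₂ * x ^ 2 + W.a₄ * x + W.a₆}.toFinset).card : ℕ) : K)
      = (x ^ 3 + W.a₂ * x ^ 2 + W.a₄ * x + W.a₆) ^ (Fintype.card K / 2) + 1 := by
    intro x
    have := congrArg (Int.cast : ℤ → K)
      (quadraticChar_card_sqrts hK (x ^ 3 + W.a₂ * x ^ 2 + W.a₄ * x + W.a₆))
    rw [Int.cast_natCast, Int.cast_add, Int.cast_one, quadraticChar_eq_pow_of_char_ne_two' hK]
      at this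
    exact this
  simp only [h]
  rw [Finset.sum_add_distrib]
  simp

end Count

section Coeff

theorem d0a_coeff_mul_expand {R : Type} [CommSemiring R] (p : ℕ) (hp : 0 < p) (A B : R[X])
    (hA : A.natDegree < 2 * p - 1) (n : ℕ) :
    (A * expand R p B).coeff (p * n + (p - 1)) = A.coeff (p - 1) * B.coeff n := by
  rw [coeff_mul, Finset.sum_eq_single (p - 1, p * n)]
  · rw [coeff_expand hp, if_pos (dvd_mul_right p n), Nat.mul_div_cancel_left _ hp]
  · rintro ⟨i, j⟩ hij hne
    rw [Finset.HasAntidiagonal.mem_antidiagonal] at hij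
    simp only at hij ⊢
    rw [coeff_expand hp]
    split_ifs with hd
    · obtain ⟨j', rfl⟩ := hd
      by_cases hi : A.natDegree < i
      · rw [coeff_eq_zero_of_natDegree_lt hi, zero_mul]
      · exfalso
        rw [not_lt] at hi
        have hi2 : i < 2 * p - 1 := lt_of_le_of_lt hi hA
        rcases lt_trichotomy j' n with h | h | h
        · have : p * (j' + 1) ≤ p * n := Nat.mul_le_mul_left p h
          rw [mul_add, mul_one] at this
          omega
        · subst h
          apply hne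
          have : i = p - 1 := by omega
          rw [this]
        · have : p * (n + 1) ≤ p * j' := Nat.mul_le_mul_left p h
          rw [mul_add, mul_one] at this
          omega
    · rw [mul_zero]
  · intro h
    exact absurd (Finset.HasAntidiagonal.mem_antidiagonal.2 (by omega)) h

theorem d0a_coeff_pow (p : ℕ) [Fact p.Prime] (hp2 : p ≠ 2) (f : (ZMod p)[X])
    (hf : f.natDegree ≤ 3) (m : ℕ) :
    (f ^ ((p ^ m - 1) / 2)).coeff (p ^ m - 1) = ((f ^ ((p - 1) / 2)).coeff (p - 1)) ^ m := by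
  have hp : p.Prime := Fact.out
  obtain ⟨k, hk⟩ : ∃ k, p = 2 * k + 1 := by
    rcases hp.eq_two_or_odd' with h | h
    · exact absurd h hp2
    · exact h
  induction m with
  | zero => simp
  | succ m ih =>
    obtain ⟨t, ht⟩ : ∃ t, p ^ m = 2 * t + 1 := by
      have : Odd (p ^ m) := Odd.pow ⟨k, hk⟩
      exact this
    have e0 : (p ^ m - 1) / 2 = t := by omega
    have e1 : p ^ (m + 1) = 2 * (k + p * t) + 1 := by
      rw [pow_succ, ht]
      nlinarith
    have e2 : (p ^ (m + 1) - 1) / 2 = (p - 1) / 2 + p * t := by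
      have : (p - 1) / 2 = k := by omega
      omega
    have e3 : p ^ (m + 1) - 1 = p * (p ^ m - 1) + (p - 1) := by
      have h1 : 1 ≤ p ^ m := Nat.one_le_pow _ _ hp.pos
      have h2 : p * (p ^ m - 1) = p ^ (m + 1) - p := by
        rw [Nat.mul_sub, mul_one, pow_succ, mul_comm]
      have h3 : p ≤ p ^ (m + 1) := by
        calc p = p ^ 1 := (pow_one p).symm
          _ ≤ p ^ (m + 1) := Nat.pow_le_pow_right hp.pos (by omega)
      have := hp.pos
      omega
    rw [e0] at ih
    rw [e2, pow_add, pow_mul', ← ZMod.expand_card, e3,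
      d0a_coeff_mul_expand p hp.pos _ _ _ _, ih, pow_succ, mul_comm]
    calc (f ^ ((p - 1) / 2)).natDegree ≤ (p - 1) / 2 * f.natDegree := natDegree_pow_le
      _ ≤ (p - 1) / 2 * 3 := Nat.mul_le_mul_left _ hf
      _ < 2 * p - 1 := by omega

end Coeff

section Param

theorem d0a_natDegree_coeff_pow {R : Type} [CommRing R] (P : R[X][X])
    (hP : ∀ i, (P.coeff i).natDegree ≤ 1) (n : ℕ) : ∀ i, ((P ^ n).coeff i).natDegree ≤ n := by
  induction n with
  | zero =>
    intro i
    rw [pow_zero, coeff_one]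
    split_ifs <;> simp
  | succ n ih =>
    intro i
    rw [pow_succ, coeff_mul]
    refine natDegree_sum_le_of_forall_le _ _ fun q _ => ?_
    exact natDegree_mul_le_of_le (ih _) (hP _)

theorem d0a_choose_ne_zero (p : ℕ) [Fact p.Prime] {n k : ℕ} (hn : n < p) (hk : k ≤ n) :
    ((n.choose k : ℕ) : ZMod p) ≠ 0 := by
  have hp : p.Prime := Fact.out
  rw [Ne, ZMod.natCast_eq_zero_iff]
  intro h
  have h1 : p ∣ n.factorial := by
    rw [← Nat.choose_mul_factorial_mul_factorial hk]
    exact Dvd.dvd.mul_right (Dvd.dvd.mul_right h _) _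
  exact absurd ((hp.dvd_factorial).1 h1) (by omega)

theorem d0a_coeff_cubic {R : Type} [CommRing R] (a b : R) (k : ℕ) :
    ((X ^ 3 + C a * X ^ 2 + C b * X : R[X]) ^ k).coeff (k + k)
      = ((X ^ 2 + C a * X + C b : R[X]) ^ k).coeff k := by
  have e : (X ^ 3 + C a * X ^ 2 + C b * X : R[X]) = X * (X ^ 2 + C a * X + C b) := by ring
  rw [e, mul_pow, coeff_X_pow_mul]

theorem d0a_exists_param_big (p : ℕ) [Fact p.Prime] {k : ℕ} (hk : p = 2 * k + 1) (hk2 : 2 ≤ k) :
    ∃ a : ZMod p, a ^ 2 - 4 ≠ 0 ∧ ((X ^ 2 + C a * X + C 1 : (ZMod p)[X]) ^ k).coeff k ≠ 0 := by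
  set P : (ZMod p)[X][X] := X ^ 2 + C X * X + C 1 with hP
  set G : (ZMod p)[X] := (P ^ k).coeff k with hG
  have heval : ∀ a : ZMod p, G.eval a = ((X ^ 2 + C a * X + C 1 : (ZMod p)[X]) ^ k).coeff k := by
    intro a
    have h1 : (P ^ k).map (evalRingHom a) = (X ^ 2 + C a * X + C 1 : (ZMod p)[X]) ^ k := by
      rw [Polynomial.map_pow, hP]
      simp
    rw [← h1, coeff_map, hG]
    rfl
  have hG2 : G.eval 2 ≠ 0 := by
    rw [heval]
    have e : (X ^ 2 + C (2 : ZMod p) * X + C 1 : (ZMod p)[X]) = (X + 1) ^ 2 := by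
      rw [map_ofNat, map_one]; ring
    rw [e, ← pow_mul, coeff_X_add_one_pow]
    exact d0a_choose_ne_zero p (by omega) (by omega)
  have hG0 : G ≠ 0 := by
    rintro h
    rw [h, eval_zero] at hG2
    exact hG2 rfl
  have hGd : G.natDegree ≤ k := by
    refine d0a_natDegree_coeff_pow P (fun i => ?_) k k
    rw [hP]
    simp only [coeff_add, coeff_X_pow, coeff_C_mul, coeff_X, coeff_C]
    split_ifs <;> simp <;> try omega
  have hQ0 : (X ^ 2 - C 4 : (ZMod p)[X]) ≠ 0 := X_pow_sub_C_ne_zero (by norm_num) _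
  have hT0 : G * (X ^ 2 - C 4) ≠ 0 := mul_ne_zero hG0 hQ0
  have hTd : (G * (X ^ 2 - C 4)).natDegree < p := by
    calc (G * (X ^ 2 - C 4)).natDegree ≤ k + 2 :=
          natDegree_mul_le_of_le hGd (by rw [natDegree_X_pow_sub_C])
      _ < p := by omega
  obtain ⟨a, ha⟩ := exists_eval_ne_zero_of_natDegree_lt_card _ hT0 (by
    rw [Cardinal.mk_fintype, ZMod.card]
    exact_mod_cast hTd)
  rw [eval_mul, heval] at ha
  refine ⟨a, ?_, left_ne_zero_of_mul ha⟩
  have := right_ne_zero_of_mul ha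
  simpa using this

theorem d0a_exists_param (p : ℕ) [Fact p.Prime] (hp2 : p ≠ 2) :
    ∃ a b : ZMod p, b ≠ 0 ∧ a ^ 2 - 4 * b ≠ 0 ∧
      ((X ^ 3 + C a * X ^ 2 + C b * X : (ZMod p)[X]) ^ ((p - 1) / 2)).coeff (p - 1) ≠ 0 := by
  have hp : p.Prime := Fact.out
  obtain ⟨k, hk⟩ : ∃ k, p = 2 * k + 1 := by
    rcases hp.eq_two_or_odd' with h | h
    · exact absurd h hp2
    · exact h
  have e1 : (p - 1) / 2 = k := by omega
  have e2 : p - 1 = k + k := by omega
  rw [e1, e2]
  simp only [d0a_coeff_cubic]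
  by_cases hk2 : 2 ≤ k
  · obtain ⟨a, h1, h2⟩ := d0a_exists_param_big p hk hk2
    exact ⟨a, 1, one_ne_zero, by simpa using h1, h2⟩
  · have hk1 : k = 1 := by
      have := hp.two_le
      omega
    subst hk1
    have hp3 : p = 3 := by omega
    subst hp3
    refine ⟨1, -1, neg_ne_zero.2 one_ne_zero, ?_, ?_⟩
    · have e : (1 ^ 2 - 4 * -1 : ZMod 3) = ((5 : ℕ) : ZMod 3) := by norm_num
      rw [e, Ne, ZMod.natCast_eq_zero_iff]
      decide
    · simp [coeff_X, coeff_one]

end Param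

section Assembly

theorem d0a_disc {R : Type} [CommRing R] (a b : R) :
    (⟨0, a, 0, b, 0⟩ : WeierstrassCurve R).Δ = 16 * b ^ 2 * (a ^ 2 - 4 * b) := by
  simp only [WeierstrassCurve.Δ, WeierstrassCurve.b₂, WeierstrassCurve.b₄, WeierstrassCurve.b₆,
    WeierstrassCurve.b₈]
  ring

theorem d0a_card_mod (p : ℕ) [Fact p.Prime] (hp2 : p ≠ 2) (a b : ZMod p)
    (hΔ : (⟨0, a, 0, b, 0⟩ : WeierstrassCurve (ZMod p)).Δ ≠ 0)
    (F : Type) [Field F] [Fintype F] [Algebra (ZMod p) F] (m : ℕ) (hm : m ≠ 0)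
    (hF : Fintype.card F = p ^ m) :
    ((Nat.card ((⟨0, a, 0, b, 0⟩ : WeierstrassCurve (ZMod p)).baseChange F).toAffine.Point : ℕ) : F)
      = 1 - algebraMap (ZMod p) F
        ((((X ^ 3 + C a * X ^ 2 + C b * X : (ZMod p)[X]) ^ ((p - 1) / 2)).coeff (p - 1)) ^ m) := by
  have hp : p.Prime := Fact.out
  have : CharP F p := charP_of_injective_algebraMap (algebraMap (ZMod p) F).injective p
  have hK : ringChar F ≠ 2 := by rw [ringChar.eq F p]; exact hp2
  set f : (ZMod p)[X] := X ^ 3 + C a * X ^ 2 + C b * X with hf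
  have hfd : f.natDegree ≤ 3 := by
    rw [hf]; compute_degree
  have hΔ' : ((⟨0, a, 0, b, 0⟩ : WeierstrassCurve (ZMod p)).baseChange F).Δ ≠ 0 := by
    rw [WeierstrassCurve.baseChange, WeierstrassCurve.map_Δ]
    exact (_root_.map_ne_zero _).mpr hΔ
  rw [d0a_card_points hK _ (by simp [WeierstrassCurve.baseChange])
    (by simp [WeierstrassCurve.baseChange]) hΔ']
  obtain ⟨t, ht⟩ : ∃ t, p ^ m = 2 * t + 1 := by
    have h1 : Odd p := hp.eq_two_or_odd'.resolve_left hp2
    exact h1.pow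
  have ht0 : 0 < t := by
    have : 1 < p ^ m := Nat.one_lt_pow hm hp.one_lt
    omega
  have e1 : Fintype.card F / 2 = (p ^ m - 1) / 2 := by rw [hF]; omega
  have e2 : ∀ x : F, (x ^ 3 + ((⟨0, a, 0, b, 0⟩ : WeierstrassCurve (ZMod p)).baseChange F).a₂ * x ^ 2
      + ((⟨0, a, 0, b, 0⟩ : WeierstrassCurve (ZMod p)).baseChange F).a₄ * x
      + ((⟨0, a, 0, b, 0⟩ : WeierstrassCurve (ZMod p)).baseChange F).a₆) ^ (Fintype.card F / 2)
      = ((f ^ ((p ^ m - 1) / 2)).map (algebraMap (ZMod p) F)).eval x := by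
    intro x
    rw [e1, Polynomial.map_pow, eval_pow, hf]
    simp [WeierstrassCurve.baseChange]
  simp only [e2]
  rw [d0a_sum_eval, hF, coeff_map, d0a_coeff_pow p hp2 f hfd m]
  · ring
  · calc ((f ^ ((p ^ m - 1) / 2)).map (algebraMap (ZMod p) F)).natDegree
        ≤ (f ^ ((p ^ m - 1) / 2)).natDegree := natDegree_map_le
      _ ≤ (p ^ m - 1) / 2 * f.natDegree := natDegree_pow_le
      _ ≤ (p ^ m - 1) / 2 * 3 := Nat.mul_le_mul_left _ hfd
      _ < 2 * (Fintype.card F - 1) := by rw [hF]; omega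

theorem d0a_odd (p : ℕ) [Fact p.Prime] (hp2 : p ≠ 2) :
    ∃ W : WeierstrassCurve (Kap p), W.Δ ≠ 0 ∧ (∃ P : W.toAffine.Point, addOrderOf P = p) ∧
      ∃ R : W.toAffine.Point, p • R ≠ 0 := by
  have hp : p.Prime := Fact.out
  obtain ⟨a, b, hb, hab, hH⟩ := d0a_exists_param p hp2
  have h16 : (16 : ZMod p) ≠ 0 := by
    have h2 : (2 : ZMod p) ≠ 0 := by
      have : ((2 : ℕ) : ZMod p) ≠ 0 := by
        rw [Ne, ZMod.natCast_eq_zero_iff]
        intro h
        exact hp2 ((Nat.prime_dvd_prime_iff_eq hp Nat.prime_two).1 h)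
      exact_mod_cast this
    have : (16 : ZMod p) = 2 ^ 4 := by norm_num
    rw [this]
    exact pow_ne_zero _ h2
  have hΔ : (⟨0, a, 0, b, 0⟩ : WeierstrassCurve (ZMod p)).Δ ≠ 0 := by
    rw [d0a_disc]
    exact mul_ne_zero (mul_ne_zero h16 (pow_ne_zero _ hb)) hab
  have hΔ' : ((⟨0, a, 0, b, 0⟩ : WeierstrassCurve (ZMod p)).baseChange (Kap p)).Δ ≠ 0 := by
    rw [WeierstrassCurve.baseChange, WeierstrassCurve.map_Δ]
    exact (_root_.map_ne_zero _).mpr hΔ
  refine ⟨(⟨0, a, 0, b, 0⟩ : WeierstrassCurve (ZMod p)).baseChange (Kap p), hΔ', ?_, ?_⟩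
  · -- a point of order `p` over the field with `p ^ (p - 1)` elements
    have hm : p - 1 ≠ 0 := by have := hp.two_le; omega
    let _ : Fintype (GaloisField p (p - 1)) := Fintype.ofFinite _
    have hF : Fintype.card (GaloisField p (p - 1)) = p ^ (p - 1) := by
      rw [← Nat.card_eq_fintype_card, GaloisField.card p (p - 1) hm]
    have h1 := d0a_card_mod p hp2 a b hΔ (GaloisField p (p - 1)) (p - 1) hm hF
    rw [ZMod.pow_card_sub_one_eq_one hH, map_one, sub_self,
      CharP.cast_eq_zero_iff (GaloisField p (p - 1)) p] at h1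
    have := d0a_finite ((⟨0, a, 0, b, 0⟩ : WeierstrassCurve (ZMod p)).baseChange
      (GaloisField p (p - 1)))
    obtain ⟨P, hP⟩ := exists_prime_addOrderOf_dvd_card' p h1
    let φ : GaloisField p (p - 1) →ₐ[ZMod p] Kap p := IsAlgClosed.lift
    refine ⟨Affine.Point.map (W' := (⟨0, a, 0, b, 0⟩ : WeierstrassCurve (ZMod p))) φ P, ?_⟩
    rw [addOrderOf_injective _ (Affine.Point.map_injective φ), hP]
  · -- the point `(0, 0)` has order two
    have hns : ((⟨0, a, 0, b, 0⟩ : WeierstrassCurve (ZMod p)).baseChange (Kap p)).toAffine.Nonsingular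
        0 0 := by
      rw [d0a_nonsingular_iff _ (by simp [WeierstrassCurve.baseChange])
        (by simp [WeierstrassCurve.baseChange]) hΔ']
      simp [WeierstrassCurve.baseChange]
    refine ⟨Affine.Point.some 0 0 hns, ?_⟩
    have h2 : Affine.Point.some 0 0 hns + Affine.Point.some 0 0 hns = 0 :=
      Affine.Point.add_self_of_Y_eq (by simp [Affine.negY, WeierstrassCurve.baseChange])
    obtain ⟨k, hk⟩ : ∃ k, p = 2 * k + 1 := hp.eq_two_or_odd'.resolve_left hp2
    have h3 : p • Affine.Point.some 0 0 hns = Affine.Point.some 0 0 hns := by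
      have h4 : ∀ n : ℕ, n = 2 * k + 1 →
          n • Affine.Point.some 0 0 hns = Affine.Point.some 0 0 hns := by
        rintro n rfl
        rw [add_nsmul, mul_comm, mul_nsmul', two_nsmul, h2, nsmul_zero, zero_add, one_nsmul]
      exact h4 p hk
    rw [h3]
    exact Affine.Point.some_ne_zero _

theorem d0a_two :
    ∃ W : WeierstrassCurve (Kap 2), W.Δ ≠ 0 ∧ (∃ P : W.toAffine.Point, addOrderOf P = 2) ∧
      ∃ R : W.toAffine.Point, 2 • R ≠ 0 := by
  have h2 : (2 : Kap 2) = 0 := by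
    have := CharP.cast_eq_zero (Kap 2) 2
    exact_mod_cast this
  have hΔ : (⟨1, 0, 0, 0, 1⟩ : WeierstrassCurve (Kap 2)).Δ ≠ 0 := by
    have e : (⟨1, 0, 0, 0, 1⟩ : WeierstrassCurve (Kap 2)).Δ = 1 + 2 * (-217) := by
      simp only [WeierstrassCurve.Δ, WeierstrassCurve.b₂, WeierstrassCurve.b₄, WeierstrassCurve.b₆,
        WeierstrassCurve.b₈]
      ring
    rw [e, h2]
    simp
  refine ⟨⟨1, 0, 0, 0, 1⟩, hΔ, ?_, ?_⟩
  · have hns : (⟨1, 0, 0, 0, 1⟩ : WeierstrassCurve (Kap 2)).toAffine.Nonsingular 0 1 := by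
      rw [← Affine.equation_iff_nonsingular_of_Δ_ne_zero hΔ, Affine.equation_iff]
      simp
    refine ⟨Affine.Point.some 0 1 hns, ?_⟩
    have h : Affine.Point.some 0 1 hns + Affine.Point.some 0 1 hns = 0 :=
      Affine.Point.add_self_of_Y_eq (by
        simp only [Affine.negY]
        linear_combination h2)
    refine addOrderOf_eq_prime ?_ (Affine.Point.some_ne_zero _)
    rw [two_smul, h]
  · have hns : (⟨1, 0, 0, 0, 1⟩ : WeierstrassCurve (Kap 2)).toAffine.Nonsingular 1 0 := by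
      rw [← Affine.equation_iff_nonsingular_of_Δ_ne_zero hΔ, Affine.equation_iff]
      simp only
      linear_combination (-1 : Kap 2) * h2
    refine ⟨Affine.Point.some 1 0 hns, ?_⟩
    rw [two_smul, Affine.Point.add_self_of_Y_ne (by simp [Affine.negY])]
    exact Affine.Point.some_ne_zero _

end Assembly

/-- D0a ([T] Lemma 4.1, first part): a curve with a point of order `p` and a point not killed by `p` -/
theorem exists_order_p (p : ℕ) [Fact p.Prime] :
    ∃ W : WeierstrassCurve (Kap p), W.Δ ≠ 0 ∧ (∃ P : W.toAffine.Point, addOrderOf P = p) ∧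
      ∃ R : W.toAffine.Point, p • R ≠ 0 := by
  by_cases hp2 : p = 2
  · subst hp2
    exact d0a_two
  · exact d0a_odd p hp2

end Claimed.Agent.R280
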