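import Claimed.Agent.R280.Tw.DiscDefs

/-!
# Row 280, leaf TW-D1b: prolongations of discrete valuations to finite extensions are discrete
Proof (helper4).  `N = [K':K]`, `M = N!`.  In the relation given by the minimal polynomial of `x ≠ 0` two terms have the same value, so `v' x ^ n = v c` with `0 < n ≤ N`, `c ≠ 0`;
hence `v' x ^ M = v ϖ ^ m` for an integer `m`.  These `m` form a subgroup `g ℤ` of `ℤ` containing `M`; an element `ϖ'` with `v' ϖ' ^ M = v ϖ ^ |g|` is a uniformiser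
(`M`-th powers are injective in `ℚᵐ⁰`).
-/

set_option autoImplicit false

namespace Claimed.Agent.R280

open WithZero WeierstrassCurve Cardinal
open scoped Classical

/-- two terms of the same value: the arithmetic -/
theorem d1b_pow_of_eq {L L' Γ₀ : Type} [Field L] [Field L'] [Algebra L L']
    [LinearOrderedCommGroupWithZero Γ₀] (w : Valuation L' Γ₀) {x : L'} (hx0 : x ≠ 0) {a b : L} (ha : a ≠ 0)
    (hb : b ≠ 0) {i j N : ℕ} (hij : i < j) (hj : j ≤ N)
    (h : w (algebraMap L L' a * x ^ i) = w (algebraMap L L' b * x ^ j)) :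
    ∃ (n : ℕ) (c : L), 0 < n ∧ n ≤ N ∧ c ≠ 0 ∧ w (x ^ n) = w (algebraMap L L' c) := by
  refine ⟨j - i, a / b, by omega, by omega, div_ne_zero ha hb, ?_⟩
  have hb' : w (algebraMap L L' b) ≠ 0 := (Valuation.ne_zero_iff _).2 (by simpa using hb)
  have hxi : w (x ^ i) ≠ 0 := (Valuation.ne_zero_iff _).2 (pow_ne_zero _ hx0)
  have e : x ^ j = x ^ (j - i) * x ^ i := by rw [← pow_add]; congr 1; omega
  rw [e, map_mul, map_mul, map_mul] at h
  rw [map_div₀, map_div₀, eq_div_iff hb']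
  have h2 : w (algebraMap L L' a) * w (x ^ i) = (w (x ^ (j - i)) * w (algebraMap L L' b)) * w (x ^ i) := by
    rw [h, ← mul_assoc, mul_comm (w (algebraMap L L' b))]
  exact (mul_right_cancel₀ hxi h2).symm

/-- a power `x ^ n`, `0 < n ≤ deg p`, of a root of `p` has the value of an element of the base field -/
theorem d1b_pow_le {L L' Γ₀ : Type} [Field L] [Field L'] [Algebra L L']
    [LinearOrderedCommGroupWithZero Γ₀] (w : Valuation L' Γ₀) {x : L'} (p : Polynomial L) (hp0 : p ≠ 0)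
    (hp : Polynomial.aeval x p = 0) (hx0 : x ≠ 0) :
    ∃ (n : ℕ) (a : L), 0 < n ∧ n ≤ p.natDegree ∧ a ≠ 0 ∧ w (x ^ n) = w (algebraMap L L' a) := by
  rw [Polynomial.aeval_def, Polynomial.eval₂_eq_sum, Polynomial.sum_def] at hp
  have hne : p.support.Nonempty := Polynomial.nonempty_support_iff.2 hp0
  obtain ⟨j, hj, hmax⟩ := Finset.exists_max_image p.support
    (fun i => w (algebraMap L L' (p.coeff i) * x ^ i)) hne
  have hcoef : ∀ i ∈ p.support, p.coeff i ≠ 0 := fun i hi => Polynomial.mem_support_iff.1 hi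
  have hdeg : ∀ i ∈ p.support, i ≤ p.natDegree := fun i hi => Polynomial.le_natDegree_of_mem_supp i hi
  have hj0 : w (algebraMap L L' (p.coeff j) * x ^ j) ≠ 0 :=
    (Valuation.ne_zero_iff _).2 (mul_ne_zero (by simpa using hcoef j hj) (pow_ne_zero _ hx0))
  by_cases hall : ∀ i ∈ p.support \ {j}, w (algebraMap L L' (p.coeff i) * x ^ i) <
      w (algebraMap L L' (p.coeff j) * x ^ j)
  · have := w.map_sum_eq_of_lt hj hall
    rw [hp, map_zero] at this
    exact absurd this.symm hj0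
  · push Not at hall
    obtain ⟨i, hi, hle⟩ := hall
    obtain ⟨hi1, hi2⟩ := Finset.mem_sdiff.1 hi
    have hij : i ≠ j := fun e => hi2 (Finset.mem_singleton.2 e)
    have heq := le_antisymm (hmax i hi1) hle
    rcases lt_or_gt_of_ne hij with h | h
    · exact d1b_pow_of_eq w hx0 (hcoef i hi1) (hcoef j hj) h (hdeg j hj) heq
    · exact d1b_pow_of_eq w hx0 (hcoef j hj) (hcoef i hi1) h (hdeg i hi1) heq.symm

/-- D1b: every prolongation of a discrete valuation to a finite extension is discrete -/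
theorem disc_finite_ext {K K' : Type} [Field K] [Field K'] [Algebra K K'] [FiniteDimensional K K']
    (v : Valuation K ℚᵐ⁰) (hv : IsDiscVal v) (v' : Valuation K' ℚᵐ⁰) (h : ValExt v' v) :
    IsDiscVal v' := by
  obtain ⟨ϖ, hϖ1, hϖ0, hϖ⟩ := hv
  have hq0 : v ϖ ≠ 0 := (Valuation.ne_zero_iff _).2 hϖ0
  obtain ⟨M, hM⟩ : ∃ M : ℕ, M = (Module.finrank K K').factorial := ⟨_, rfl⟩
  have hM0 : M ≠ 0 := by rw [hM]; exact Nat.factorial_ne_zero _
  -- every value has its `M`-th power in the old value group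
  have key : ∀ x : K', x ≠ 0 → ∃ m : ℤ, v' x ^ M = v ϖ ^ m := by
    intro x hx0
    have hint : IsIntegral K x := Algebra.IsIntegral.isIntegral x
    obtain ⟨n, c, hn0, hn, hc, e⟩ := d1b_pow_le v' (minpoly K x) (minpoly.ne_zero hint) (minpoly.aeval K x) hx0
    obtain ⟨k, hk⟩ := hϖ c hc
    have hnN : n ≤ Module.finrank K K' := hn.trans (minpoly.natDegree_le x)
    obtain ⟨t, ht⟩ : n ∣ M := by rw [hM]; exact Nat.dvd_factorial hn0 hnN
    refine ⟨k * t, ?_⟩
    rw [ht, pow_mul, ← map_pow, e, h c, hk, zpow_mul, zpow_natCast]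
  -- the subgroup of exponents
  let S : AddSubgroup ℤ :=
    { carrier := {m | ∃ x : K', x ≠ 0 ∧ v' x ^ M = v ϖ ^ m}
      zero_mem' := ⟨1, one_ne_zero, by simp⟩
      add_mem' := by
        rintro m m' ⟨x, hx, ex⟩ ⟨y, hy, ey⟩
        exact ⟨x * y, mul_ne_zero hx hy, by rw [map_mul, mul_pow, ex, ey, zpow_add₀ hq0]⟩
      neg_mem' := by
        rintro m ⟨x, hx, ex⟩
        exact ⟨x⁻¹, inv_ne_zero hx, by rw [map_inv₀, inv_pow, ex, zpow_neg]⟩ }
  obtain ⟨g, hg⟩ := Int.subgroup_cyclic S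
  have hgS : g ∈ S := by rw [hg]; exact AddSubgroup.mem_closure_singleton_self g
  have hdvd : ∀ m ∈ S, |g| ∣ m := by
    intro m hm
    rw [hg, AddSubgroup.mem_closure_singleton] at hm
    obtain ⟨k, rfl⟩ := hm
    rw [abs_dvd]
    exact ⟨k, by rw [smul_eq_mul, mul_comm]⟩
  have hMS : (M : ℤ) ∈ S := ⟨algebraMap K K' ϖ, by simpa using hϖ0, by rw [h ϖ, zpow_natCast]⟩
  have hg0 : g ≠ 0 := by
    rintro rfl
    have := hdvd _ hMS
    rw [abs_zero, zero_dvd_iff] at this
    exact hM0 (by exact_mod_cast this)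
  have hgpos : 0 < |g| := abs_pos.2 hg0
  have hgS' : |g| ∈ S := by
    rcases abs_choice g with e | e
    · rw [e]; exact hgS
    · rw [e]; exact S.neg_mem hgS
  obtain ⟨ϖ', hϖ'0, hϖ'⟩ := hgS'
  have hlt : v ϖ ^ |g| < 1 := by
    obtain ⟨t, ht⟩ := Int.eq_ofNat_of_zero_le hgpos.le
    rw [ht, zpow_natCast]
    exact pow_lt_one₀ zero_le hϖ1 (by rintro rfl; rw [ht] at hgpos; exact absurd hgpos (by simp))
  refine ⟨ϖ', ?_, hϖ'0, fun a ha => ?_⟩
  · by_contra hcon
    rw [not_lt] at hcon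
    have : 1 ≤ v' ϖ' ^ M := one_le_pow₀ hcon
    rw [hϖ'] at this
    exact absurd hlt (not_lt.2 this)
  · obtain ⟨m, hm⟩ := key a ha
    obtain ⟨k, hk⟩ := hdvd m ⟨a, ha, hm⟩
    refine ⟨k, ?_⟩
    have e : v' a ^ M = (v' ϖ' ^ k) ^ M := by
      rw [hm, hk, zpow_mul, ← hϖ', ← zpow_natCast, ← zpow_natCast, ← zpow_mul, ← zpow_mul, mul_comm]
    exact (pow_left_inj₀ zero_le zero_le hM0).1 e

end Claimed.Agent.R280
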