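import Claimed.Agent.R280.Tw.DiscDefs

/-!
# Row 280, leaf TW-D1c (~400 lines): roots of the reduction lift
`B = c ∏ (X - r_i)`; normalise: `B = u ∏_{|r_i| ≤ 1} (X - r_i) ∏_{|r_i| > 1} (1 - X / r_i)`, `|u| = 1` (Gauss lemma); reduce.

PROVED (helper131), by a shorter way: shift by a lift `a1` of `a0` (`Polynomial.taylor`); the shifted polynomial `C` has integral
coefficients, one of them a unit, and `v (C.coeff 0) < 1`.  If all roots `s` of `C` had `1 ≤ v s` then `v (C.coeff j) ≤ v (C.coeff 0)`
for all `j` (induction on the multiset of roots, `d1c_coeff_le`): contradiction.  So `C` has a root `s` with `v s < 1`; `a = s + a1`.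
-/

set_option autoImplicit false

namespace Claimed.Agent.R280

open WithZero WeierstrassCurve Cardinal
open scoped Classical

/-- if all roots are of absolute value `≥ 1` then the constant coefficient is the largest one -/
theorem d1c_coeff_le {K : Type} [Field K] (v : Valuation K ℚᵐ⁰) (S : Multiset K) (hS : ∀ s ∈ S, 1 ≤ v s) :
    ∀ j, v ((S.map fun x => Polynomial.X - Polynomial.C x).prod.coeff j) ≤
      v ((S.map fun x => Polynomial.X - Polynomial.C x).prod.coeff 0) := by
  induction S using Multiset.induction_on with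
  | empty => 
    intro j
    simp only [Multiset.map_zero, Multiset.prod_zero, Polynomial.coeff_one]
    split_ifs <;> simp
  | cons s S ih =>
    have ih' := ih (fun t ht => hS t (Multiset.mem_cons_of_mem ht))
    have hs : 1 ≤ v s := hS s (Multiset.mem_cons_self s S)
    set P := (S.map fun x => Polynomial.X - Polynomial.C x).prod with hP
    have h0 : v (((Polynomial.X - Polynomial.C s) * P).coeff 0) = v s * v (P.coeff 0) := by
      rw [Polynomial.mul_coeff_zero]
      simp
    intro j
    rw [Multiset.map_cons, Multiset.prod_cons, ← hP, h0]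
    have hle : v (P.coeff 0) ≤ v s * v (P.coeff 0) := by
      calc v (P.coeff 0) = 1 * v (P.coeff 0) := (one_mul _).symm
        _ ≤ v s * v (P.coeff 0) := mul_le_mul_left hs _
    cases j with
    | zero => exact h0.le
    | succ j =>
      rw [Polynomial.coeff_X_sub_C_mul]
      refine (v.map_sub _ _).trans (max_le ((ih' j).trans hle) ?_)
      rw [map_mul]
      exact mul_le_mul_right (ih' (j + 1)) _

/-- D1c: roots of the reduction lift to roots -/
theorem root_lift {K k : Type} [Field K] [IsAlgClosed K] [Field k] (v : Valuation K ℚᵐ⁰)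
    (r : ResMap v k) (B : Polynomial K) (hB : ∀ j, v (B.coeff j) ≤ 1) (a0 : k)
    (hne : ∃ j, v (B.coeff j) = 1) (h0 : ∑ j ∈ B.support, r.res (B.coeff j) * a0 ^ j = 0) :
    ∃ a : K, B.eval a = 0 ∧ v a ≤ 1 ∧ r.res a = a0 := by
  have hres : ∀ x : v.valuationSubring, r.res (x : K) = r.toHom x := by
    intro x
    have hx : v (x : K) ≤ 1 := (Valuation.mem_valuationSubring_iff v _).1 x.2
    unfold ResMap.res
    rw [dif_pos hx]
  -- the integral model of `B`
  have hlift : B ∈ Polynomial.lifts v.valuationSubring.subtype := by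
    rw [Polynomial.lifts_iff_coeff_lifts]
    intro j
    exact ⟨⟨B.coeff j, (Valuation.mem_valuationSubring_iff v _).2 (hB j)⟩, rfl⟩
  obtain ⟨B', hB''⟩ := hlift
  have hB' : B'.map v.valuationSubring.subtype = B := hB''
  have hcoe : ∀ j, ((B'.coeff j : v.valuationSubring) : K) = B.coeff j := by
    intro j
    rw [← hB', Polynomial.coeff_map]; rfl
  have hinj : Function.Injective v.valuationSubring.subtype := Subtype.val_injective
  -- the reduction vanishes at `a0`
  have hev : (B'.map r.toHom).eval a0 = 0 := by
    rw [Polynomial.eval_map, Polynomial.eval₂_eq_sum, Polynomial.sum_def,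
      ← Polynomial.support_map_of_injective B' hinj, hB', ← h0]
    refine Finset.sum_congr rfl (fun j _ => ?_)
    rw [← hcoe j, hres]
  -- the reduction is not zero
  have hne' : B'.map r.toHom ≠ 0 := by
    obtain ⟨j, hj⟩ := hne
    intro h
    have h1 : r.toHom (B'.coeff j) = 0 := by
      rw [← Polynomial.coeff_map, h, Polynomial.coeff_zero]
    have h2 := (r.ker _).1 h1
    rw [hcoe j, hj] at h2
    exact lt_irrefl _ h2
  obtain ⟨a1, ha1⟩ := r.surj a0
  -- the shifted polynomial
  set C' := Polynomial.taylor a1 B' with hC'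
  have hC0 : v ((C'.coeff 0 : v.valuationSubring) : K) < 1 := by
    rw [← r.ker, hC', Polynomial.taylor_coeff_zero, ← Polynomial.eval₂_at_apply, ha1,
      ← Polynomial.eval_map]
    exact hev
  have hCne : C'.map r.toHom ≠ 0 := by
    rw [hC', Polynomial.map_taylor]
    intro h
    exact hne' (Polynomial.taylor_injective _ (h.trans (map_zero _).symm))
  obtain ⟨j, hj⟩ : ∃ j, r.toHom (C'.coeff j) ≠ 0 := by
    by_contra hcon
    push Not at hcon
    exact hCne (Polynomial.ext fun j => by rw [Polynomial.coeff_map, hcon j, Polynomial.coeff_zero])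
  have hj1 : ¬ v ((C'.coeff j : v.valuationSubring) : K) < 1 := fun h => hj ((r.ker _).2 h)
  set C := C'.map v.valuationSubring.subtype with hC
  have hCB : C = Polynomial.taylor (a1 : K) B := by
    rw [hC, hC', Polynomial.map_taylor, hB']; rfl
  have hCc : ∀ i, C.coeff i = ((C'.coeff i : v.valuationSubring) : K) := by
    intro i
    rw [hC, Polynomial.coeff_map]; rfl
  have hfac := (IsAlgClosed.splits C).eq_prod_roots
  -- a root of absolute value `< 1`
  obtain ⟨s, hsr, hs1⟩ : ∃ s ∈ C.roots, v s < 1 := by
    by_contra hcon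
    push Not at hcon
    have h1 := d1c_coeff_le v C.roots hcon j
    have h2 : v (C.coeff j) ≤ v (C.coeff 0) := by
      rw [hfac, Polynomial.coeff_C_mul, Polynomial.coeff_C_mul, map_mul, map_mul]
      exact mul_le_mul_right h1 _
    rw [hCc, hCc] at h2
    exact hj1 (lt_of_le_of_lt h2 hC0)
  have hs0 : C.eval s = 0 := (Polynomial.mem_roots'.1 hsr).2
  have hsO : s ∈ v.valuationSubring := (Valuation.mem_valuationSubring_iff v _).2 hs1.le
  refine ⟨s + a1, ?_, ?_, ?_⟩
  · rw [← Polynomial.taylor_eval, ← hCB]; exact hs0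
  · exact (Valuation.mem_valuationSubring_iff v _).1 (add_mem hsO a1.2)
  · have h3 : s + (a1 : K) = (((⟨s, hsO⟩ : v.valuationSubring) + a1 : v.valuationSubring) : K) := rfl
    rw [h3, hres, map_add, ha1, (r.ker _).2 hs1, zero_add]

end Claimed.Agent.R280
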