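import Claimed.Agent.R280.Tw.DiscDefs
import Claimed.Agent.R280.Ell.Main
import Claimed.Agent.R280.Tw.D1c
import Claimed.Agent.R280.Gauss.Val
import Claimed.Agent.R280.Tw.Red

/-!
# Row 280, leaf TW-D1d (~1300 lines): torsion points lift (notes C6)
`M = K(x,y)`, Gauss valuation ring (helper66's Gauss package / or only on `K(x)`), residue field `k(x,y)`; `RedPtA.add` gives `n • g ↦ n • gbar`.  `x(n • g) ∈ K(x)` (even function) `= A/B`, coprime, primitive.
`n • P = 0` ⇒ `x(n • gbar)` has a pole at `P` ⇒ `Bbar (x(P)) = 0` ⇒ (`root_lift`) `B(a) = 0`, `abar = x(P)` ⇒ `(a,b)` is `n`-torsion (reduction at the place `(a,b)` of `M/K`), choose `b` reducing to `y(P)`.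
Case `P = 0` trivial.
-/

set_option autoImplicit false

namespace Claimed.Agent.R280

open WithZero WeierstrassCurve Cardinal Polynomial
open scoped Classical

/-! ### multiples of the generic point: specialisation at a rational place -/

theorem RedPtA.nsmul_d1d {K F : Type} [Field K] [Field F] (A : ValuationSubring K) (r : A →+* F)
    {Wt : WeierstrassCurve K} {W0 : WeierstrassCurve F}
    (hr : ∀ a : A, r a = 0 ↔ a ∈ IsLocalRing.maximalIdeal A)
    (hW : RedCurveA A r Wt W0) (hΔ : W0.Δ ≠ 0) {Q : Wt.toAffine.Point} {Qb : W0.toAffine.Point}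
    (h : RedPtA A r Q Qb) (j : ℕ) : RedPtA A r (j • Q) (j • Qb) := by
  induction j with
  | zero =>
    rw [zero_nsmul, zero_nsmul]
    trivial
  | succ j ih =>
    rw [succ_nsmul, succ_nsmul]
    exact RedPtA.add A r hr hW hΔ ih h

section Spec

variable {k M : Type} [Field k] [Field M] [Algebra k M] {W : WeierstrassCurve k} {x y : M}

/-- the multiple `n • g` of the generic point specialises to `n • T` at the place at `T` -/
theorem d1d_spec (h : IsWFF W M x y) (hΔ : W.Δ ≠ 0) (hg : (W.baseChange M).toAffine.Nonsingular x y)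
    {P : Place k M} {T : W.toAffine.Point} (hP : P.IsAtPt x y T) (n : ℕ) :
    (n • (Affine.Point.some x y hg) = 0 → n • T = 0) ∧
    ∀ (X Y : M) (hXY : (W.baseChange M).toAffine.Nonsingular X Y),
      n • (Affine.Point.some x y hg) = Affine.Point.some X Y hXY → P.IsAtPt X Y (n • T) := by
  obtain ⟨r, hr1, hr2⟩ := P.exists_resHom (h.deg_of_atPt hΔ hP)
  have hC : RedCurveA P.O r (W.baseChange M) (W.baseChange k) := redCurveA_const W P r hr1
  have h1 : RedPtA P.O r (Affine.Point.some x y hg) (T : (W.baseChange k).toAffine.Point) :=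
    (redPtA_some_iff (W₀ := W) P r hr1 hr2 hg T).2 hP
  have h2 := RedPtA.nsmul_d1d P.O r hr2 hC (W0 := W.baseChange k) hΔ h1 n
  refine ⟨fun h0 => ?_, fun X Y hXY hn => ?_⟩
  · rw [h0] at h2
    exact RedPtA.unique h2 (show RedPtA P.O r (0 : (W.baseChange M).toAffine.Point)
      (0 : (W.baseChange k).toAffine.Point) from trivial)
  · rw [hn] at h2
    exact (redPtA_some_iff (W₀ := W) P r hr1 hr2 hXY _).1 h2

/-- a Weierstrass curve with `2 = 0`, `a₁ = a₃ = 0` is singular -/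
theorem d1d_disc_char_two (W : WeierstrassCurve k) (h2 : (2 : k) = 0) (h1 : W.a₁ = 0) (h3 : W.a₃ = 0) :
    W.Δ = 0 := by
  simp only [WeierstrassCurve.Δ, WeierstrassCurve.b₂, WeierstrassCurve.b₄, WeierstrassCurve.b₆,
    WeierstrassCurve.b₈, h1, h3]
  linear_combination (-8 * W.a₂ ^ 2 * (4 * W.a₂ * W.a₆ - W.a₄ ^ 2) - 32 * W.a₄ ^ 3 - 216 * W.a₆ ^ 2 +
    144 * W.a₂ * W.a₄ * W.a₆) * h2

theorem IsWFF.aeval_ne_zero_d1d (h : IsWFF W M x y) {q : k[X]} (hq : q ≠ 0) : aeval x q ≠ 0 :=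
  fun h0 => h.transc ⟨q, hq, h0⟩

/-- the `x`-coordinate of a multiple of the generic point is an even function -/
theorem d1d_even (h : IsWFF W M x y) (hΔ : W.Δ ≠ 0) (hg : (W.baseChange M).toAffine.Nonsingular x y)
    (n : ℕ) {X Y : M} (hXY : (W.baseChange M).toAffine.Nonsingular X Y)
    (hn : n • (Affine.Point.some x y hg) = Affine.Point.some X Y hXY) :
    ∃ A C : k[X], C ≠ 0 ∧ X * aeval x C = aeval x A := by
  have heq : (W.map (algebraMap k M)).toAffine.Equation x ((W.baseChange M).toAffine.negY x y) :=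
    (Affine.equation_neg x y).2 h.equation
  have htr : ∀ q : k[X], q ≠ 0 → (q.map (algebraMap k M)).eval x ≠ 0 := by
    intro q hq h0
    exact h.aeval_ne_zero_d1d hq (by rwa [aeval_def, eval₂_eq_eval_map])
  obtain ⟨ι, ⟨hι1, hι2, hι3⟩, -⟩ := h.lift (algebraMap k M) x _ heq htr
  have hcomp : ι.comp (algebraMap k M) = algebraMap k M := RingHom.ext hι1
  have hWι : W.baseChange M = (W.baseChange M).map ι := by
    rw [WeierstrassCurve.baseChange, WeierstrassCurve.map_map, hcomp]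
  have h1 : PtMap ι (Affine.Point.some x y hg) (-(Affine.Point.some x y hg)) := by
    rw [Affine.Point.neg_some]
    exact ⟨hι2, hι3⟩
  have h2 := PtMap.nsmul' ι hWι h1 n
  rw [smul_neg, hn, Affine.Point.neg_some] at h2
  have hιX : ι X = X := h2.1
  obtain ⟨A, B, C, hC, hrep⟩ := h.repr X
  have hιp : ∀ q : k[X], ι (aeval x q) = aeval x q := by
    intro q
    rw [aeval_def, Polynomial.hom_eval₂, hcomp, hι2]
  have h3 : X * aeval x C = aeval x A + aeval x B * ((W.baseChange M).toAffine.negY x y) := by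
    have := congrArg ι hrep
    rwa [map_mul, map_add, map_mul, hιX, hιp, hιp, hιp, hι3] at this
  have h4 : aeval x (B * wLin W) + aeval x (Polynomial.C 2 * B) * y = 0 := by
    have e1 : (W.baseChange M).toAffine.negY x y =
        -y - algebraMap k M W.a₁ * x - algebraMap k M W.a₃ := rfl
    rw [e1] at h3
    unfold wLin
    simp only [map_mul, map_add, aeval_C, aeval_X, map_ofNat]
    linear_combination h3 - hrep
  obtain ⟨h5, h6⟩ := h.repr_unique h4
  have hB : B = 0 := by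
    by_contra hB
    have h2' : (2 : k) = 0 := by
      rcases mul_eq_zero.1 h6 with h7 | h7
      · exact Polynomial.C_eq_zero.1 h7
      · exact absurd h7 hB
    have hlin : wLin W = 0 := (mul_eq_zero.1 h5).resolve_left hB
    have ha1 : W.a₁ = 0 := by
      have := congrArg (fun q => Polynomial.coeff q 1) hlin
      simpa [wLin] using this
    have ha3 : W.a₃ = 0 := by
      have := congrArg (fun q => Polynomial.coeff q 0) hlin
      simpa [wLin] using this
    exact hΔ (d1d_disc_char_two W h2' ha1 ha3)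
  exact ⟨A, C, hC, by rw [hrep, hB, map_zero, zero_mul, add_zero]⟩

end Spec

/-! ### the valued side -/

section Valued

variable {K k : Type} [Field K] [Field k] {v : Valuation K ℚᵐ⁰} {r : ResMap v k}

theorem d1d_disc_ne_zero {Wt : WeierstrassCurve K} {W0 : WeierstrassCurve k}
    (h : RedCurve v r Wt W0) (hΔ : W0.Δ ≠ 0) : Wt.Δ ≠ 0 := by
  obtain ⟨⟨h1, e1⟩, ⟨h2, e2⟩, ⟨h3, e3⟩, ⟨h4, e4⟩, ⟨h6, e6⟩⟩ := h
  have hm : ∀ {a : K}, v a ≤ 1 → a ∈ v.valuationSubring :=
    fun {a} ha => (Valuation.mem_valuationSubring_iff v a).2 ha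
  let W' : WeierstrassCurve v.valuationSubring :=
    ⟨⟨Wt.a₁, hm h1⟩, ⟨Wt.a₂, hm h2⟩, ⟨Wt.a₃, hm h3⟩, ⟨Wt.a₄, hm h4⟩, ⟨Wt.a₆, hm h6⟩⟩
  have hA : Wt = W'.map v.valuationSubring.subtype := by ext <;> rfl
  have hres : ∀ {a : K} (ha : v a ≤ 1), r.toHom ⟨a, hm ha⟩ = r.res a := by
    intro a ha
    rw [ResMap.res, dif_pos ha]
  have hB : W0 = W'.map r.toHom := by
    ext
    · exact e1.symm.trans (hres h1).symm
    · exact e2.symm.trans (hres h2).symm
    · exact e3.symm.trans (hres h3).symm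
    · exact e4.symm.trans (hres h4).symm
    · exact e6.symm.trans (hres h6).symm
  intro h0
  rw [hA, WeierstrassCurve.map_Δ] at h0
  have h0' : W'.Δ = 0 := Subtype.ext h0
  rw [hB, WeierstrassCurve.map_Δ, h0', map_zero] at hΔ
  exact hΔ rfl

variable {M M0 : Type} [Field M] [Field M0] [Algebra K M] [Algebra k M0] {x y : M} {x0 y0 : M0}

theorem GaussVal.redCurve_d1d (G : GaussVal v r M M0 x y x0 y0) {Wt : WeierstrassCurve K}
    {W0 : WeierstrassCurve k} (hW : RedCurve v r Wt W0) :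
    RedCurve G.v1 G.r1 (Wt.baseChange M) (W0.baseChange M0) := by
  have key : ∀ (a : K) (a0 : k), (v a ≤ 1 ∧ r.res a = a0) →
      (G.v1 (algebraMap K M a) ≤ 1 ∧ G.r1.res (algebraMap K M a) = algebraMap k M0 a0) := by
    rintro a a0 ⟨h1, rfl⟩
    exact ⟨by rw [G.ext a]; exact h1, G.rext a h1⟩
  obtain ⟨h1, h2, h3, h4, h6⟩ := hW
  exact ⟨key _ _ h1, key _ _ h2, key _ _ h3, key _ _ h4, key _ _ h6⟩

theorem GaussVal.v_aeval_d1d (G : GaussVal v r M M0 x y x0 y0) (A : K[X]) :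
    G.v1 (aeval x A) = gNorm v A := by
  have := G.v_poly A 0
  rwa [map_zero, zero_mul, add_zero, (gNorm_eq_zero_iff (v := v) 0).2 rfl, max_eq_left zero_le] at this

theorem redPoly_zero_d1d : redPoly r (0 : K[X]) = 0 := by
  simp [redPoly]

theorem GaussVal.res_aeval_d1d (G : GaussVal v r M M0 x y x0 y0) {A : K[X]} (hA : gNorm v A ≤ 1) :
    G.r1.res (aeval x A) = aeval x0 (redPoly r A) := by
  have := G.res_poly A 0 hA (by rw [(gNorm_eq_zero_iff (v := v) 0).2 rfl]; exact zero_le)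
  rwa [map_zero, zero_mul, add_zero, redPoly_zero_d1d, map_zero, zero_mul, add_zero] at this

/-- reduce a fraction to lowest terms with primitive denominator -/
theorem d1d_normalise (v : Valuation K ℚᵐ⁰) (A C : K[X]) (hC : C ≠ 0) :
    ∃ A' C' : K[X], IsCoprime A' C' ∧ gNorm v C' = 1 ∧ A * C' = A' * C := by
  set g := EuclideanDomain.gcd A C with hg
  obtain ⟨A1, hA1⟩ := EuclideanDomain.gcd_dvd_left A C
  obtain ⟨C1, hC1⟩ := EuclideanDomain.gcd_dvd_right A C
  rw [← hg] at hA1 hC1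
  have hg0 : g ≠ 0 := by
    intro h0
    rw [h0, zero_mul] at hC1
    exact hC hC1
  have hC10 : C1 ≠ 0 := by
    intro h0
    rw [h0, mul_zero] at hC1
    exact hC hC1
  have hcop : IsCoprime A1 C1 := by
    refine ⟨EuclideanDomain.gcdA A C, EuclideanDomain.gcdB A C, ?_⟩
    have hb := EuclideanDomain.gcd_eq_gcd_ab A C
    rw [← hg] at hb
    apply mul_left_cancel₀ hg0
    calc g * (EuclideanDomain.gcdA A C * A1 + EuclideanDomain.gcdB A C * C1)
        = (g * A1) * EuclideanDomain.gcdA A C + (g * C1) * EuclideanDomain.gcdB A C := by ring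
      _ = A * EuclideanDomain.gcdA A C + C * EuclideanDomain.gcdB A C := by rw [← hA1, ← hC1]
      _ = g * 1 := by rw [← hb, mul_one]
  obtain ⟨j, hj, hj0⟩ := exists_coeff_eq_gNorm (v := v) hC10
  set c := C1.coeff j with hc
  have hu : IsUnit (Polynomial.C c⁻¹) := Polynomial.isUnit_C.2 (isUnit_iff_ne_zero.2 (inv_ne_zero hj0))
  refine ⟨Polynomial.C c⁻¹ * A1, Polynomial.C c⁻¹ * C1, ?_, ?_, ?_⟩
  · exact (isCoprime_mul_unit_left_left hu _ _).2 ((isCoprime_mul_unit_left_right hu _ _).2 hcop)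
  · rw [gNorm_C_mul, ← hj, map_inv₀, inv_mul_cancel₀]
    exact (Valuation.ne_zero_iff v).2 hj0
  · rw [hA1, hC1]
    ring

end Valued

/-- the core: an affine torsion point lifts up to sign -/
theorem d1d_core {K k : Type} [Field K] [IsAlgClosed K] [Field k] [IsAlgClosed k]
    (v : Valuation K ℚᵐ⁰) (r : ResMap v k) {Wt : WeierstrassCurve K} {W0 : WeierstrassCurve k}
    (hW : RedCurve v r Wt W0) (hΔ : W0.Δ ≠ 0) (n : ℕ) (hn : ∃ R : W0.toAffine.Point, n • R ≠ 0)
    (a0 b0 : k) (h0 : W0.toAffine.Nonsingular a0 b0) (hP : n • (Affine.Point.some a0 b0 h0) = 0) :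
    ∃ (a b : K) (hab : Wt.toAffine.Nonsingular a b), n • (Affine.Point.some a b hab) = 0 ∧
      v a ≤ 1 ∧ r.res a = a0 := by
  have hΔt : Wt.Δ ≠ 0 := d1d_disc_ne_zero hW hΔ
  obtain ⟨M, _, _, x, y, h⟩ := exists_isWFF Wt
  obtain ⟨M0, _, _, x0, y0, h'⟩ := exists_isWFF W0
  obtain ⟨G⟩ := exists_gaussVal hW h h'
  have hWG := G.redCurve_d1d hW
  have hΔM : (Wt.baseChange M).Δ ≠ 0 := by
    rw [WeierstrassCurve.baseChange, WeierstrassCurve.map_Δ]
    exact (_root_.map_ne_zero _).mpr hΔt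
  have hΔM0 : (W0.baseChange M0).Δ ≠ 0 := by
    rw [WeierstrassCurve.baseChange, WeierstrassCurve.map_Δ]
    exact (_root_.map_ne_zero _).mpr hΔ
  have hg : (Wt.baseChange M).toAffine.Nonsingular x y :=
    (Affine.equation_iff_nonsingular_of_Δ_ne_zero hΔM).mp h.equation
  have hg0 : (W0.baseChange M0).toAffine.Nonsingular x0 y0 :=
    (Affine.equation_iff_nonsingular_of_Δ_ne_zero hΔM0).mp h'.equation
  have hred : RedPt G.v1 G.r1 (Affine.Point.some x y hg) (Affine.Point.some x0 y0 hg0) :=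
    ⟨G.res_x.1.le, G.res_y.1.le, G.res_x.2, G.res_y.2⟩
  have hredn := RedPt.nsmul hWG hΔM0 hred n
  -- `n • ḡ ≠ 0`
  obtain ⟨R, hR⟩ := hn
  obtain ⟨PR, hPR, -⟩ := h'.existsUnique_atPt hΔ R
  have hne : n • (Affine.Point.some x0 y0 hg0) ≠ 0 := fun h0 => hR ((d1d_spec h' hΔ hg0 hPR n).1 h0)
  obtain ⟨Xb, Yb, hXYb, heb⟩ : ∃ (Xb Yb : M0) (hh : (W0.baseChange M0).toAffine.Nonsingular Xb Yb),
      n • (Affine.Point.some x0 y0 hg0) = Affine.Point.some Xb Yb hh := by
    rcases hq : n • (Affine.Point.some x0 y0 hg0) with _ | ⟨Xb, Yb, hh⟩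
    · exact absurd hq hne
    · exact ⟨Xb, Yb, hh, rfl⟩
  -- pole at `P`
  obtain ⟨𝔭, h𝔭, -⟩ := h'.existsUnique_atPt hΔ (Affine.Point.some a0 b0 h0)
  have hpole : 1 < 𝔭.v Xb := by
    have := (d1d_spec h' hΔ hg0 h𝔭 n).2 Xb Yb hXYb heb
    rw [hP] at this
    exact this
  rw [heb] at hredn
  obtain ⟨X, Y, hXY, he⟩ : ∃ (X Y : M) (hh : (Wt.baseChange M).toAffine.Nonsingular X Y),
      n • (Affine.Point.some x y hg) = Affine.Point.some X Y hh := by
    rcases hq : n • (Affine.Point.some x y hg) with _ | ⟨X, Y, hh⟩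
    · rw [hq] at hredn
      exact hredn.elim
    · exact ⟨X, Y, hh, rfl⟩
  rw [he] at hredn
  obtain ⟨hvX, -, hrX, -⟩ := hredn
  obtain ⟨A₁, C₁, hC₁, hrep₁⟩ := d1d_even h hΔt hg n hXY he
  obtain ⟨A, C, hcop, hCn, hAC⟩ := d1d_normalise v A₁ C₁ hC₁
  have hrep : X * aeval x C = aeval x A := by
    apply mul_right_cancel₀ (h.aeval_ne_zero_d1d hC₁)
    rw [← map_mul, ← hAC, map_mul, ← hrep₁]
    ring
  have hAn : gNorm v A ≤ 1 := by
    rw [← G.v_aeval_d1d A, ← hrep, map_mul, G.v_aeval_d1d C, hCn, mul_one]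
    exact hvX
  have hrepb : Xb * aeval x0 (redPoly r C) = aeval x0 (redPoly r A) := by
    rw [← G.res_aeval_d1d hAn, ← hrep, G.r1.res_mul hvX (by rw [G.v_aeval_d1d C, hCn]), hrX,
      G.res_aeval_d1d hCn.le]
  have hx0 : 𝔭.v x0 ≤ 1 := ell2a_le_one_of_sub h𝔭.1
  have hCb : 𝔭.v (aeval x0 (redPoly r C)) < 1 := by
    by_contra hcon
    rw [not_lt] at hcon
    have h1 : 𝔭.v (aeval x0 (redPoly r A)) ≤ 1 := 𝔭.v_aeval_le_one hx0 _
    rw [← hrepb, map_mul] at h1
    exact absurd h1 (not_le.2 (one_lt_mul_of_lt_of_le' hpole hcon))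
  have hroot : (redPoly r C).eval a0 = 0 := by
    have := (h'.v_lt_one_iff_eval h𝔭 (redPoly r C) 0).1 (by simpa using hCb)
    simpa using this
  obtain ⟨a, ha0, hva, hra⟩ := root_lift v r C
    (fun j => hCn ▸ coeff_le_gNorm v C j)
    a0 (by
      obtain ⟨j, hj, -⟩ := exists_coeff_eq_gNorm (v := v) (A := C) (by
        intro h0
        rw [h0, (gNorm_eq_zero_iff (v := v) 0).2 rfl] at hCn
        exact zero_ne_one hCn)
      exact ⟨j, hj.trans hCn⟩)
    (by
      rw [redPoly, eval_finsetSum] at hroot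
      simpa [eval_monomial] using hroot)
  have hAa : A.eval a ≠ 0 := by
    obtain ⟨u, w, huw⟩ := hcop
    intro hA0
    have := congrArg (Polynomial.eval a) huw
    rw [eval_add, eval_mul, eval_mul, hA0, ha0, mul_zero, mul_zero, add_zero, eval_one] at this
    exact zero_ne_one this
  obtain ⟨b, hab⟩ := exists_y_of_isAlgClosed Wt a
  have hns : Wt.toAffine.Nonsingular a b := (Affine.equation_iff_nonsingular_of_Δ_ne_zero hΔt).mp hab
  obtain ⟨𝔓, h𝔓⟩ := h.exists_at hab
  have hC𝔓 : 𝔓.v (aeval x C) < 1 := by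
    have := (h.v_lt_one_iff_eval h𝔓 C 0).2 (by simpa using ha0)
    simpa using this
  have hA𝔓 : ¬ 𝔓.v (aeval x A) < 1 := by
    intro hlt
    have := (h.v_lt_one_iff_eval h𝔓 A 0).1 (by simpa using hlt)
    exact hAa (by simpa using this)
  have hX𝔓 : 1 < 𝔓.v X := by
    by_contra hcon
    rw [not_lt] at hcon
    apply hA𝔓
    rw [← hrep, map_mul]
    rw [mul_comm]
    exact mul_lt_one_of_lt_of_le hC𝔓 hcon
  refine ⟨a, b, hns, ?_, hva, hra⟩
  have hsp := (d1d_spec h hΔt hg (T := Affine.Point.some a b hns) h𝔓 n).2 X Y hXY he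
  rcases hq : n • (Affine.Point.some a b hns) with _ | ⟨a', b', hh⟩
  · rfl
  · rw [hq] at hsp
    exact absurd (ell2a_le_one_of_sub hsp.1) (not_le.2 hX𝔓)

/-- D1d: torsion points lift (over an algebraically closed valued field) -/
theorem tors_lift_point {K k : Type} [Field K] [IsAlgClosed K] [Field k] [IsAlgClosed k]
    (v : Valuation K ℚᵐ⁰) (r : ResMap v k) {Wt : WeierstrassCurve K} {W0 : WeierstrassCurve k}
    (hW : RedCurve v r Wt W0) (hΔ : W0.Δ ≠ 0) (n : ℕ) (hn : ∃ R : W0.toAffine.Point, n • R ≠ 0)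
    (P : W0.toAffine.Point) (hP : n • P = 0) :
    ∃ Pt : Wt.toAffine.Point, n • Pt = 0 ∧ RedPt v r Pt P := by
  rcases P with _ | ⟨a0, b0, h0⟩
  · exact ⟨0, smul_zero n, trivial⟩
  obtain ⟨a, b, hab, hT, hva, hra⟩ := d1d_core v r hW hΔ n hn a0 b0 h0 hP
  have hWA := redCurve_iff.1 hW
  have hma : a ∈ v.valuationSubring := (Valuation.mem_valuationSubring_iff v a).2 hva
  have hmb : b ∈ v.valuationSubring := hWA.mem_of_equation hab.left hma
  have hvb : v b ≤ 1 := (Valuation.mem_valuationSubring_iff v b).1 hmb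
  have heq := hWA.equation hab.left hma hmb
  rw [resA_eq_res, resA_eq_res, hra] at heq
  rcases Affine.Y_eq_of_X_eq heq h0.left rfl with hb | hb
  · exact ⟨Affine.Point.some a b hab, hT, hva, hvb, hra, hb⟩
  · refine ⟨-(Affine.Point.some a b hab), by rw [smul_neg, hT, neg_zero], ?_⟩
    have h1 : RedPt v r (Affine.Point.some a b hab) (-(Affine.Point.some a0 b0 h0)) := by
      rw [Affine.Point.neg_some]
      exact ⟨hva, hvb, hra, hb⟩
    have h2 := h1.neg hW
    rwa [neg_neg] at h2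

end Claimed.Agent.R280
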