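import Claimed.Agent.R280.Tw.D1a
import Claimed.Agent.R280.Tw.D1b
import Claimed.Agent.R280.Tw.D1d
import Claimed.Agent.R280.Tw.Red
import Claimed.Agent.R280.Val.Main

/-!
# Row 280, glue TW-D1 (~500 lines): the field of constants `Kc`
`K0 = Frac W(κ)`; `Kbar` algebraic closure with a prolongation (`exists_valExt`), residue field algebraic over `κ`, hence `= κ`; lift the coefficients of `W0`; `tors_lift_point`;
`Kc = K0(ζ, coordinates of Pt)` with the restricted valuation (discrete by `disc_finite_ext`), exact order because the reduction has exact order.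
-/

set_option autoImplicit false

namespace Claimed.Agent.R280

open WithZero WeierstrassCurve Cardinal
open scoped Classical

/-- transport of a residue map along an isomorphism of the residue fields -/
noncomputable def d1_resCongr {K : Type} [Field K] {v : Valuation K ℚᵐ⁰} {k k' : Type} [Field k] [Field k']
    (r : ResMap v k') (e : k' ≃+* k) : ResMap v k where
  toHom := (e : k' →+* k).comp r.toHom
  surj := e.surjective.comp r.surj
  ker := fun x => by
    rw [RingHom.comp_apply, RingHom.coe_coe, EmbeddingLike.map_eq_zero_iff]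
    exact r.ker x

section Restrict

variable {Kc Kb k : Type} [Field Kc] [Field Kb] [Field k] [Algebra Kc Kb]

/-- the restricted valuation -/
noncomputable def d1_vc (vb : Valuation Kb ℚᵐ⁰) : Valuation Kc ℚᵐ⁰ := vb.comap (algebraMap Kc Kb)

theorem d1_vc_ext (vb : Valuation Kb ℚᵐ⁰) : ValExt vb (d1_vc (Kc := Kc) vb) := fun _ => rfl

/-- the restricted residue map (if it is still onto) -/
noncomputable def d1_rc (vb : Valuation Kb ℚᵐ⁰) (rb : ResMap vb k)
    (hs : Function.Surjective (rb.toHom.comp (val0c_mapO (d1_vc_ext (Kc := Kc) vb)))) :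
    ResMap (d1_vc (Kc := Kc) vb) k where
  toHom := rb.toHom.comp (val0c_mapO (d1_vc_ext vb))
  surj := hs
  ker := fun x => by
    rw [RingHom.comp_apply, rb.ker, val0c_coe_mapO]
    rfl

theorem d1_rc_res (vb : Valuation Kb ℚᵐ⁰) (rb : ResMap vb k)
    (hs : Function.Surjective (rb.toHom.comp (val0c_mapO (d1_vc_ext (Kc := Kc) vb)))) (a : Kc) :
    (d1_rc vb rb hs).res a = rb.res (algebraMap Kc Kb a) := by
  unfold ResMap.res
  by_cases h : vb (algebraMap Kc Kb a) ≤ 1
  · rw [dif_pos h, dif_pos (show d1_vc vb a ≤ 1 from h)]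
    rfl
  · rw [dif_neg h, dif_neg (show ¬ d1_vc vb a ≤ 1 from h)]

theorem d1_redPt_descend (vb : Valuation Kb ℚᵐ⁰) (rb : ResMap vb k)
    (hs : Function.Surjective (rb.toHom.comp (val0c_mapO (d1_vc_ext (Kc := Kc) vb))))
    {Wc : WeierstrassCurve Kc} {Wb : WeierstrassCurve Kb} {W0 : WeierstrassCurve k}
    {Pt : Wc.toAffine.Point} {Pt' : Wb.toAffine.Point} {P : W0.toAffine.Point}
    (hmap : PtMap (algebraMap Kc Kb) Pt Pt') (hred : RedPt vb rb Pt' P) :
    RedPt (d1_vc vb) (d1_rc vb rb hs) Pt P := by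
  rcases Pt with _ | ⟨a, b, hab⟩ <;> rcases Pt' with _ | ⟨a', b', hab'⟩ <;>
    rcases P with _ | ⟨a0, b0, h0⟩
  · trivial
  · exact hred.elim
  · exact hmap.elim
  · exact hmap.elim
  · exact hmap.elim
  · exact hmap.elim
  · obtain ⟨rfl, rfl⟩ := hmap
    exact hred
  · obtain ⟨rfl, rfl⟩ := hmap
    obtain ⟨h1, h2, h3, h4⟩ := hred
    exact ⟨h1, h2, by rw [d1_rc_res]; exact h3, by rw [d1_rc_res]; exact h4⟩

end Restrict

/-- a point with coordinates in the image of `f` comes from a point -/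
theorem d1_descend_pt {k k' : Type} [Field k] [Field k'] (f : k →+* k') {W : WeierstrassCurve k}
    {W' : WeierstrassCurve k'} (hW : W' = W.map f) (P' : W'.toAffine.Point) (a b : k)
    (h : ∀ a' b' hab, P' = .some a' b' hab → a' = f a ∧ b' = f b) :
    ∃ P : W.toAffine.Point, PtMap f P P' := by
  subst hW
  rcases P' with _ | ⟨a', b', hab⟩
  · exact ⟨.zero, trivial⟩
  · obtain ⟨rfl, rfl⟩ := h a' b' hab rfl
    exact ⟨.some a b ((W.toAffine.map_nonsingular f.injective a b).mp hab), rfl, rfl⟩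

/-- the order of a torsion lift -/
theorem d1_addOrderOf_eq {L F : Type} [Field L] [Field F] {v : Valuation L ℚᵐ⁰} {r : ResMap v F}
    {Wt : WeierstrassCurve L} {W0 : WeierstrassCurve F} (hW : RedCurve v r Wt W0) (hΔ : W0.Δ ≠ 0)
    {Q : Wt.toAffine.Point} {Qb : W0.toAffine.Point} (h : RedPt v r Q Qb) (n : ℕ) (hn : n • Q = 0)
    (hQb : addOrderOf Qb = n) : addOrderOf Q = n := by
  apply Nat.dvd_antisymm (addOrderOf_dvd_of_nsmul_eq_zero hn)
  rw [← hQb]
  apply addOrderOf_dvd_of_nsmul_eq_zero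
  have h1 := h.nsmul hW hΔ (addOrderOf Q)
  rw [addOrderOf_nsmul_eq_zero] at h1
  exact RedPt.unique h1 RedPt.zero

section Assemble

variable {K0 Kb k : Type} [Field K0] [Field Kb] [Field k] [Algebra K0 Kb]

theorem d1_redCurve (v0 : Valuation K0 ℚᵐ⁰) (r0 : ResMap v0 k) (vb : Valuation Kb ℚᵐ⁰) (rb : ResMap vb k)
    (hext : ValExt vb v0) (hres : ∀ a : v0.valuationSubring, rb.toHom (val0c_mapO hext a) = r0.toHom a)
    (WO0 : WeierstrassCurve v0.valuationSubring) (W0 : WeierstrassCurve k) (hW0 : WO0.map r0.toHom = W0) :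
    RedCurve vb rb (WO0.map ((algebraMap K0 Kb).comp v0.valuationSubring.subtype)) W0 := by
  have hcoef : ∀ c : v0.valuationSubring, vb (algebraMap K0 Kb (c : K0)) ≤ 1 ∧
      rb.res (algebraMap K0 Kb (c : K0)) = r0.toHom c := fun c => by
    have h1 : vb (algebraMap K0 Kb (c : K0)) ≤ 1 := by
      rw [hext]; exact (Valuation.mem_valuationSubring_iff v0 _).1 c.2
    refine ⟨h1, ?_⟩
    rw [val0c_res_eq rb h1, ← hres c]
    rfl
  subst hW0
  exact ⟨hcoef _, hcoef _, hcoef _, hcoef _, hcoef _⟩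

theorem d1_assemble {Kc : Type} [Field Kc] [Algebra K0 Kc] [Algebra Kc Kb] [IsScalarTower K0 Kc Kb]
    [FiniteDimensional K0 Kc] (v0 : Valuation K0 ℚᵐ⁰) (r0 : ResMap v0 k) (hdisc : IsDiscVal v0)
    (vb : Valuation Kb ℚᵐ⁰) (rb : ResMap vb k) (hext : ValExt vb v0)
    (hres : ∀ a : v0.valuationSubring, rb.toHom (val0c_mapO hext a) = r0.toHom a)
    (WO0 : WeierstrassCurve v0.valuationSubring) (W0 : WeierstrassCurve k) (hW0 : WO0.map r0.toHom = W0)
    (hΔ : W0.Δ ≠ 0)
    (Pt' : (WO0.map ((algebraMap K0 Kb).comp v0.valuationSubring.subtype)).toAffine.Point)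
    (P : W0.toAffine.Point) (hred : RedPt vb rb Pt' P) (n : ℕ) (hn : n • Pt' = 0) (hP : addOrderOf P = n)
    (a b : Kc)
    (hab : ∀ a' b' h, Pt' = .some a' b' h → a' = algebraMap Kc Kb a ∧ b' = algebraMap Kc Kb b) :
    ∃ (vc : Valuation Kc ℚᵐ⁰) (rc : ResMap vc k) (WO : WeierstrassCurve vc.valuationSubring)
      (Pt : (WO.map (algebraMap vc.valuationSubring Kc)).toAffine.Point),
      IsDiscVal vc ∧ WO.map rc.toHom = W0 ∧ RedPt vc rc Pt P ∧ addOrderOf Pt = n := by
  have hc0 : ValExt (d1_vc (Kc := Kc) vb) v0 := fun x => by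
    show vb (algebraMap Kc Kb (algebraMap K0 Kc x)) = v0 x
    rw [← IsScalarTower.algebraMap_apply, hext]
  have hcomp : ∀ x : v0.valuationSubring,
      val0c_mapO (d1_vc_ext (Kc := Kc) vb) (val0c_mapO hc0 x) = val0c_mapO hext x := fun x =>
    Subtype.ext (by
      rw [val0c_coe_mapO, val0c_coe_mapO, val0c_coe_mapO, ← IsScalarTower.algebraMap_apply])
  have hs : Function.Surjective (rb.toHom.comp (val0c_mapO (d1_vc_ext (Kc := Kc) vb))) := fun y => by
    obtain ⟨x, rfl⟩ := r0.surj y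
    exact ⟨val0c_mapO hc0 x, by rw [RingHom.comp_apply, hcomp, hres]⟩
  have hWb : WO0.map ((algebraMap K0 Kb).comp v0.valuationSubring.subtype) =
      ((WO0.map (val0c_mapO hc0)).map (algebraMap (d1_vc (Kc := Kc) vb).valuationSubring Kc)).map
        (algebraMap Kc Kb) := by
    rw [map_map, map_map]
    congr 1
    ext x
    exact IsScalarTower.algebraMap_apply K0 Kc Kb (x : K0)
  obtain ⟨Pt, hPt⟩ := d1_descend_pt (algebraMap Kc Kb) hWb Pt' a b hab
  refine ⟨d1_vc vb, d1_rc vb rb hs, WO0.map (val0c_mapO hc0), Pt, disc_finite_ext v0 hdisc _ hc0, ?_,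
    d1_redPt_descend vb rb hs hPt hred, ?_⟩
  · rw [← hW0, map_map]
    congr 1
    ext x
    show rb.toHom (val0c_mapO (d1_vc_ext (Kc := Kc) vb) (val0c_mapO hc0 x)) = r0.toHom x
    rw [hcomp, hres]
  · have h1 : addOrderOf Pt' = n :=
      d1_addOrderOf_eq (d1_redCurve v0 r0 vb rb hext hres WO0 W0 hW0) hΔ hred n hn hP
    have h2 : ptHom' (algebraMap Kc Kb) hWb Pt = Pt' := PtMap.unique _ (ptHom'_spec _ hWb Pt) hPt
    rw [← h1, ← h2]
    exact (addOrderOf_injective (ptHom' _ hWb) (ptHom'_injective _ hWb) Pt).symm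

end Assemble

/-- `WO` = integral model over `O_c` of the lifted curve; `Pt` = lift of the torsion point `P`, over `K_c` -/
theorem exists_torsLift (p : ℕ) [Fact p.Prime] (W0 : WeierstrassCurve (Kap p)) (hΔ : W0.Δ ≠ 0)
    (hord : ∀ s : ℕ, ∃ P : W0.toAffine.Point, addOrderOf P = p ^ s)
    (P : W0.toAffine.Point) (s : ℕ) (hP : addOrderOf P = p ^ s) (m : ℕ) (hm : 0 < m) :
    ∃ (Kc : Type) (_ : Field Kc) (_ : CharZero Kc) (vc : Valuation Kc ℚᵐ⁰) (rc : ResMap vc (Kap p))
      (WO : WeierstrassCurve vc.valuationSubring)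
      (Pt : (WO.map (algebraMap vc.valuationSubring Kc)).toAffine.Point) (ζ : Kc),
      IsDiscVal vc ∧ WO.map rc.toHom = W0 ∧ RedPt vc rc Pt P ∧ addOrderOf Pt = p ^ s ∧
      IsPrimitiveRoot ζ m := by
  obtain ⟨K0, fK0, cz0, v0, r0, hdisc⟩ := witt_resMap p
  obtain ⟨vb, F', fF', aF', r', hext, hrext⟩ := exists_valExt v0 r0 (AlgebraicClosure K0)
  have halg : Algebra.IsAlgebraic (Kap p) F' := ResExt.isAlgebraic hext hrext
  have hbij : Function.Bijective (algebraMap (Kap p) F') :=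
    IsAlgClosed.algebraMap_bijective_of_isIntegral
  let e : F' ≃+* Kap p := (RingEquiv.ofBijective (algebraMap (Kap p) F') hbij).symm
  let rb : ResMap vb (Kap p) := d1_resCongr r' e
  have hres : ∀ a : v0.valuationSubring, rb.toHom (val0c_mapO hext a) = r0.toHom a := by
    intro a
    have ha : v0 (a : K0) ≤ 1 := (Valuation.mem_valuationSubring_iff v0 _).1 a.2
    have ha' : vb (algebraMap K0 (AlgebraicClosure K0) (a : K0)) ≤ 1 := by rw [hext]; exact ha
    have h1 := hrext (a : K0) ha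
    rw [val0c_res_eq r0 ha, val0c_res_eq r' ha'] at h1
    show e (r'.toHom (val0c_mapO hext a)) = r0.toHom a
    rw [RingEquiv.symm_apply_eq]
    exact h1
  obtain ⟨c1, h1⟩ := r0.surj W0.a₁
  obtain ⟨c2, h2⟩ := r0.surj W0.a₂
  obtain ⟨c3, h3⟩ := r0.surj W0.a₃
  obtain ⟨c4, h4⟩ := r0.surj W0.a₄
  obtain ⟨c6, h6⟩ := r0.surj W0.a₆
  let WO0 : WeierstrassCurve v0.valuationSubring := ⟨c1, c2, c3, c4, c6⟩
  have hW0 : WO0.map r0.toHom = W0 := by
    ext
    · exact h1
    · exact h2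
    · exact h3
    · exact h4
    · exact h6
  have hRC := d1_redCurve v0 r0 vb rb hext hres WO0 W0 hW0
  obtain ⟨R, hR⟩ := hord (s + 1)
  have hp : p.Prime := Fact.out
  have hn : ∃ R : W0.toAffine.Point, p ^ s • R ≠ 0 := ⟨R, fun h0 => by
    have h5 := addOrderOf_dvd_of_nsmul_eq_zero h0
    rw [hR] at h5
    have h7 := (Nat.pow_dvd_pow_iff_le_right hp.one_lt).1 h5
    omega⟩
  obtain ⟨Pt', hPt0, hPtred⟩ := tors_lift_point vb rb hRC hΔ (p ^ s) hn P
    (by rw [← hP]; exact addOrderOf_nsmul_eq_zero P)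
  have : NeZero (m : K0) := ⟨by exact_mod_cast hm.ne'⟩
  obtain ⟨ζb, hζb⟩ := HasEnoughRootsOfUnity.exists_primitiveRoot (AlgebraicClosure K0) m
  obtain ⟨a', b', hab'⟩ : ∃ a' b' : AlgebraicClosure K0, ∀ a b h, Pt' = .some a b h → a = a' ∧ b = b' := by
    rcases Pt' with _ | ⟨a, b, h⟩
    · exact ⟨0, 0, fun _ _ _ h => by cases h⟩
    · exact ⟨a, b, fun a1 b1 h1 he => by cases he; exact ⟨rfl, rfl⟩⟩
  let Kc := IntermediateField.adjoin K0 ({ζb, a', b'} : Set (AlgebraicClosure K0))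
  have : FiniteDimensional K0 Kc :=
    IntermediateField.finiteDimensional_adjoin (fun x _ => Algebra.IsIntegral.isIntegral x)
  have hζm : ζb ∈ Kc := IntermediateField.subset_adjoin _ _ (by simp)
  have ham : a' ∈ Kc := IntermediateField.subset_adjoin _ _ (by simp)
  have hbm : b' ∈ Kc := IntermediateField.subset_adjoin _ _ (by simp)
  obtain ⟨vc, rc, WO, Pt, g1, g2, g3, g4⟩ := d1_assemble (Kc := Kc) v0 r0 hdisc vb rb hext hres WO0 W0 hW0
    hΔ Pt' P hPtred (p ^ s) hPt0 hP ⟨a', ham⟩ ⟨b', hbm⟩ hab'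
  exact ⟨Kc, inferInstance, charZero_of_injective_algebraMap (algebraMap K0 Kc).injective, vc, rc, WO, Pt,
    ⟨ζb, hζm⟩, g1, g2, g3, g4,
    IsPrimitiveRoot.of_map_of_injective (f := algebraMap Kc (AlgebraicClosure K0)) hζb
      (algebraMap Kc (AlgebraicClosure K0)).injective⟩

end Claimed.Agent.R280
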