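import Claimed.Agent.R280.Tw.D5
import Claimed.Agent.R280.Tw.Pt
import Claimed.Agent.R280.Ell.Main

/-!
# Row 280, leaf TW-D6: the cocycle `σ ↦ P` has order `n` in `H^1` (notes C4)   (PROVED, helper188)
`twD6_exists_val`: an injection `m : A0 → B` of a domain into a valuation ring and `ρ : B → F` killing the non-units give a valuation ring `A` of
`Frac A0` with residue map `r : A → F`, described by fractions (`x = a1/a2`, `m a1 = g * m a2` gives `x ∈ A`, `r x = ρ g`).   Used for
`A0 = k[z][[w]]`, `B = k2[[w]]`, `k2 = Frac k[z]`, `ρ` = constant coefficient.   `twD6_core` (generic fields): `RedPtA.add`; `W(k2) = W(k)`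
(`point_mvRatFunc_const`), the shift acts trivially on `W(k)`:  `b • P = 0`.
-/

set_option autoImplicit false

namespace Claimed.Agent.R280

open WithZero WeierstrassCurve Cardinal
open scoped Classical

/-- a valuation ring of `K = Frac A0` from an injection of `A0` into a valuation ring `B` -/
theorem twD6_exists_val {A0 K B F : Type} [CommRing A0] [IsDomain A0] [Field K] [Algebra A0 K]
    [IsFractionRing A0 K] [CommRing B] [IsDomain B] [ValuationRing B] [Field F]
    (m : A0 →+* B) (hm : Function.Injective m) (ρ : B →+* F)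
    (hρ' : ∀ b, ¬ IsUnit b → ρ b = 0) :
    ∃ (A : ValuationSubring K) (r : A →+* F),
      (∀ a : A, r a = 0 ↔ a ∈ IsLocalRing.maximalIdeal A) ∧
      (∀ x ∈ A, ∃ (g : B) (a1 a2 : A0), a2 ≠ 0 ∧
        x = algebraMap A0 K a1 / algebraMap A0 K a2 ∧ m a1 = g * m a2) ∧
      (∀ (x : K) (g : B) (a1 a2 : A0), a2 ≠ 0 → x = algebraMap A0 K a1 / algebraMap A0 K a2 →
        m a1 = g * m a2 → ∃ h : x ∈ A, r ⟨x, h⟩ = ρ g) := by
  classical
  let KL := FractionRing B
  let g0 : A0 →+* KL := (algebraMap B KL).comp m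
  have hinj : Function.Injective (algebraMap B KL) := IsFractionRing.injective B KL
  have hg0 : Function.Injective g0 := hinj.comp hm
  let ι : K →+* KL := IsFractionRing.lift hg0
  have hι : ∀ a, ι (algebraMap A0 K a) = algebraMap B KL (m a) :=
    fun a => IsFractionRing.lift_algebraMap hg0 a
  let AL : ValuationSubring KL :=
    { (algebraMap B KL).range with
      mem_or_inv_mem' := fun x => ValuationRing.isInteger_or_isInteger B x }
  let A : ValuationSubring K := AL.comap ι
  have hA : ∀ x, x ∈ A ↔ ∃ g, algebraMap B KL g = ι x := fun x => Iff.rfl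
  let φ0 : A → B := fun x => ((hA x).1 x.2).choose
  have hφ0 : ∀ x : A, algebraMap B KL (φ0 x) = ι x := fun x => ((hA x).1 x.2).choose_spec
  let φ : A →+* B :=
    { toFun := φ0
      map_one' := hinj (by rw [hφ0, map_one]; simp)
      map_mul' := fun x y => hinj (by rw [hφ0, map_mul, hφ0, hφ0]; simp)
      map_zero' := hinj (by rw [hφ0, map_zero]; simp)
      map_add' := fun x y => hinj (by rw [hφ0, map_add, hφ0, hφ0]; simp) }
  have hφ : ∀ x : A, algebraMap B KL (φ x) = ι x := hφ0
  have key : ∀ (x : K) (g : B) (a1 a2 : A0), a2 ≠ 0 →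
      x = algebraMap A0 K a1 / algebraMap A0 K a2 → (m a1 = g * m a2 ↔ algebraMap B KL g = ι x) := by
    intro x g a1 a2 h2 hx
    have h2' : algebraMap B KL (m a2) ≠ 0 := by
      intro h
      apply h2
      apply hg0
      rw [map_zero]
      exact h
    rw [hx, map_div₀, hι, hι, eq_div_iff h2', ← map_mul]
    constructor
    · intro h
      rw [h]
    · intro h
      exact (hinj h).symm
  refine ⟨A, ρ.comp φ, ?_, ?_, ?_⟩
  · intro a
    rw [IsLocalRing.mem_maximalIdeal, mem_nonunits_iff]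
    constructor
    · intro h hu
      have := hu.map (ρ.comp φ)
      rw [h] at this
      exact not_isUnit_zero this
    · intro h
      by_contra h0
      apply h
      have hu : IsUnit (φ a) := by
        by_contra hu
        exact h0 (hρ' _ hu)
      obtain ⟨b, hb⟩ := hu.exists_right_inv
      have ha0 : (a : K) ≠ 0 := by
        intro h'
        have : φ a = 0 := hinj (by rw [hφ, h', map_zero, map_zero])
        rw [this, zero_mul] at hb
        exact zero_ne_one hb
      have hmem : (a : K)⁻¹ ∈ A := by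
        rw [hA]
        refine ⟨b, ?_⟩
        rw [map_inv₀, ← hφ]
        have : algebraMap B KL (φ a) * algebraMap B KL b = 1 := by rw [← map_mul, hb, map_one]
        exact eq_inv_of_mul_eq_one_right this
      refine IsUnit.of_mul_eq_one ⟨(a : K)⁻¹, hmem⟩ ?_
      ext
      simp [ha0]
  · intro x hx
    obtain ⟨g, hg⟩ := (hA x).1 hx
    obtain ⟨a1, a2, h2, e⟩ := IsFractionRing.div_surjective A0 x
    have h2' : a2 ≠ 0 := nonZeroDivisors.ne_zero h2
    exact ⟨g, a1, a2, h2', e.symm, (key x g a1 a2 h2' e.symm).2 hg⟩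
  · intro x g a1 a2 h2 hx hm'
    have h1 := (key x g a1 a2 h2 hx).1 hm'
    have hmem : x ∈ A := (hA x).2 ⟨g, h1⟩
    refine ⟨hmem, ?_⟩
    have : φ ⟨x, hmem⟩ = g := hinj (by rw [hφ, h1])
    rw [RingHom.comp_apply, this]

section core

variable {K F : Type} [Field K] [Field F] (A : ValuationSubring K) (r : A →+* F)
  {Wt : WeierstrassCurve K} {W0 : WeierstrassCurve F}

theorem twD6_red_nsmul (hr : ∀ a : A, r a = 0 ↔ a ∈ IsLocalRing.maximalIdeal A)
    (hW : RedCurveA A r Wt W0) (hΔ : W0.Δ ≠ 0) {Q : Wt.toAffine.Point} {Qb : W0.toAffine.Point}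
    (h : RedPtA A r Q Qb) (j : ℕ) : RedPtA A r (j • Q) (j • Qb) := by
  induction j with
  | zero =>
    rw [zero_nsmul, zero_nsmul]
    trivial
  | succ j ih =>
    rw [succ_nsmul, succ_nsmul]
    exact RedPtA.add A r hr hW hΔ ih h

theorem twD6_red_zsmul (hr : ∀ a : A, r a = 0 ↔ a ∈ IsLocalRing.maximalIdeal A)
    (hW : RedCurveA A r Wt W0) (hΔ : W0.Δ ≠ 0) {Q : Wt.toAffine.Point} {Qb : W0.toAffine.Point}
    (h : RedPtA A r Q Qb) (j : ℤ) : RedPtA A r (j • Q) (j • Qb) := by
  rcases j with j | j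
  · simpa using twD6_red_nsmul A r hr hW hΔ h j
  · simpa [negSucc_zsmul] using RedPtA.neg A r hr hW (twD6_red_nsmul A r hr hW hΔ h (j + 1))

theorem twD6_red_sub (hr : ∀ a : A, r a = 0 ↔ a ∈ IsLocalRing.maximalIdeal A)
    (hW : RedCurveA A r Wt W0) (hΔ : W0.Δ ≠ 0) {Q Q' : Wt.toAffine.Point}
    {Qb Qb' : W0.toAffine.Point} (h : RedPtA A r Q Qb) (h' : RedPtA A r Q' Qb') :
    RedPtA A r (Q - Q') (Qb - Qb') := by
  rw [sub_eq_add_neg, sub_eq_add_neg]
  exact RedPtA.add A r hr hW hΔ h (RedPtA.neg A r hr hW h')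

theorem twD6_resA_of_mem {a : K} (h : a ∈ A) : resA A r a = r ⟨a, h⟩ := by
  unfold resA
  rw [dif_pos h]

end core

theorem twD6_core {k K F : Type} [Field k] [Field K] [Field F] (fK : k →+* K) (fF : k →+* F)
    (W : WeierstrassCurve k) (hΔ : W.Δ ≠ 0) (A : ValuationSubring K) (r : A →+* F)
    (hr : ∀ a : A, r a = 0 ↔ a ∈ IsLocalRing.maximalIdeal A)
    (hc : ∀ c : k, ∃ h : fK c ∈ A, r ⟨fK c, h⟩ = fF c)
    (σ : K →+* K) (τ : F →+* F)
    (hσ : ∀ a : A, ∃ h : σ a ∈ A, r ⟨σ a, h⟩ = τ (r a))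
    (hτ : ∀ c : k, τ (fF c) = fF c)
    (hconst : ∀ a b : F, (W.map fF).toAffine.Equation a b →
      a ∈ Set.range fF ∧ b ∈ Set.range fF)
    (P : W.toAffine.Point) (P' v v' : (W.map fK).toAffine.Point)
    (hP' : PtMap fK P P') (hv : PtMap σ v v') (b : ℤ) (h : v' - b • P' = v) : b • P = 0 := by
  have hc' : ∀ c : k, fK c ∈ A ∧ resA A r (fK c) = fF c := by
    intro c
    obtain ⟨h1, h2⟩ := hc c
    exact ⟨h1, by rw [twD6_resA_of_mem A r h1, h2]⟩
  have hW : RedCurveA A r (W.map fK) (W.map fF) :=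
    ⟨hc' _, hc' _, hc' _, hc' _, hc' _⟩
  have hΔ' : (W.map fF).Δ ≠ 0 := by
    rw [WeierstrassCurve.map_Δ]
    exact (map_ne_zero fF).2 hΔ
  obtain ⟨vb, hvb, -⟩ := RedPtA.existsUnique A r hr hW hΔ' v
  have hv'b : RedPtA A r v' vb := by
    rcases v with _ | ⟨a, b', hab⟩ <;> rcases v' with _ | ⟨a1, b1, hab1⟩
    · exact hvb
    · exact hv.elim
    · exact hv.elim
    · obtain ⟨rfl, rfl⟩ := hv
      rcases vb with _ | ⟨a2, b2, hab2⟩
      · -- `a ∉ A`
        have ha : a ∉ A := hvb
        show σ a ∉ A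
        intro hmem
        have hinv : a⁻¹ ∈ A := (A.mem_or_inv_mem a).resolve_left ha
        have ha0 : a ≠ 0 := by
          rintro rfl
          exact ha A.zero_mem
        have hnu : r ⟨a⁻¹, hinv⟩ = 0 := by
          rw [hr, IsLocalRing.mem_maximalIdeal, mem_nonunits_iff]
          intro hu
          obtain ⟨w, hw⟩ := hu.exists_right_inv
          have hw' : a⁻¹ * (w : K) = 1 := congrArg Subtype.val hw
          have : (w : K) = a := by
            field_simp at hw'
            exact hw'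
          exact ha (this ▸ w.2)
        obtain ⟨h', e⟩ := hσ ⟨a⁻¹, hinv⟩
        rw [hnu, map_zero] at e
        have hone : (⟨σ a⁻¹, h'⟩ : A) * ⟨σ a, hmem⟩ = 1 := by
          ext
          show σ a⁻¹ * σ a = 1
          rw [← map_mul, inv_mul_cancel₀ ha0, map_one]
        have := congrArg r hone
        rw [map_mul, e, zero_mul, map_one] at this
        exact zero_ne_one this
      · obtain ⟨ha, hb, e1, e2⟩ := hvb
        obtain ⟨⟨c1, rfl⟩, ⟨c2, rfl⟩⟩ := hconst a2 b2 hab2.left
        obtain ⟨h1, e1'⟩ := hσ ⟨a, ha⟩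
        obtain ⟨h2, e2'⟩ := hσ ⟨b', hb⟩
        rw [twD6_resA_of_mem A r ha] at e1
        rw [twD6_resA_of_mem A r hb] at e2
        refine ⟨h1, h2, ?_, ?_⟩
        · rw [twD6_resA_of_mem A r h1, e1', e1, hτ]
        · rw [twD6_resA_of_mem A r h2, e2', e2, hτ]
  have hPb : RedPtA A r P' (ptHom fF W P) := by
    have hP2 := ptHom_spec fF W P
    generalize ptHom fF W P = P2 at hP2
    rcases P with _ | ⟨a, b', hab⟩ <;> rcases P' with _ | ⟨a1, b1, hab1⟩ <;>
      rcases P2 with _ | ⟨a2, b2, hab2⟩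
    · trivial
    · exact hP2.elim
    · exact hP'.elim
    · exact hP'.elim
    · exact hP'.elim
    · exact hP'.elim
    · exact hP2.elim
    · obtain ⟨rfl, rfl⟩ := hP'
      obtain ⟨rfl, rfl⟩ := hP2
      exact ⟨(hc' a).1, (hc' b').1, (hc' a).2, (hc' b').2⟩
  have h1 := twD6_red_sub A r hr hW hΔ' hv'b (twD6_red_zsmul A r hr hW hΔ' hPb b)
  rw [h] at h1
  have h2 := RedPtA.unique h1 hvb
  have h3 : b • ptHom fF W P = 0 := by simpa using h2
  have h4 : ptHom fF W (b • P) = 0 := by rw [map_zsmul]; exact h3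
  exact ptHom_injective fF W (by rw [h4, map_zero])

/-- D6: `σ v - b P = v` in `W(Frac k[z][[w]])`, `P ∈ W(k)` of order `n`, implies `n ∣ b` -/
theorem cob_shift {k : Type} [Field k] (W : WeierstrassCurve k) (hΔ : W.Δ ≠ 0) (n : ℕ) (hn : 0 < n)
    (P : W.toAffine.Point) (hP : addOrderOf P = n)
    (P' v v' : (W.map (algebraMap k (PSf n k))).toAffine.Point)
    (hP' : PtMap (algebraMap k (PSf n k)) P P') (hv : PtMap (psShift n k).toRingHom v v') (b : ℤ)
    (h : v' - b • P' = v) : (n : ℤ) ∣ b := by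
  rw [← hP, addOrderOf_dvd_iff_zsmul_eq_zero]
  let R0 := MvPolynomial (Fin n) k
  let k2 := FractionRing R0
  let m : PSr n k →+* PowerSeries k2 := PowerSeries.map (algebraMap R0 k2)
  have hm : Function.Injective m :=
    PowerSeries.map_injective _ (IsFractionRing.injective R0 k2)
  let ρ : PowerSeries k2 →+* k2 := PowerSeries.constantCoeff
  have hρ' : ∀ g : PowerSeries k2, ¬ IsUnit g → ρ g = 0 := by
    intro g hg
    by_contra h0
    exact hg (PowerSeries.isUnit_iff_constantCoeff.2 (isUnit_iff_ne_zero.2 h0))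
  obtain ⟨A, r, hr, hA1, hA2⟩ := twD6_exists_val (K := PSf n k) m hm ρ hρ'
  let e0 : R0 ≃+* R0 := (MvPolynomial.renameEquiv k (finRotate n)).toRingEquiv
  let τ : k2 ≃+* k2 := IsFractionRing.ringEquivOfRingEquiv e0
  have hτ0 : ∀ c : R0, τ (algebraMap R0 k2 c) = algebraMap R0 k2 (MvPolynomial.rename (finRotate n) c) :=
    fun c => IsFractionRing.ringEquivOfRingEquiv_algebraMap e0 c
  have hσ0 : ∀ a : PSr n k, psShift n k (algebraMap (PSr n k) (PSf n k) a) =
      algebraMap (PSr n k) (PSf n k) (psPerm n k (finRotate n) a) :=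
    fun a => IsFractionRing.ringEquivOfRingEquiv_algebraMap (psPerm n k (finRotate n)) a
  have hmπ : ∀ a : PSr n k, m (psPerm n k (finRotate n) a) = PowerSeries.map τ.toRingHom (m a) := by
    intro a
    ext j
    have : PowerSeries.coeff j (psPerm n k (finRotate n) a) =
        MvPolynomial.rename (finRotate n) (PowerSeries.coeff j a) := by
      show PowerSeries.coeff j (PowerSeries.map
        (MvPolynomial.rename (finRotate n) : R0 →ₐ[k] R0).toRingHom a) = _
      rw [PowerSeries.coeff_map]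
      rfl
    rw [PowerSeries.coeff_map, PowerSeries.coeff_map, PowerSeries.coeff_map, this]
    exact (hτ0 _).symm
  refine twD6_core (algebraMap k (PSf n k)) (algebraMap k k2) W hΔ A r hr ?_
    (psShift n k).toRingHom τ.toRingHom ?_ ?_ ?_ P P' v v' hP' hv b h
  · intro c
    obtain ⟨h1, h2⟩ := hA2 (algebraMap k (PSf n k) c) (m (algebraMap k (PSr n k) c))
      (algebraMap k (PSr n k) c) 1 one_ne_zero
      (by rw [map_one, div_one, ← IsScalarTower.algebraMap_apply]) (by rw [map_one, mul_one])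
    refine ⟨h1, ?_⟩
    rw [h2]
    show PowerSeries.constantCoeff (PowerSeries.map (algebraMap R0 k2) (algebraMap k (PSr n k) c)) = _
    rw [PowerSeries.algebraMap_apply, PowerSeries.map_C, PowerSeries.constantCoeff_C,
      ← IsScalarTower.algebraMap_apply]
  · intro a
    obtain ⟨g, a1, a2, h2, hx, hg⟩ := hA1 a a.2
    have hx' : (psShift n k).toRingHom (a : PSf n k) =
        algebraMap (PSr n k) (PSf n k) (psPerm n k (finRotate n) a1) /
          algebraMap (PSr n k) (PSf n k) (psPerm n k (finRotate n) a2) := by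
      show psShift n k (a : PSf n k) = _
      rw [hx, map_div₀, hσ0, hσ0]
    obtain ⟨h1, e1⟩ := hA2 _ (PowerSeries.map τ.toRingHom g) _ _
      ((map_ne_zero_iff _ (psPerm n k (finRotate n)).injective).2 h2) hx'
      (by rw [hmπ, hmπ, hg, map_mul])
    obtain ⟨h3, e3⟩ := hA2 _ g _ _ h2 hx hg
    refine ⟨h1, ?_⟩
    rw [e1]
    have : r a = ρ g := e3
    rw [this]
    show PowerSeries.constantCoeff (PowerSeries.map τ.toRingHom g) = τ.toRingHom (PowerSeries.constantCoeff g)
    rw [← PowerSeries.coeff_zero_eq_constantCoeff_apply, PowerSeries.coeff_map,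
      PowerSeries.coeff_zero_eq_constantCoeff_apply]
  · intro c
    show τ (algebraMap k k2 c) = algebraMap k k2 c
    rw [IsScalarTower.algebraMap_apply k R0 k2, hτ0]
    congr 1
    exact MvPolynomial.rename_C _ _
  · intro a b' hab
    exact point_mvRatFunc_const W hΔ n hab

end Claimed.Agent.R280
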