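import Claimed.Agent.R280.Tw.D5
import Claimed.Agent.R280.Ell.Main

/-!
# Row 280, leaf TW-D7 (PROVED, helper151): `p`-basis `z_1..z_n, w` of `Frac k[z][[w]]`, partial derivatives, labels
`k[z][[w]]` is free over its subring of `p`-th powers `k[z^p][[w^p]]` on the monomials `z^a w^b`, `0 ≤ a_i, b < p`.  `∂/∂z_i` coefficientwise (`MvPolynomial.pderiv`), extended to fractions.
`partial_label_ne_zero`: if `θ (x R) = 0` then `θ (y R) = 0` (differentiate the equation; 2-torsion points are algebraic over the perfect field `k`), so `θ` kills the coordinates of `T = R - c`, hence `z_i w = - xhat / yhat`.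
-/

set_option autoImplicit false

namespace Claimed.Agent.R280

open WithZero WeierstrassCurve Cardinal
open scoped Classical

/-! ## `p`-degree -/

/-- `b` is a "Frobenius basis": every element is uniquely `∑ (u i)^p * b i` -/
def D7PB (p : ℕ) {B I : Type} [CommRing B] [Fintype I] (b : I → B) : Prop :=
  Function.Bijective (fun u : I → B => ∑ i, u i ^ p * b i)

theorem d7PB_base (p : ℕ) [Fact p.Prime] (k : Type) [Field k] [CharP k p] [PerfectField k] :
    D7PB p (fun _ : Unit => (1 : k)) := by
  constructor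
  · intro u v h
    simp only [Finset.univ_unique, Finset.sum_singleton, mul_one] at h
    funext i
    exact frobenius_inj k p h
  · intro a
    obtain ⟨e, he⟩ := surjective_frobenius k p a
    exact ⟨fun _ => e, by simpa [frobenius_def] using he⟩

theorem D7PB.equiv {p : ℕ} {B B' I : Type} [CommRing B] [CommRing B'] [Fintype I] {b : I → B}
    (h : D7PB p b) (e : B ≃+* B') : D7PB p (fun i => e (b i)) := by
  have : (fun u : I → B' => ∑ i, u i ^ p * e (b i))
      = e ∘ (fun u : I → B => ∑ i, u i ^ p * b i) ∘ (fun u : I → B' => fun i => e.symm (u i)) := by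
    funext u
    simp
  rw [D7PB, this]
  refine e.bijective.comp (h.comp ?_)
  exact (Equiv.piCongrRight fun _ : I => e.symm.toEquiv).bijective

theorem d7_arith {p q r j t : ℕ} (hr : r < p) (hj : j < p) (h : p * q + r = p * t + j) :
    r = j ∧ q = t := by
  have h1 := congrArg (· % p) h
  simp only [Nat.mul_add_mod, Nat.mod_eq_of_lt hr, Nat.mod_eq_of_lt hj] at h1
  subst h1
  have hp : 0 < p := by omega
  exact ⟨rfl, Nat.eq_of_mul_eq_mul_left hp (by omega)⟩

theorem d7_ps_coeff_pow (p : ℕ) [Fact p.Prime] {B : Type} [CommRing B] [CharP B p]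
    (f : PowerSeries B) (N : ℕ) :
    PowerSeries.coeff N (f ^ p) = if p ∣ N then (PowerSeries.coeff (N / p) f) ^ p else 0 := by
  have hp : p ≠ 0 := (Fact.out : p.Prime).ne_zero
  have h : PowerSeries.map (frobenius B p) (PowerSeries.expand p hp f) = f ^ p :=
    MvPowerSeries.map_frobenius_expand p hp
  rw [← h, PowerSeries.coeff_map, PowerSeries.coeff_expand]
  split_ifs
  · rfl
  · simp

theorem d7_ps_coeff (p : ℕ) [Fact p.Prime] {B I : Type} [CommRing B] [CharP B p] [Fintype I]
    (b : I → B) (u : I × Fin p → PowerSeries B) (q : ℕ) (r : Fin p) :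
    PowerSeries.coeff (p * q + r)
      (∑ ij : I × Fin p, u ij ^ p * (PowerSeries.C (b ij.1) * PowerSeries.X ^ (ij.2 : ℕ)))
      = ∑ i, (PowerSeries.coeff q (u (i, r))) ^ p * b i := by
  have hp : 0 < p := (Fact.out : p.Prime).pos
  rw [map_sum, Fintype.sum_prod_type]
  refine Finset.sum_congr rfl fun i _ => ?_
  rw [Finset.sum_eq_single r]
  · rw [mul_comm (PowerSeries.C _), ← mul_assoc, PowerSeries.coeff_mul_C,
      PowerSeries.coeff_mul_X_pow, d7_ps_coeff_pow, if_pos (dvd_mul_right p q),
      Nat.mul_div_cancel_left _ hp]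
  · intro j _ hj
    rw [mul_comm (PowerSeries.C _), ← mul_assoc, PowerSeries.coeff_mul_C,
      PowerSeries.coeff_mul_X_pow', d7_ps_coeff_pow]
    split_ifs with h1 h2
    · exfalso
      obtain ⟨t, ht⟩ := h2
      simp only at h1 ht
      exact hj (Fin.ext (d7_arith (q := q) r.2 j.2 (t := t) (by omega)).1.symm)
    · simp
    · simp
  · intro h; exact absurd (Finset.mem_univ _) h

theorem D7PB.powerSeries {p : ℕ} [Fact p.Prime] {B I : Type} [CommRing B] [CharP B p] [Fintype I]
    {b : I → B} (h : D7PB p b) :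
    D7PB p (fun ij : I × Fin p => PowerSeries.C (b ij.1) * PowerSeries.X ^ (ij.2 : ℕ)) := by
  have hp : 0 < p := (Fact.out : p.Prime).pos
  constructor
  · intro u v huv
    funext ⟨i, r⟩
    ext q
    have h1 := congrArg (PowerSeries.coeff (p * q + r)) huv
    simp only [d7_ps_coeff] at h1
    exact congrFun (h.1 h1) i
  · intro f
    choose g hg using h.2
    refine ⟨fun ij => PowerSeries.mk fun q => g (PowerSeries.coeff (p * q + ij.2) f) ij.1, ?_⟩
    ext N
    have hN : N = p * (N / p) + ((⟨N % p, Nat.mod_lt _ hp⟩ : Fin p) : ℕ) := (Nat.div_add_mod N p).symm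
    rw [hN, d7_ps_coeff]
    simp only [PowerSeries.coeff_mk]
    exact hg _

theorem d7_poly_coeff_pow (p : ℕ) [Fact p.Prime] {B : Type} [CommRing B] [CharP B p]
    (f : Polynomial B) (N : ℕ) :
    Polynomial.coeff (f ^ p) N = if p ∣ N then (Polynomial.coeff f (N / p)) ^ p else 0 := by
  have hp : 0 < p := (Fact.out : p.Prime).pos
  rw [← Polynomial.map_frobenius_expand p f, Polynomial.coeff_map, Polynomial.coeff_expand hp]
  split_ifs
  · rfl
  · simp

theorem d7_poly_coeff (p : ℕ) [Fact p.Prime] {B I : Type} [CommRing B] [CharP B p] [Fintype I]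
    (b : I → B) (u : I × Fin p → Polynomial B) (q : ℕ) (r : Fin p) :
    Polynomial.coeff
      (∑ ij : I × Fin p, u ij ^ p * (Polynomial.C (b ij.1) * Polynomial.X ^ (ij.2 : ℕ)))
      (p * q + r) = ∑ i, (Polynomial.coeff (u (i, r)) q) ^ p * b i := by
  have hp : 0 < p := (Fact.out : p.Prime).pos
  rw [Polynomial.finsetSum_coeff, Fintype.sum_prod_type]
  refine Finset.sum_congr rfl fun i _ => ?_
  rw [Finset.sum_eq_single r]
  · rw [mul_comm (Polynomial.C _), ← mul_assoc, Polynomial.coeff_mul_C,
      Polynomial.coeff_mul_X_pow, d7_poly_coeff_pow, if_pos (dvd_mul_right p q),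
      Nat.mul_div_cancel_left _ hp]
  · intro j _ hj
    rw [mul_comm (Polynomial.C _), ← mul_assoc, Polynomial.coeff_mul_C,
      Polynomial.coeff_mul_X_pow', d7_poly_coeff_pow]
    split_ifs with h1 h2
    · exfalso
      obtain ⟨t, ht⟩ := h2
      simp only at h1 ht
      exact hj (Fin.ext (d7_arith (q := q) r.2 j.2 (t := t) (by omega)).1.symm)
    · simp
    · simp
  · intro h; exact absurd (Finset.mem_univ _) h

theorem D7PB.polynomial {p : ℕ} [Fact p.Prime] {B I : Type} [CommRing B] [CharP B p] [Fintype I]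
    {b : I → B} (h : D7PB p b) :
    D7PB p (fun ij : I × Fin p => Polynomial.C (b ij.1) * Polynomial.X ^ (ij.2 : ℕ)) := by
  have hp : 0 < p := (Fact.out : p.Prime).pos
  constructor
  · intro u v huv
    funext ⟨i, r⟩
    ext q
    have h1 := congrArg (fun P => Polynomial.coeff P (p * q + r)) huv
    simp only [d7_poly_coeff] at h1
    exact congrFun (h.1 h1) i
  · intro f
    choose g hg using h.2
    have hg0 : g 0 = 0 := h.1 ((hg 0).trans (by simp [hp.ne']))
    refine ⟨fun ij => ∑ q ∈ Finset.range (f.natDegree + 1),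
      Polynomial.monomial q (g (Polynomial.coeff f (p * q + ij.2)) ij.1), ?_⟩
    ext N
    have hN : N = p * (N / p) + ((⟨N % p, Nat.mod_lt _ hp⟩ : Fin p) : ℕ) := (Nat.div_add_mod N p).symm
    rw [hN, d7_poly_coeff]
    simp only [Polynomial.finsetSum_coeff, Polynomial.coeff_monomial, Finset.sum_ite_eq',
      Finset.mem_range]
    by_cases hq : N / p < f.natDegree + 1
    · simp only [hq, if_true]
      exact hg _
    · simp only [hq, if_false]
      rw [Polynomial.coeff_eq_zero_of_natDegree_lt]
      · simp [hp.ne']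
      · have : N / p ≤ p * (N / p) := Nat.le_mul_of_pos_left _ hp
        omega

theorem D7PB.fraction {p : ℕ} (hp : 0 < p) {B K I : Type} [CommRing B] [IsDomain B] [Field K]
    [Algebra B K] [IsFractionRing B K] [Fintype I] {b : I → B} (h : D7PB p b) :
    D7PB p (fun i => algebraMap B K (b i)) := by
  constructor
  · intro u v huv
    obtain ⟨d, hd⟩ := IsLocalization.exist_integer_multiples_of_finite (nonZeroDivisors B)
      (Sum.elim u v)
    have hd0 : algebraMap B K d ≠ 0 := IsFractionRing.to_map_ne_zero_of_mem_nonZeroDivisors d.2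
    choose w hw using hd
    have key : (fun i => w (Sum.inl i)) = fun i => w (Sum.inr i) := by
      apply h.1
      apply IsFractionRing.injective B K
      simp only [map_sum, map_mul, map_pow, hw, Sum.elim_inl, Sum.elim_inr, Algebra.smul_def,
        mul_pow, mul_assoc, ← Finset.mul_sum]
      exact congrArg _ huv
    funext i
    have h1 := congrArg (algebraMap B K) (congrFun key i)
    rw [hw, hw] at h1
    simp only [Sum.elim_inl, Sum.elim_inr, Algebra.smul_def] at h1
    exact mul_left_cancel₀ hd0 h1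
  · intro s
    obtain ⟨a, d, hd, rfl⟩ := IsFractionRing.div_surjective (A := B) s
    have hd0 : algebraMap B K d ≠ 0 := IsFractionRing.to_map_ne_zero_of_mem_nonZeroDivisors hd
    obtain ⟨u, hu⟩ := h.2 (a * d ^ (p - 1))
    refine ⟨fun i => algebraMap B K (u i) / algebraMap B K d, ?_⟩
    have h1 := congrArg (algebraMap B K) hu
    simp only [map_sum, map_mul, map_pow] at h1
    simp only [div_pow, div_mul_eq_mul_div, ← Finset.sum_div]
    rw [h1, div_eq_div_iff (pow_ne_zero _ hd0) hd0, mul_assoc, ← pow_succ,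
      Nat.sub_add_cancel hp]

theorem D7PB.finrank {p : ℕ} [Fact p.Prime] {K I : Type} [Field K] [CharP K p] [Fintype I]
    {b : I → K} (h : D7PB p b) :
    Module.finrank (frobenius K p).fieldRange K = Fintype.card I := by
  have hp : 0 < p := (Fact.out : p.Prime).pos
  have hli : LinearIndependent (frobenius K p).fieldRange b := by
    rw [Fintype.linearIndependent_iff]
    intro g hg i
    have hex : ∀ i, ∃ u : K, u ^ p = (g i : K) := fun i => by
      obtain ⟨u, hu⟩ := RingHom.mem_fieldRange.1 (g i).2
      exact ⟨u, hu⟩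
    choose u hu using hex
    have : u = 0 := by
      apply h.1
      simp only [hu, Pi.zero_apply, zero_pow hp.ne', zero_mul, Finset.sum_const_zero]
      simpa [Subfield.smul_def] using hg
    apply Subtype.ext
    rw [← hu, this]
    simp [hp.ne']
  have hsp : ⊤ ≤ Submodule.span (frobenius K p).fieldRange (Set.range b) := by
    intro s _
    obtain ⟨u, rfl⟩ := h.2 s
    refine Submodule.sum_mem _ fun i _ => ?_
    have : u i ^ p * b i = (⟨u i ^ p, RingHom.mem_fieldRange.2 ⟨u i, rfl⟩⟩ :
        (frobenius K p).fieldRange) • b i := rfl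
    rw [this]
    exact Submodule.smul_mem _ _ (Submodule.subset_span ⟨i, rfl⟩)
  rw [Module.finrank_eq_card_basis (Module.Basis.mk hli hsp)]

theorem d7_mvPoly (p : ℕ) [Fact p.Prime] (k : Type) [Field k] [CharP k p] [PerfectField k] (n : ℕ) :
    ∃ (I : Type) (_ : Fintype I) (b : I → MvPolynomial (Fin n) k),
      Fintype.card I = p ^ n ∧ D7PB p b := by
  induction n with
  | zero =>
    exact ⟨Unit, inferInstance, _, by simp,
      (d7PB_base p k).equiv (MvPolynomial.isEmptyRingEquiv k (Fin 0)).symm⟩
  | succ n ih =>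
    obtain ⟨I, _, b, hc, hb⟩ := ih
    exact ⟨I × Fin p, inferInstance, _, by simp [hc, pow_succ],
      hb.polynomial.equiv (MvPolynomial.finSuccEquiv k n).symm.toRingEquiv⟩

theorem pdeg_psf (p : ℕ) [Fact p.Prime] (k : Type) [Field k] [CharP k p] [PerfectField k] (n : ℕ)
    [CharP (PSf n k) p] :
    Module.finrank (frobenius (PSf n k) p).fieldRange (PSf n k) = p ^ (n + 1) := by
  obtain ⟨I, _, b, hc, hb⟩ := d7_mvPoly p k n
  have h1 := (hb.powerSeries.fraction (K := PSf n k) (Fact.out : p.Prime).pos).finrank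
  rw [h1]
  simp [hc, pow_succ]

/-! ## partial derivatives -/

/-- extension of a derivation to the fraction field -/
theorem d7_extend {A K : Type} [CommRing A] [IsDomain A] [Field K] [Algebra A K]
    [IsFractionRing A K] (D₀ : A →+ K)
    (hD : ∀ a b, D₀ (a * b) = algebraMap A K a * D₀ b + algebraMap A K b * D₀ a) :
    ∃ θ : Der K, ∀ a, θ (algebraMap A K a) = D₀ a := by
  let D : Derivation ℤ A K := Derivation.mk' D₀.toIntLinearMap (fun a b => by
    simp only [AddMonoidHom.coe_toIntLinearMap, Algebra.smul_def]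
    exact hD a b)
  have hDD : ∀ a, D a = D₀ a := fun a => rfl
  have hu : ∀ x : nonZeroDivisors A, IsUnit (algebraMap A (Module.End A K) x) := by
    intro x
    have hx : algebraMap A K x ≠ 0 := IsFractionRing.to_map_ne_zero_of_mem_nonZeroDivisors x.2
    rw [Module.End.isUnit_iff]
    constructor
    · intro a b hab
      simp only [Module.algebraMap_end_apply, Algebra.smul_def] at hab
      exact mul_left_cancel₀ hx hab
    · intro b
      refine ⟨(algebraMap A K x)⁻¹ * b, ?_⟩
      simp only [Module.algebraMap_end_apply, Algebra.smul_def]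
      rw [mul_inv_cancel_left₀ hx]
  let l' : KaehlerDifferential ℤ K →ₗ[A] K := IsLocalizedModule.lift (nonZeroDivisors A)
    (KaehlerDifferential.map ℤ ℤ A K) D.liftKaehlerDifferential hu
  let l'' : KaehlerDifferential ℤ K →ₗ[K] K := l'.extendScalarsOfIsLocalization (nonZeroDivisors A) K
  refine ⟨l''.compDer (KaehlerDifferential.D ℤ K), fun a => ?_⟩
  have h1 : l' (KaehlerDifferential.map ℤ ℤ A K (KaehlerDifferential.D ℤ A a))
      = D.liftKaehlerDifferential (KaehlerDifferential.D ℤ A a) :=
    IsLocalizedModule.lift_apply _ _ _ hu _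
  rw [KaehlerDifferential.map_D, Derivation.liftKaehlerDifferential_comp_D] at h1
  exact h1

/-- coefficientwise application of an additive map to power series -/
noncomputable def d7Coeff {B : Type} [CommRing B] (d : B →+ B) : PowerSeries B →+ PowerSeries B :=
  AddMonoidHom.mk' (fun f => PowerSeries.mk fun j => d (PowerSeries.coeff j f))
    (fun f g => by ext j; simp)

theorem d7Coeff_coeff {B : Type} [CommRing B] (d : B →+ B) (f : PowerSeries B) (j : ℕ) :
    PowerSeries.coeff j (d7Coeff d f) = d (PowerSeries.coeff j f) := by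
  simp [d7Coeff]

theorem d7Coeff_mul {B : Type} [CommRing B] (d : B →+ B)
    (hd : ∀ a b, d (a * b) = a * d b + b * d a) (f g : PowerSeries B) :
    d7Coeff d (f * g) = f * d7Coeff d g + g * d7Coeff d f := by
  ext j
  rw [d7Coeff_coeff, map_add, PowerSeries.coeff_mul, PowerSeries.coeff_mul, mul_comm g,
    PowerSeries.coeff_mul, map_sum, ← Finset.sum_add_distrib]
  refine Finset.sum_congr rfl fun x _ => ?_
  rw [hd, d7Coeff_coeff, d7Coeff_coeff, mul_comm (d _)]

/-- the partial derivative `∂/∂z_i` of `Frac k[z][[w]]` -/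
theorem exists_partial (k : Type) [Field k] (n : ℕ) (i : Fin n) :
    ∃ θ : Der (PSf n k), ∀ (j : Fin n) (f : PowerSeries k),
      θ (algebraMap _ _ (psSubstFun n k j f)) =
        if j = i then algebraMap (PSr n k) (PSf n k)
          (PowerSeries.X * psSubstFun n k j (PowerSeries.derivative k f)) else 0 := by
  set d : MvPolynomial (Fin n) k →+ MvPolynomial (Fin n) k :=
    (MvPolynomial.pderiv i : Derivation k _ _).toLinearMap.toAddMonoidHom with hd
  have hdm : ∀ a b, d (a * b) = a * d b + b * d a := fun a b => by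
    simp [hd]
  obtain ⟨θ, hθ⟩ := d7_extend (A := PSr n k) (K := PSf n k)
    ((algebraMap (PSr n k) (PSf n k)).toAddMonoidHom.comp (d7Coeff d)) (fun a b => by
      simp only [AddMonoidHom.comp_apply, d7Coeff_mul d hdm]
      simp)
  have hdd : ∀ q, d q = MvPolynomial.pderiv i q := fun q => rfl
  refine ⟨θ, fun j f => ?_⟩
  rw [hθ]
  simp only [AddMonoidHom.comp_apply, RingHom.toAddMonoidHom_eq_coe, AddMonoidHom.coe_coe]
  split_ifs with hji
  · subst hji
    congr 1
    ext1 m
    rw [d7Coeff_coeff]
    simp only [psSubstFun, PowerSeries.coeff_mk, hdd, MvPolynomial.pderiv_monomial]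
    cases m with
    | zero => simp
    | succ m =>
      rw [PowerSeries.coeff_succ_X_mul, PowerSeries.coeff_mk, PowerSeries.coeff_derivative]
      simp
  · rw [← map_zero (algebraMap (PSr n k) (PSf n k))]
    congr 1
    ext1 m
    rw [d7Coeff_coeff]
    simp only [psSubstFun, PowerSeries.coeff_mk, hdd, MvPolynomial.pderiv_monomial]
    simp [hji]

/-! ## labels -/

/-- the field of constants of a derivation that kills `k` -/
def d7Ker {k S : Type} [Field k] [Field S] [Algebra k S] (θ : Der S)
    (hθ : ∀ a : k, θ (algebraMap k S a) = 0) : IntermediateField k S where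
  carrier := {s | θ s = 0}
  mul_mem' := fun {a b} ha hb => by
    simp only [Set.mem_ofPred_eq] at *
    rw [Derivation.leibniz, ha, hb]; simp
  add_mem' := fun {a b} ha hb => by
    simp only [Set.mem_ofPred_eq] at *
    rw [map_add, ha, hb, add_zero]
  algebraMap_mem' := hθ
  inv_mem' := fun a ha => by
    simp only [Set.mem_ofPred_eq] at *
    rw [Derivation.leibniz_inv, ha, smul_zero]

theorem d7_mem_ker {k S : Type} [Field k] [Field S] [Algebra k S] (θ : Der S)
    (hθ : ∀ a : k, θ (algebraMap k S a) = 0) (s : S) : s ∈ d7Ker θ hθ ↔ θ s = 0 := Iff.rfl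

/-- points with coordinates in an intermediate field come from that field -/
theorem d7_mem_range {k S : Type} [Field k] [Field S] [Algebra k S] (W : WeierstrassCurve k)
    (S₀ : IntermediateField k S) {x y : S} (h : (W.map (algebraMap k S)).toAffine.Nonsingular x y)
    (hx : x ∈ S₀) (hy : y ∈ S₀) :
    (Affine.Point.some x y h : (W.map (algebraMap k S)).toAffine.Point) ∈
      (Affine.Point.map (W' := W.toAffine) S₀.val).range := by
  have h' : (W.baseChange S₀).toAffine.Nonsingular (⟨x, hx⟩ : S₀) ⟨y, hy⟩ :=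
    (W.toAffine.baseChange_nonsingular (f := S₀.val) S₀.val.injective ⟨x, hx⟩ ⟨y, hy⟩).1 h
  exact ⟨Affine.Point.some _ _ h', rfl⟩

theorem d7_of_mem_range {k S : Type} [Field k] [Field S] [Algebra k S] (W : WeierstrassCurve k)
    (S₀ : IntermediateField k S) {x y : S} (h : (W.map (algebraMap k S)).toAffine.Nonsingular x y)
    (hm : (Affine.Point.some x y h : (W.map (algebraMap k S)).toAffine.Point) ∈
      (Affine.Point.map (W' := W.toAffine) S₀.val).range) : x ∈ S₀ ∧ y ∈ S₀ := by
  obtain ⟨P, hP⟩ := hm
  cases P with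
  | zero => exact absurd hP (by simp [Affine.Point.map])
  | some a b hab =>
    rw [Affine.Point.map_some] at hP
    have hP' := Affine.Point.some.inj hP
    exact ⟨hP'.1 ▸ a.2, hP'.2 ▸ b.2⟩

/-- if a derivation kills the constants and `x`, it kills `y` -/
theorem d7_y_of_x (p : ℕ) [Fact p.Prime] {k S : Type} [Field k] [CharP k p] [PerfectField k]
    [Field S] [Algebra k S] (W : WeierstrassCurve k) (hΔ : W.Δ ≠ 0) (θ : Der S)
    (hθ : ∀ a : k, θ (algebraMap k S a) = 0) {x y : S}
    (h : (W.map (algebraMap k S)).toAffine.Equation x y) (hx : θ x = 0) : θ y = 0 := by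
  rw [Affine.equation_iff] at h
  simp only [map_a₁, map_a₂, map_a₃, map_a₄, map_a₆] at h
  have h1 := congrArg θ h
  simp only [map_add, Derivation.leibniz, Derivation.leibniz_pow, hθ, hx, smul_zero, add_zero,
    mul_zero, smul_eq_mul, nsmul_eq_mul] at h1
  have h2 : (2 * y + algebraMap k S W.a₁ * x + algebraMap k S W.a₃) * θ y = 0 := by
    rw [← h1]; push_cast; ring
  rcases mul_eq_zero.1 h2 with h3 | h3
  swap
  · exact h3
  have : CharP S p := charP_of_injective_algebraMap (algebraMap k S).injective p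
  by_cases hp : p = 2
  · subst hp
    have k2 : (2 : k) = 0 := by exact_mod_cast CharP.cast_eq_zero k 2
    have S2 : (2 : S) = 0 := by exact_mod_cast CharP.cast_eq_zero S 2
    rw [S2, zero_mul, zero_add] at h3
    by_cases ha₁ : W.a₁ = 0
    · exfalso
      rw [ha₁, map_zero, zero_mul, zero_add] at h3
      have ha₃ : W.a₃ = 0 := (map_eq_zero (algebraMap k S)).1 h3
      apply hΔ
      simp only [WeierstrassCurve.Δ, WeierstrassCurve.b₂, WeierstrassCurve.b₄, WeierstrassCurve.b₆,
        WeierstrassCurve.b₈, ha₁, ha₃]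
      linear_combination (-8 * W.a₂ ^ 2 * (4 * W.a₂ * W.a₆ - W.a₄ ^ 2) - 32 * W.a₄ ^ 3
        - 216 * W.a₆ ^ 2 + 144 * W.a₂ * W.a₄ * W.a₆) * k2
    · have hA : algebraMap k S W.a₁ ≠ 0 := (map_ne_zero _).2 ha₁
      have hxk : x = algebraMap k S (-W.a₃ / W.a₁) := by
        rw [map_div₀, map_neg, eq_div_iff hA]
        linear_combination h3
      obtain ⟨e, he⟩ := surjective_frobenius k 2
        ((-W.a₃ / W.a₁) ^ 3 + W.a₂ * (-W.a₃ / W.a₁) ^ 2 + W.a₄ * (-W.a₃ / W.a₁) + W.a₆)
      have hy2 : y ^ 2 = algebraMap k S e ^ 2 := by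
        rw [← map_pow, ← frobenius_def (R := k), he]
        simp only [map_add, map_mul, map_pow, ← hxk]
        linear_combination h - y * h3
      have : (y - algebraMap k S e) ^ 2 = 0 := by
        linear_combination hy2 + (algebraMap k S e ^ 2 - y * algebraMap k S e) * S2
      have hye : y = algebraMap k S e := sub_eq_zero.1 (pow_eq_zero_iff two_ne_zero |>.1 this)
      rw [hye, hθ]
  · have S2 : (2 : S) ≠ 0 := by
      intro h20
      have : ((2 : ℕ) : S) = 0 := by exact_mod_cast h20
      rw [CharP.cast_eq_zero_iff S p] at this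
      exact hp ((Nat.prime_dvd_prime_iff_eq Fact.out Nat.prime_two).1 this)
    have h4 := congrArg θ h3
    simp only [map_add, Derivation.leibniz, hθ, hx, mul_zero, add_zero, smul_eq_mul,
      map_zero] at h4
    have h5 : θ (2 : S) = 0 := by
      have := θ.map_natCast 2
      exact_mod_cast this
    rw [h5, mul_zero, add_zero] at h4
    exact (mul_eq_zero.1 h4).resolve_left S2

theorem d7_subst_wser_ne_zero (n : ℕ) {k : Type} [Field k] (W : WeierstrassCurve k) (i : Fin n) :
    psSubstFun n k i (wser W) ≠ 0 := by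
  obtain ⟨u, hu, hw⟩ := wser_eq W
  intro h0
  have h3 := congrArg (PowerSeries.coeff 3) h0
  rw [psSubstFun, PowerSeries.coeff_mk, hw, map_zero] at h3
  have : PowerSeries.coeff 3 (PowerSeries.X ^ 3 * u) = 1 := by
    rw [PowerSeries.coeff_X_pow_mul' ]
    simpa using hu
  rw [this, MvPolynomial.monomial_eq_zero] at h3
  exact one_ne_zero h3

/-- the `x`-coordinate of `That(T) + c`, `c` a constant point, is not a `p`-th power: its `T`-derivative does not vanish.
Formulated with `∂/∂z_i`. -/
theorem partial_label_ne_zero (p : ℕ) [Fact p.Prime] (k : Type) [Field k] [CharP k p] [PerfectField k]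
    (W : WeierstrassCurve k) (hΔ : W.Δ ≠ 0) (n : ℕ) (i : Fin n)
    (c T R : (W.map (algebraMap k (PSf n k))).toAffine.Point) (c₀ : W.toAffine.Point)
    (hc : PtMap (algebraMap k (PSf n k)) c₀ c) (hT : ∃ h, T = .some (xhat n W i) (yhat n W i) h)
    (hR : R = T + c) (θ : Der (PSf n k))
    (hθ : θ (algebraMap _ _ (psZW n k i)) ≠ 0) (hθ' : ∀ a : k, θ (algebraMap k (PSf n k) a) = 0) :
    θ (ptX R) ≠ 0 := by
  intro h0
  set S₀ := d7Ker θ hθ' with hS₀
  set G := (Affine.Point.map (W' := W.toAffine) S₀.val).range with hG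
  have hcG : c ∈ G := by
    cases c with
    | zero => exact G.zero_mem
    | some a b hab =>
      cases c₀ with
      | zero => exact absurd hc (by simp [PtMap])
      | some a₀ b₀ hab₀ =>
        obtain ⟨ha, hb⟩ := hc
        exact d7_mem_range W S₀ hab (ha ▸ S₀.algebraMap_mem a₀) (hb ▸ S₀.algebraMap_mem b₀)
  have hRG : R ∈ G := by
    clear_value G
    clear hR
    cases R with
    | zero => exact G.zero_mem
    | some a b hab =>
      rw [hG]
      exact d7_mem_range W S₀ hab h0 (d7_y_of_x p W hΔ θ hθ' hab.1 h0)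
  have hTG : T ∈ G := by
    have : T = R - c := by rw [hR, add_sub_cancel_right]
    rw [this]
    exact G.sub_mem hRG hcG
  obtain ⟨h, rfl⟩ := hT
  obtain ⟨hx, hy⟩ := d7_of_mem_range W S₀ h hTG
  apply hθ
  have hω : algebraMap (PSr n k) (PSf n k) (psSubstFun n k i (wser W)) ≠ 0 := by
    rw [Ne, map_eq_zero_iff _ (IsFractionRing.injective (PSr n k) (PSf n k))]
    exact d7_subst_wser_ne_zero n W i
  have : algebraMap (PSr n k) (PSf n k) (psZW n k i) = - xhat n W i / yhat n W i := by
    rw [xhat, yhat]
    field_simp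
  rw [this]
  exact S₀.div_mem (S₀.neg_mem hx) hy

end Claimed.Agent.R280
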