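import Claimed.Agent.R280.Tw.D5
import Claimed.Agent.R280.Tw.D6
import Claimed.Agent.R280.Ell.Main

/-!
# Row 280, leaf TW-D8: the formal points are independent of each other and of the constants; reduction of formal points   (PROVED, helper188)
Use the `w`-adic valuation ring of D6 (`twD6_exists_val`; formal points reduce to `O`, `RedPtA.add_D`), then compare coefficients:
`xhat i = xhat j` gives `z_i z_j^3 = z_j z_i^3`; `T = -T` is impossible: `-2 + a₁ T + a₃ w(T) ≠ 0` (`Δ ≠ 0` in characteristic 2).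
-/

set_option autoImplicit false

namespace Claimed.Agent.R280

open WithZero WeierstrassCurve Cardinal
open scoped Classical

section series

variable (n : ℕ) {R : Type} [CommRing R]

theorem twD8_coeff_subst (i : Fin n) (f : PowerSeries R) (j : ℕ) :
    PowerSeries.coeff j (psSubstFun n R i f) =
      MvPolynomial.monomial (Finsupp.single i j) (PowerSeries.coeff j f) :=
  PowerSeries.coeff_mk _ _

theorem twD8_coeff_wser_lt (W : WeierstrassCurve R) {j : ℕ} (hj : j < 3) :
    PowerSeries.coeff j (wser W) = 0 := by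
  obtain ⟨u, -, hu⟩ := wser_eq W
  rw [hu, PowerSeries.coeff_X_pow_mul', if_neg (by omega)]

theorem twD8_coeff_wser_three (W : WeierstrassCurve R) : PowerSeries.coeff 3 (wser W) = 1 := by
  obtain ⟨u, hu1, hu⟩ := wser_eq W
  rw [hu, PowerSeries.coeff_X_pow_mul', if_pos le_rfl, Nat.sub_self,
    PowerSeries.coeff_zero_eq_constantCoeff_apply, hu1]

theorem twD8_coeff_S_lt (W : WeierstrassCurve R) (i : Fin n) {j : ℕ} (hj : j < 3) :
    PowerSeries.coeff j (psSubstFun n R i (wser W)) = 0 := by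
  rw [twD8_coeff_subst, twD8_coeff_wser_lt W hj, map_zero]

theorem twD8_coeff_S_three (W : WeierstrassCurve R) (i : Fin n) :
    PowerSeries.coeff 3 (psSubstFun n R i (wser W)) =
      MvPolynomial.monomial (Finsupp.single i 3) 1 := by
  rw [twD8_coeff_subst, twD8_coeff_wser_three W]

theorem twD8_S_ne_zero [Nontrivial R] (W : WeierstrassCurve R) (i : Fin n) :
    psSubstFun n R i (wser W) ≠ 0 := by
  intro h
  have := twD8_coeff_S_three n W i
  rw [h, map_zero] at this
  exact one_ne_zero (MvPolynomial.monomial_eq_zero.1 this.symm)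

theorem twD8_coeff_ZW_mul (i : Fin n) (f : PSr n R) (j : ℕ) :
    PowerSeries.coeff (j + 1) (psZW n R i * f) = MvPolynomial.X i * PowerSeries.coeff j f := by
  rw [psZW, mul_assoc, PowerSeries.coeff_C_mul, PowerSeries.coeff_succ_X_mul]

theorem twD8_coeff_ZW_mul_zero (i : Fin n) (f : PSr n R) :
    PowerSeries.coeff 0 (psZW n R i * f) = 0 := by
  rw [psZW, mul_assoc, PowerSeries.coeff_C_mul, PowerSeries.coeff_zero_X_mul, mul_zero]

theorem twD8_psMap_subst {R' : Type} [CommRing R'] (f : R →+* R') (i : Fin n) (g : PowerSeries R) :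
    psMap n f (psSubstFun n R i g) = psSubstFun n R' i (PowerSeries.map f g) := by
  ext j : 1
  rw [psMap, PowerSeries.coeff_map, twD8_coeff_subst, twD8_coeff_subst, MvPolynomial.map_monomial,
    PowerSeries.coeff_map]

theorem twD8_psMap_ZW {R' : Type} [CommRing R'] (f : R →+* R') (i : Fin n) :
    psMap n f (psZW n R i) = psZW n R' i := by
  rw [psMap, psZW, psZW, map_mul, PowerSeries.map_C, PowerSeries.map_X, MvPolynomial.map_X]

end series


section field

variable (n : ℕ) {k : Type} [Field k] (W : WeierstrassCurve k)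

theorem twD8_algS_ne_zero {R : Type} [CommRing R] [IsDomain R] (W : WeierstrassCurve R) (i : Fin n) :
    algebraMap (PSr n R) (PSf n R) (psSubstFun n R i (wser W)) ≠ 0 := by
  intro h
  apply twD8_S_ne_zero n W i
  apply IsFractionRing.injective (PSr n R) (PSf n R)
  rw [h, map_zero]

/-- the `x`-coordinates of the formal points are pairwise distinct -/
theorem twD8_xhat_inj {i j : Fin n} (h : xhat n W i = xhat n W j) : i = j := by
  unfold xhat at h
  rw [div_eq_div_iff (twD8_algS_ne_zero n W i) (twD8_algS_ne_zero n W j), ← map_mul, ← map_mul] at h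
  have h1 := IsFractionRing.injective (PSr n k) (PSf n k) h
  have h2 := congrArg (PowerSeries.coeff 4) h1
  rw [twD8_coeff_ZW_mul n i _ 3, twD8_coeff_ZW_mul n j _ 3, twD8_coeff_S_three, twD8_coeff_S_three,
    MvPolynomial.X, MvPolynomial.X, MvPolynomial.monomial_mul, MvPolynomial.monomial_mul,
    MvPolynomial.monomial_left_inj (by simp)] at h2
  by_contra hij
  have h3 := DFunLike.congr_fun h2 i
  simp [hij] at h3

/-- a formal point is not a point of order two -/
theorem twD8_not_two_torsion (hΔ : W.Δ ≠ 0) (i : Fin n) :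
    yhat n W i ≠ (W.map (algebraMap k (PSf n k))).toAffine.negY (xhat n W i) (yhat n W i) := by
  intro h
  apply hΔ
  set s := algebraMap (PSr n k) (PSf n k) (psSubstFun n k i (wser W)) with hs
  have hs0 : s ≠ 0 := twD8_algS_ne_zero n W i
  have e : algebraMap (PSr n k) (PSf n k)
      (psZW n k i * algebraMap k (PSr n k) W.a₁ +
        algebraMap k (PSr n k) W.a₃ * psSubstFun n k i (wser W) - 2) = 0 := by
    rw [map_sub, map_add, map_mul, map_mul, ← IsScalarTower.algebraMap_apply,
      ← IsScalarTower.algebraMap_apply, map_ofNat, ← hs]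
    unfold Affine.negY xhat yhat at h
    rw [← hs] at h
    simp only [WeierstrassCurve.map_a₁, WeierstrassCurve.map_a₃] at h
    field_simp at h
    linear_combination h
  have e1 := IsFractionRing.injective (PSr n k) (PSf n k) (e.trans (map_zero _).symm)
  have hC : ∀ c : k, algebraMap k (PSr n k) c = PowerSeries.C (MvPolynomial.C c) := fun c => by
    rw [PowerSeries.algebraMap_apply]
    rfl
  have h2A : (2 : PSr n k) = PowerSeries.C (MvPolynomial.C 2) := by
    rw [map_ofNat, map_ofNat]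
  rw [hC, hC, h2A] at e1
  -- coefficient `0`
  have c0 := congrArg (PowerSeries.coeff 0) e1
  rw [map_sub, map_add, twD8_coeff_ZW_mul_zero, PowerSeries.coeff_C_mul, twD8_coeff_S_lt n W i (by omega),
    mul_zero, PowerSeries.coeff_zero_C, map_zero, zero_add, zero_sub, neg_eq_zero,
    MvPolynomial.C_eq_zero] at c0
  -- coefficient `1`
  have c1 := congrArg (PowerSeries.coeff 1) e1
  rw [map_sub, map_add, twD8_coeff_ZW_mul n i _ 0, PowerSeries.coeff_zero_C, PowerSeries.coeff_C_mul,
    twD8_coeff_S_lt n W i (by omega), mul_zero, PowerSeries.coeff_C, if_neg one_ne_zero, map_zero,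
    add_zero, sub_zero, mul_comm, MvPolynomial.C_mul_X_eq_monomial, MvPolynomial.monomial_eq_zero] at c1
  -- coefficient `3`
  have c3 := congrArg (PowerSeries.coeff 3) e1
  rw [map_sub, map_add, twD8_coeff_ZW_mul n i _ 2, PowerSeries.coeff_C, if_neg (by norm_num),
    mul_zero, PowerSeries.coeff_C_mul, twD8_coeff_S_three, PowerSeries.coeff_C, if_neg (by norm_num),
    map_zero, zero_add, sub_zero, MvPolynomial.C_mul_monomial, mul_one,
    MvPolynomial.monomial_eq_zero] at c3
  simp only [WeierstrassCurve.Δ, WeierstrassCurve.b₂, WeierstrassCurve.b₄, WeierstrassCurve.b₆,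
    WeierstrassCurve.b₈, c1, c3]
  linear_combination (-8 * W.a₂ ^ 2 * (4 * W.a₂ * W.a₆ - W.a₄ ^ 2) - 32 * W.a₄ ^ 3
    - 216 * W.a₆ ^ 2 + 144 * W.a₂ * W.a₄ * W.a₆) * c0

end field

theorem twD8_frac {A0 K B : Type} [CommRing A0] [IsDomain A0] [Field K] [Algebra A0 K]
    [IsFractionRing A0 K] [CommRing B] [IsDomain B] (m : A0 →+* B) (hm : Function.Injective m)
    {g : B} {a1 a2 b1 b2 : A0} (ha2 : a2 ≠ 0) (hb2 : b2 ≠ 0)
    (e : algebraMap A0 K a1 / algebraMap A0 K a2 = algebraMap A0 K b1 / algebraMap A0 K b2)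
    (h : m b1 = g * m b2) : m a1 = g * m a2 := by
  have hinj := IsFractionRing.injective A0 K
  have ha2' : algebraMap A0 K a2 ≠ 0 := fun h0 => ha2 (hinj (by rw [h0, map_zero]))
  have hb2' : algebraMap A0 K b2 ≠ 0 := fun h0 => hb2 (hinj (by rw [h0, map_zero]))
  rw [div_eq_div_iff ha2' hb2', ← map_mul, ← map_mul] at e
  have e1 := congrArg m (hinj e)
  rw [map_mul, map_mul, h] at e1
  have hmb : m b2 ≠ 0 := fun h0 => hb2 (hm (by rw [h0, map_zero]))
  apply mul_right_cancel₀ hmb
  rw [e1]
  ring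

/-- the `w`-adic valuation ring of `Frac k[z][[w]]` (from D6): constants are units, the formal points are not integral -/
theorem twD8_val (n : ℕ) (k : Type) [Field k] :
    ∃ (F : Type) (_ : Field F) (fF : k →+* F) (A : ValuationSubring (PSf n k)) (r : A →+* F),
      (∀ a : A, r a = 0 ↔ a ∈ IsLocalRing.maximalIdeal A) ∧
      (∀ c : k, ∃ h : algebraMap k (PSf n k) c ∈ A, r ⟨algebraMap k (PSf n k) c, h⟩ = fF c) ∧
      (∀ (W : WeierstrassCurve k) (i : Fin n), xhat n W i ∉ A) := by
  let R0 := MvPolynomial (Fin n) k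
  let k2 := FractionRing R0
  let m : PSr n k →+* PowerSeries k2 := PowerSeries.map (algebraMap R0 k2)
  have hm : Function.Injective m :=
    PowerSeries.map_injective _ (IsFractionRing.injective R0 k2)
  let ρ : PowerSeries k2 →+* k2 := PowerSeries.constantCoeff
  have hρ' : ∀ g : PowerSeries k2, ¬ IsUnit g → ρ g = 0 := by
    intro g hg
    by_contra h0
    exact hg (PowerSeries.isUnit_iff_constantCoeff.2 (isUnit_iff_ne_zero.2 h0))
  obtain ⟨A, r, hr, hA1, hA2⟩ := twD6_exists_val (K := PSf n k) m hm ρ hρ'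
  refine ⟨k2, inferInstance, algebraMap k k2, A, r, hr, ?_, ?_⟩
  · intro c
    obtain ⟨h1, h2⟩ := hA2 (algebraMap k (PSf n k) c) (m (algebraMap k (PSr n k) c))
      (algebraMap k (PSr n k) c) 1 one_ne_zero
      (by rw [map_one, div_one, ← IsScalarTower.algebraMap_apply]) (by rw [map_one, mul_one])
    refine ⟨h1, ?_⟩
    rw [h2]
    show PowerSeries.constantCoeff (PowerSeries.map (algebraMap R0 k2) (algebraMap k (PSr n k) c)) = _
    rw [PowerSeries.algebraMap_apply, PowerSeries.map_C, PowerSeries.constantCoeff_C,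
      ← IsScalarTower.algebraMap_apply]
  · intro W i hmem
    obtain ⟨g, b1, b2, hb2, hx, hg⟩ := hA1 _ hmem
    have h1 : m (psZW n k i) = g * m (psSubstFun n k i (wser W)) :=
      twD8_frac (K := PSf n k) m hm (twD8_S_ne_zero n W i) hb2 hx hg
    have h2 := congrArg (PowerSeries.coeff 1) h1
    have h3 : PowerSeries.coeff 1 (g * m (psSubstFun n k i (wser W))) = 0 := by
      rw [PowerSeries.coeff_mul]
      refine Finset.sum_eq_zero fun p hp => ?_
      have hp' : p.1 + p.2 = 1 := Finset.HasAntidiagonal.mem_antidiagonal.1 hp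
      have : PowerSeries.coeff p.2 (m (psSubstFun n k i (wser W))) = 0 := by
        show PowerSeries.coeff p.2 (PowerSeries.map (algebraMap R0 k2) _) = 0
        rw [PowerSeries.coeff_map, twD8_coeff_S_lt n W i (by omega), map_zero]
      rw [this, mul_zero]
    have h4 : PowerSeries.coeff 1 (m (psZW n k i)) = algebraMap R0 k2 (MvPolynomial.X i) := by
      show PowerSeries.coeff 1 (PowerSeries.map (algebraMap R0 k2) _) = _
      have := twD8_coeff_ZW_mul n i (1 : PSr n k) 0
      rw [mul_one, PowerSeries.coeff_zero_one, mul_one] at this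
      rw [PowerSeries.coeff_map, this]
    rw [h3, h4] at h2
    exact MvPolynomial.X_ne_zero i (IsFractionRing.injective R0 k2 (by rw [h2, map_zero]))

section core

variable {k K F : Type} [Field k] [Field K] [Field F] (fK : k →+* K) (fF : k →+* F)
  (W : WeierstrassCurve k) (A : ValuationSubring K) (r : A →+* F)

theorem twD8_redCurve (hc : ∀ c : k, ∃ h : fK c ∈ A, r ⟨fK c, h⟩ = fF c) :
    RedCurveA A r (W.map fK) (W.map fF) := by
  have hc' : ∀ c : k, fK c ∈ A ∧ resA A r (fK c) = fF c := by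
    intro c
    obtain ⟨h1, h2⟩ := hc c
    exact ⟨h1, by rw [twD6_resA_of_mem A r h1, h2]⟩
  exact ⟨hc' _, hc' _, hc' _, hc' _, hc' _⟩

theorem twD8_red_const (hc : ∀ c : k, ∃ h : fK c ∈ A, r ⟨fK c, h⟩ = fF c)
    {P : W.toAffine.Point} {P' : (W.map fK).toAffine.Point} (hP' : PtMap fK P P') :
    RedPtA A r P' (ptHom fF W P) := by
  have hc' : ∀ c : k, fK c ∈ A ∧ resA A r (fK c) = fF c := by
    intro c
    obtain ⟨h1, h2⟩ := hc c
    exact ⟨h1, by rw [twD6_resA_of_mem A r h1, h2]⟩
  have hP2 := ptHom_spec fF W P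
  generalize ptHom fF W P = P2 at hP2
  rcases P with _ | ⟨a, b', hab⟩ <;> rcases P' with _ | ⟨a1, b1, hab1⟩ <;>
    rcases P2 with _ | ⟨a2, b2, hab2⟩
  · trivial
  · exact hP2.elim
  · exact hP'.elim
  · exact hP'.elim
  · exact hP'.elim
  · exact hP'.elim
  · exact hP2.elim
  · obtain ⟨rfl, rfl⟩ := hP'
    obtain ⟨rfl, rfl⟩ := hP2
    exact ⟨(hc' a).1, (hc' b').1, (hc' a).2, (hc' b').2⟩

/-- a constant point which is the sum of two points reducing to the origin is the origin -/
theorem twD8_core (hc : ∀ c : k, ∃ h : fK c ∈ A, r ⟨fK c, h⟩ = fF c)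
    {T T' c : (W.map fK).toAffine.Point} {c₀ : W.toAffine.Point} (hc₀ : PtMap fK c₀ c)
    (hT : RedPtA A r T (0 : (W.map fF).toAffine.Point))
    (hT' : RedPtA A r T' (0 : (W.map fF).toAffine.Point)) (h : T + T' = c) : c = 0 := by
  have h1 := RedPtA.add_D (twD8_redCurve fK fF W A r hc) hT hT'
  rw [h] at h1
  have h2 := RedPtA.unique (twD8_red_const fK fF W A r hc hc₀) h1
  have h3 : c₀ = 0 := ptHom_injective fF W (by rw [h2, map_zero])
  subst h3
  exact PtMap.unique fK hc₀ (PtMap.zero fK)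

end core

section D8

variable {k : Type} [Field k] (W : WeierstrassCurve k) (hΔ : W.Δ ≠ 0) (n : ℕ)

theorem formal_ne_const (i : Fin n) (T c : (W.map (algebraMap k (PSf n k))).toAffine.Point)
    (c₀ : W.toAffine.Point) (hc : PtMap (algebraMap k (PSf n k)) c₀ c)
    (hT : ∃ h, T = .some (xhat n W i) (yhat n W i) h) : T ≠ c := by
  obtain ⟨F, _, fF, A, r, -, hcst, hx⟩ := twD8_val n k
  obtain ⟨hns, rfl⟩ := hT
  intro h
  have h0 := twD8_core (algebraMap k (PSf n k)) fF W A r hcst hc
    (T := .some (xhat n W i) (yhat n W i) hns) (T' := 0) (hx W i) trivial (by rw [add_zero, h])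
  rw [h0] at h
  exact Affine.Point.some_ne_zero _ h

theorem formal_sub_const (i j : Fin n) (T T' c : (W.map (algebraMap k (PSf n k))).toAffine.Point)
    (c₀ : W.toAffine.Point) (hc : PtMap (algebraMap k (PSf n k)) c₀ c)
    (hT : ∃ h, T = .some (xhat n W i) (yhat n W i) h)
    (hT' : ∃ h, T' = .some (xhat n W j) (yhat n W j) h) (h : T - T' = c) : i = j := by
  obtain ⟨F, _, fF, A, r, -, hcst, hx⟩ := twD8_val n k
  obtain ⟨hns, rfl⟩ := hT
  obtain ⟨hns', rfl⟩ := hT'
  have h0 := twD8_core (algebraMap k (PSf n k)) fF W A r hcst hc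
    (T := .some (xhat n W i) (yhat n W i) hns) (T' := -.some (xhat n W j) (yhat n W j) hns')
    (hx W i) (by rw [Affine.Point.neg_some]; exact hx W j) (by rw [← sub_eq_add_neg, h])
  rw [h0, sub_eq_zero, Affine.Point.some.injEq] at h
  exact twD8_xhat_inj n W h.1

theorem formal_add_ne_const (hΔ : W.Δ ≠ 0) (i j : Fin n)
    (T T' c : (W.map (algebraMap k (PSf n k))).toAffine.Point)
    (c₀ : W.toAffine.Point) (hc : PtMap (algebraMap k (PSf n k)) c₀ c)
    (hT : ∃ h, T = .some (xhat n W i) (yhat n W i) h)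
    (hT' : ∃ h, T' = .some (xhat n W j) (yhat n W j) h) : T + T' ≠ c := by
  obtain ⟨F, _, fF, A, r, -, hcst, hx⟩ := twD8_val n k
  obtain ⟨hns, rfl⟩ := hT
  obtain ⟨hns', rfl⟩ := hT'
  intro h
  have h0 := twD8_core (algebraMap k (PSf n k)) fF W A r hcst hc
    (T := .some (xhat n W i) (yhat n W i) hns) (T' := .some (xhat n W j) (yhat n W j) hns')
    (hx W i) (hx W j) h
  rw [h0, add_eq_zero_iff_eq_neg, Affine.Point.neg_some, Affine.Point.some.injEq] at h
  have hij := twD8_xhat_inj n W h.1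
  subst hij
  exact twD8_not_two_torsion n W hΔ i h.2

end D8

section res

variable {K k : Type} [Field K] [Field k] {v : Valuation K ℚᵐ⁰} (r : ResMap v k)

theorem twD8_res_of_le {a : K} (ha : v a ≤ 1) :
    r.res a = r.toHom ⟨a, (Valuation.mem_valuationSubring_iff v a).2 ha⟩ := by
  unfold ResMap.res
  rw [dif_pos ha]

theorem twD8_res_mul {a b : K} (ha : v a ≤ 1) (hb : v b ≤ 1) :
    r.res (a * b) = r.res a * r.res b := by
  have hab : v (a * b) ≤ 1 := by
    rw [map_mul]
    exact mul_le_one' ha hb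
  rw [twD8_res_of_le r ha, twD8_res_of_le r hb, twD8_res_of_le r hab, ← map_mul]
  rfl

theorem twD8_res_div {a b : K} (ha : v a ≤ 1) (hb : v b ≤ 1) (h : r.res b ≠ 0) :
    v (a / b) ≤ 1 ∧ r.res (a / b) = r.res a / r.res b := by
  have hb1 : v b = 1 := by
    refine le_antisymm hb (not_lt.1 fun hlt => h ?_)
    rw [twD8_res_of_le r hb]
    exact (r.ker _).2 hlt
  have hb0 : b ≠ 0 := by
    rintro rfl
    rw [map_zero] at hb1
    exact zero_ne_one hb1
  have hab : v (a / b) ≤ 1 := by
    rw [map_div₀, hb1, div_one]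
    exact ha
  refine ⟨hab, ?_⟩
  rw [eq_div_iff h, ← twD8_res_mul r hab hb, div_mul_cancel₀ _ hb0]

end res

/-- D8b: the formal point over `O_c` reduces to the formal point over the residue field -/
theorem formal_red {Kc k : Type} [Field Kc] [Field k] (vc : Valuation Kc ℚᵐ⁰) (rc : ResMap vc k) (n : ℕ)
    (v1 : Valuation (PSf n vc.valuationSubring) ℚᵐ⁰) (r1 : ResMap v1 (PSf n k))
    (h1 : ∀ f : PSr n vc.valuationSubring, v1 (algebraMap _ _ f) ≤ 1 ∧
        r1.res (algebraMap _ _ f) = algebraMap _ _ (psMap n rc.toHom f))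
    (W : WeierstrassCurve vc.valuationSubring) (i : Fin n) :
    v1 (xhat n W i) ≤ 1 ∧ v1 (yhat n W i) ≤ 1 ∧ r1.res (xhat n W i) = xhat n (W.map rc.toHom) i ∧
      r1.res (yhat n W i) = yhat n (W.map rc.toHom) i := by
  have hS := h1 (psSubstFun n _ i (wser W))
  rw [twD8_psMap_subst, wser_map] at hS
  have hZ := h1 (psZW n _ i)
  rw [twD8_psMap_ZW] at hZ
  have hO := h1 (-1)
  have e1 : algebraMap (PSr n vc.valuationSubring) (PSf n vc.valuationSubring) (-1) = -1 := by
    rw [map_neg, map_one]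
  have e2 : algebraMap (PSr n k) (PSf n k) (psMap n rc.toHom (-1)) = -1 := by
    rw [map_neg, map_one, map_neg, map_one]
  rw [e1, e2] at hO
  have hS0 : r1.res (algebraMap _ _ (psSubstFun n _ i (wser W))) ≠ 0 := by
    rw [hS.2]
    exact twD8_algS_ne_zero n _ i
  obtain ⟨a1, a2⟩ := twD8_res_div r1 hZ.1 hS.1 hS0
  obtain ⟨b1, b2⟩ := twD8_res_div r1 hO.1 hS.1 hS0
  refine ⟨a1, b1, ?_, ?_⟩
  · unfold xhat
    rw [a2, hZ.2, hS.2]
  · unfold yhat
    rw [b2, hO.2, hS.2]

end Claimed.Agent.R280
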