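import Claimed.Agent.R280.Tw.DiscDefs

/-!
# Row 280, leaf TW-D9 (~300 lines): `#F0 = 𝔠`  (contains `κ[[w]]`; is contained in a fraction field of a ring of cardinality `𝔠`)
-/

set_option autoImplicit false

namespace Claimed.Agent.R280

open WithZero WeierstrassCurve Cardinal
open scoped Classical

theorem twD9_mk_powerSeries (A : Type) : #(PowerSeries A) = #A ^ ℵ₀ := by
  have h : #(Unit →₀ ℕ) = ℵ₀ := by
    have e : (Unit →₀ ℕ) ≃ ℕ := (Finsupp.uniqueLinearEquiv ℕ ℕ ()).toEquiv
    rw [Cardinal.mk_congr e, Cardinal.mk_nat]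
  change #((Unit →₀ ℕ) → A) = _
  rw [← Cardinal.power_def, h]

theorem twD9_mk_kap (p : ℕ) [Fact p.Prime] : #(Kap p) ≤ ℵ₀ := by
  have h := Algebra.IsAlgebraic.cardinalMk_le_max (ZMod p) (Kap p)
  refine h.trans (max_le ?_ le_rfl)
  exact (Cardinal.lt_aleph0_of_finite _).le

theorem twD9_mk_PSf (p : ℕ) [Fact p.Prime] (n : ℕ) : #(PSf n (Kap p)) = 𝔠 := by
  rw [IsFractionRing.cardinalMk (R := PSr n (Kap p)) (PSf n (Kap p)), twD9_mk_powerSeries]
  refine Cardinal.power_aleph0_of_le_continuum ?_ ?_
  · exact Cardinal.two_le_iff_one_lt.2 (Cardinal.one_lt_iff_nontrivial.2 inferInstance)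
  · refine (MvPolynomial.cardinalMk_le_max).trans ?_
    refine max_le (max_le ((twD9_mk_kap p).trans Cardinal.aleph0_le_continuum) ?_) Cardinal.aleph0_le_continuum
    exact (Cardinal.lt_aleph0_of_finite _).le.trans Cardinal.aleph0_le_continuum

theorem card_fix (p : ℕ) [Fact p.Prime] (n : ℕ) (hn : 0 < n) :
    #(fixF (psShift n (Kap p))) = 𝔠 := by
  apply le_antisymm
  · rw [← twD9_mk_PSf p n]
    exact Cardinal.mk_subtype_le _
  · have h1 : #(PowerSeries (Kap p)) = 𝔠 := by
      rw [twD9_mk_powerSeries]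
      refine Cardinal.power_aleph0_of_le_continuum ?_ ((twD9_mk_kap p).trans Cardinal.aleph0_le_continuum)
      exact Cardinal.two_le_iff_one_lt.2 (Cardinal.one_lt_iff_nontrivial.2 inferInstance)
    rw [← h1]
    let φ : PowerSeries (Kap p) → fixF (psShift n (Kap p)) := fun f =>
      ⟨algebraMap (PSr n (Kap p)) (PSf n (Kap p)) (PowerSeries.map MvPolynomial.C f), by
        change psShift n (Kap p) _ = _
        unfold psShift
        rw [IsFractionRing.ringEquivOfRingEquiv_algebraMap]
        congr 1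
        ext j : 1
        simp [psPerm]⟩
    refine Cardinal.mk_le_of_injective (f := φ) ?_
    intro f g h
    have h2 := congrArg Subtype.val h
    have h3 := IsFractionRing.injective (PSr n (Kap p)) (PSf n (Kap p)) h2
    ext j
    have h4 := congrArg (PowerSeries.coeff j) h3
    simp only [PowerSeries.coeff_map] at h4
    exact MvPolynomial.C_injective _ _ h4

end Claimed.Agent.R280
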