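import Claimed.Agent.R280.Tw.D0
import Claimed.Agent.R280.Tw.D2
import Claimed.Agent.R280.Tw.D6
import Claimed.Agent.R280.Tw.D7
import Claimed.Agent.R280.Tw.D8
import Claimed.Agent.R280.Tw.D9
import Claimed.Agent.R280.Tw.Red

/-!
# Row 280, glue TW-D10a: the residue side of A1, `discRes : ResSide p`
`F = fixF (psShift n κ)`, `S = PSf n κ`, `W0 = W` (constant), `Qb = P` (constant point of order `n`), `db j = j • P`, `t i = That(z_i w) - i • P`, `pd = n + 1`, `u = 0`.
The structure term is complete; the remaining sorries are small (each ≤ 80 lines, plan next to it).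
-/

set_option autoImplicit false

namespace Claimed.Agent.R280

open WithZero WeierstrassCurve Cardinal
open scoped Classical

section Const

variable (n : ℕ) (R : Type) [CommRing R] [IsDomain R]

theorem psShift_algebraMap (f : PSr n R) :
    psShift n R (algebraMap (PSr n R) (PSf n R) f)
      = algebraMap (PSr n R) (PSf n R) (psPerm n R (finRotate n) f) := by
  unfold psShift
  exact IsFractionRing.ringEquivOfRingEquiv_algebraMap _ _

theorem algebraMap_psr (c : R) :
    algebraMap R (PSr n R) c = PowerSeries.C (MvPolynomial.C c) := by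
  rw [PowerSeries.algebraMap_apply]; rfl

theorem psShift_const (c : R) :
    psShift n R (algebraMap R (PSf n R) c) = algebraMap R (PSf n R) c := by
  rw [IsScalarTower.algebraMap_apply R (PSr n R) (PSf n R), psShift_algebraMap, algebraMap_psr]
  congr 1
  simp [psPerm]

/-- constants -/
noncomputable def constFix : R →+* fixF (psShift n R) :=
  (algebraMap R (PSf n R)).codRestrict (fixF (psShift n R)) (psShift_const n R)

theorem algebraMap_psf_injective : Function.Injective (algebraMap R (PSf n R)) := by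
  rw [IsScalarTower.algebraMap_eq R (PSr n R) (PSf n R)]
  refine (IsFractionRing.injective (PSr n R) (PSf n R)).comp ?_
  intro a b h
  have h' : algebraMap R (PSr n R) a = algebraMap R (PSr n R) b := h
  rw [algebraMap_psr, algebraMap_psr] at h'
  exact MvPolynomial.C_injective _ _ (PowerSeries.C_injective h')

theorem constFix_injective : Function.Injective (constFix n R) := fun a b h =>
  algebraMap_psf_injective n R (congrArg Subtype.val h)

/-- the shift maps `W.map (algebraMap R S)` to itself -/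
theorem map_shift_eq (W : WeierstrassCurve R) :
    W.map (algebraMap R (PSf n R))
      = (W.map (algebraMap R (PSf n R))).map (psShift n R).toRingHom := by
  rw [WeierstrassCurve.map_map]
  congr 1
  ext c
  exact (psShift_const n R c).symm

end Const

section Grp

variable {G : Type} [AddCommGroup G] {n : ℕ}

/-- `∃ j < n, j • Q = k • Q` -/
theorem exists_fin_smul (hn : 0 < n) {Q : G} (hQ : n • Q = 0) (k : ℤ) :
    ∃ j : Fin n, (j : ℕ) • Q = k • Q := by
  have hn' : (0 : ℤ) < n := by exact_mod_cast hn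
  have h0 := Int.emod_nonneg k hn'.ne'
  refine ⟨⟨(k % n).toNat, ?_⟩, ?_⟩
  · have := Int.emod_lt_of_pos k hn'
    omega
  · show (k % n).toNat • Q = k • Q
    rw [← natCast_zsmul, Int.toNat_of_nonneg h0]
    conv_rhs => rw [← Int.emod_add_mul_ediv k n, add_zsmul, mul_comm, mul_zsmul, natCast_zsmul, hQ,
      smul_zero, add_zero]

theorem exists_fin_neg (hn : 0 < n) {Q : G} (hQ : n • Q = 0) (j : Fin n) :
    ∃ j' : Fin n, (j' : ℕ) • Q = - ((j : ℕ) • Q) := by
  obtain ⟨j', hj'⟩ := exists_fin_smul hn hQ (-((j : ℕ) : ℤ))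
  exact ⟨j', by rw [hj', neg_zsmul, natCast_zsmul]⟩

theorem exists_fin_stable (hn : 0 < n) {Q : G} (hQ : n • Q = 0) (f : G →+ G) (hf : f Q = Q)
    (j : Fin n) : ∃ j' : Fin n, (j' : ℕ) • Q = f ((j : ℕ) • Q) - Q := by
  obtain ⟨j', hj'⟩ := exists_fin_smul hn hQ (((j : ℕ) : ℤ) - 1)
  exact ⟨j', by rw [map_nsmul, hf, hj', _root_.sub_zsmul, natCast_zsmul, one_zsmul, sub_eq_add_neg]⟩

theorem finRotate_val_smul {Q : G} (hQ : n • Q = 0) (i : Fin n) :
    ((finRotate n i : Fin n) : ℕ) • Q = ((i : ℕ) + 1) • Q := by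
  obtain _ | m := n
  · exact i.elim0
  · rw [finRotate_apply, Fin.val_add_one]
    split_ifs with h
    · rw [h, Fin.val_last, hQ, zero_smul]
    · rfl

end Grp

section Artin

variable {K : Type} [Field K] (σ : K ≃+* K) (n : ℕ) (hn : 0 < n) (hσ : orderOf σ = n)

/-- the generator of `Gal(K/fixF σ)` -/
noncomputable def shAlg : K ≃ₐ[fixF σ] K := (fix_galois σ n hn hσ).2.2.2.choose

theorem shAlg_apply (a : K) : shAlg σ n hn hσ a = σ a :=
  (fix_galois σ n hn hσ).2.2.2.choose_spec.1 a

theorem shAlg_gen (τ : K ≃ₐ[fixF σ] K) : τ ∈ Subgroup.zpowers (shAlg σ n hn hσ) :=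
  (fix_galois σ n hn hσ).2.2.2.choose_spec.2 τ

theorem ptMap_shAlg (W₀ : WeierstrassCurve (fixF σ)) (Q : (W₀.baseChange K).toAffine.Point) :
    PtMap σ.toRingHom Q (Affine.Point.map (W' := W₀.toAffine) (shAlg σ n hn hσ).toAlgHom Q) := by
  have h1 := ptMap_pointMap W₀ (shAlg σ n hn hσ).toAlgHom Q
  have h2 : (((shAlg σ n hn hσ).toAlgHom : K →ₐ[fixF σ] K) : K →+* K) = σ.toRingHom := by
    ext a; exact shAlg_apply σ n hn hσ a
  rwa [h2] at h1

/-- bridge between Mathlib's `Affine.Point.map` for the generator of `Gal(K/fixF σ)` and `PtMap σ` -/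
theorem map_shAlg_eq (W₀ : WeierstrassCurve (fixF σ)) {Q Q' : (W₀.baseChange K).toAffine.Point}
    (h : PtMap σ.toRingHom Q Q') :
    Affine.Point.map (W' := W₀.toAffine) (shAlg σ n hn hσ).toAlgHom Q = Q' :=
  PtMap.unique _ (ptMap_shAlg σ n hn hσ W₀ Q) h

end Artin

section Formal

variable (n : ℕ) {R : Type} [CommRing R] [IsDomain R] (W : WeierstrassCurve R) (hΔ : W.Δ ≠ 0)

/-- the formal point `That (z_i w)` -/
noncomputable def fPt (i : Fin n) : (W.map (algebraMap R (PSf n R))).toAffine.Point :=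
  .some (xhat n W i) (yhat n W i) (Affine.equation_iff_nonsingular_of_Δ_ne_zero (by
    rw [WeierstrassCurve.map_Δ]
    exact fun h => hΔ (algebraMap_psf_injective n R (by rw [h, map_zero]))) |>.1
      (formal_point n W i))

theorem shift_fPt (i : Fin n) :
    PtMap (psShift n R).toRingHom (fPt n W hΔ i) (fPt n W hΔ (finRotate n i)) :=
  ⟨(psShift_xhat n W i).1, (psShift_xhat n W i).2⟩

/-- the labels: `That (z_i w) - i • c` -/
noncomputable def lab (c : (W.map (algebraMap R (PSf n R))).toAffine.Point) (i : Fin n) :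
    (W.map (algebraMap R (PSf n R))).toAffine.Point := fPt n W hΔ i - (i : ℕ) • c

theorem lab_shift {c : (W.map (algebraMap R (PSf n R))).toAffine.Point}
    (hc : PtMap (psShift n R).toRingHom c c) (hn : n • c = 0) (i : Fin n) :
    PtMap (psShift n R).toRingHom (lab n W hΔ c i) (lab n W hΔ c (finRotate n i) + c) := by
  have h1 := (shift_fPt n W hΔ i).sub' _ (map_shift_eq n R W) (hc.nsmul' _ (map_shift_eq n R W) i)
  have h2 : lab n W hΔ c (finRotate n i) + c = fPt n W hΔ (finRotate n i) - (i : ℕ) • c := by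
    unfold lab
    rw [finRotate_val_smul hn, succ_nsmul]; abel
  rw [h2]; exact h1

end Formal

section Res2

variable (p : ℕ) [Fact p.Prime] (n : ℕ) (hn : 0 < n) (W : WeierstrassCurve (Kap p))
  (hΔ : W.Δ ≠ 0) (P : W.toAffine.Point) (hP : addOrderOf P = n)

instance : CharP (PSf n (Kap p)) p :=
  charP_of_injective_algebraMap (algebraMap_psf_injective n (Kap p)) p

instance : CharP (fixF (psShift n (Kap p))) p :=
  charP_of_injective_ringHom (constFix_injective n (Kap p)) p

/-- the constant point -/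
noncomputable abbrev cPt {R : Type} [Field R] (n : ℕ) (W : WeierstrassCurve R) (P : W.toAffine.Point) :
    (W.map (algebraMap R (PSf n R))).toAffine.Point := ptHom (algebraMap R (PSf n R)) W P

/-- constant points are fixed by the shift -/
theorem shift_of_const {R k : Type} [CommRing R] [IsDomain R] [Field k] (n : ℕ)
    (f : k →+* PSf n R) (hf : ∀ a, psShift n R (f a) = f a) {W : WeierstrassCurve k}
    {W' : WeierstrassCurve (PSf n R)} {P : W.toAffine.Point} {c : W'.toAffine.Point}
    (h : PtMap f P c) : PtMap (psShift n R).toRingHom c c := by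
  rcases P with _ | ⟨a, b, hab⟩ <;> rcases c with _ | ⟨a', b', hab'⟩
  · trivial
  · exact h.elim
  · exact h.elim
  · obtain ⟨rfl, rfl⟩ := h
    exact ⟨hf a, hf b⟩

theorem shift_cPt {k : Type} [Field k] (n : ℕ) (W : WeierstrassCurve k) (P : W.toAffine.Point) :
    PtMap (psShift n k).toRingHom (cPt n W P) (cPt n W P) :=
  shift_of_const n _ (psShift_const n k) (ptHom_spec _ W P)

include hP in
theorem cPt_tors : n • cPt n W P = 0 := by
  rw [← map_nsmul, ← hP, addOrderOf_nsmul_eq_zero, map_zero]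

include hP in
theorem cPt_order : addOrderOf (cPt n W P) = n := by
  rw [addOrderOf_injective _ (ptHom_injective _ W), hP]

/-- a multiple of the constant point is a constant point -/
theorem cPt_zsmul (j : ℤ) : PtMap (algebraMap (Kap p) (PSf n (Kap p))) (j • P) (j • cPt n W P) :=
  (ptHom_spec _ W P).zsmul _ j

theorem tPt_inj : Function.Injective (lab n W hΔ (cPt n W P)) := by
  intro i j h
  unfold lab at h
  have h1 : fPt n W hΔ i - fPt n W hΔ j = (((i : ℕ) : ℤ) - ((j : ℕ) : ℤ)) • cPt n W P := by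
    rw [_root_.sub_zsmul, natCast_zsmul, natCast_zsmul, ← sub_eq_add_neg]
    have := sub_eq_sub_iff_add_eq_add.1 h
    rw [sub_eq_sub_iff_add_eq_add, this, add_comm]
  exact formal_sub_const W n i j _ _ _ _ (cPt_zsmul p n W P _) ⟨_, rfl⟩ ⟨_, rfl⟩ h1

theorem tPt_neg (i j : Fin n) : lab n W hΔ (cPt n W P) i ≠ - lab n W hΔ (cPt n W P) j := by
  intro h
  unfold lab at h
  have h1 : fPt n W hΔ i + fPt n W hΔ j = (((i : ℕ) : ℤ) + ((j : ℕ) : ℤ)) • cPt n W P := by
    rw [add_zsmul, natCast_zsmul, natCast_zsmul]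
    have h2 := sub_eq_iff_eq_add.1 h
    rw [h2]; abel
  exact formal_add_ne_const W n hΔ i j _ _ _ _ (cPt_zsmul p n W P _) ⟨_, rfl⟩ ⟨_, rfl⟩ h1

theorem tPt_d (i j : Fin n) : lab n W hΔ (cPt n W P) i ≠ (j : ℕ) • cPt n W P := by
  intro h
  unfold lab at h
  have h1 : fPt n W hΔ i = (((i : ℕ) : ℤ) + ((j : ℕ) : ℤ)) • cPt n W P := by
    rw [add_zsmul, natCast_zsmul, natCast_zsmul, ← h]; abel
  exact formal_ne_const W n i _ _ _ (cPt_zsmul p n W P _) ⟨_, rfl⟩ h1

/-! ### helpers for `rank_tPt` (prefix `d10r_`) -/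

/-- the field of constants of a derivation -/
def d10rKer {S : Type} [Field S] (θ : Der S) : Subfield S where
  carrier := {a | θ a = 0}
  mul_mem' := by
    intro a b (ha : θ a = 0) (hb : θ b = 0)
    show θ (a * b) = 0
    rw [Derivation.leibniz, ha, hb, smul_zero, smul_zero, add_zero]
  one_mem' := θ.map_one_eq_zero
  add_mem' := by
    intro a b (ha : θ a = 0) (hb : θ b = 0)
    show θ (a + b) = 0
    rw [map_add, ha, hb, add_zero]
  zero_mem' := map_zero θ
  neg_mem' := by
    intro a (ha : θ a = 0)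
    show θ (-a) = 0
    rw [map_neg, ha, neg_zero]
  inv_mem' := by
    intro a (ha : θ a = 0)
    show θ a⁻¹ = 0
    rw [Derivation.leibniz_inv, ha, smul_zero]

theorem d10r_mem_ker {S : Type} [Field S] (θ : Der S) (a : S) : a ∈ d10rKer θ ↔ θ a = 0 := Iff.rfl

theorem d10r_ptX_mem {k k' : Type} [Field k] [Field k'] (f : k →+* k') {W : WeierstrassCurve k}
    {W' : WeierstrassCurve k'} {P : W.toAffine.Point} {P' : W'.toAffine.Point}
    (h : PtMap f P P') : ∃ a, f a = ptX P' := by
  rcases P with _ | ⟨a, b, hab⟩ <;> rcases P' with _ | ⟨a', b', hab'⟩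
  · exact ⟨0, map_zero f⟩
  · exact h.elim
  · exact h.elim
  · exact ⟨a, h.1⟩

theorem d10r_exists_some {k k' : Type} [Field k] [Field k'] (f : k →+* k')
    {W : WeierstrassCurve k} {W' : WeierstrassCurve k'} (hW : W' = W.map f) (a b : k)
    (h : W'.toAffine.Nonsingular (f a) (f b)) :
    ∃ P : W.toAffine.Point, PtMap f P (.some (f a) (f b) h : W'.toAffine.Point) := by
  subst hW
  exact ⟨.some a b ((W.toAffine.map_nonsingular f.injective a b).mp h), rfl, rfl⟩

theorem d10r_psZW (n : ℕ) (R : Type) [CommRing R] (i : Fin n) :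
    psZW n R i = psSubstFun n R i PowerSeries.X := by
  ext j : 1
  unfold psZW psSubstFun
  rw [PowerSeries.coeff_mk, PowerSeries.coeff_C_mul, PowerSeries.coeff_X, PowerSeries.coeff_X]
  split_ifs with h
  · subst h
    rw [mul_one]
    rfl
  · rw [mul_zero, map_zero]

theorem d10r_subst_C (n : ℕ) (R : Type) [CommRing R] (i : Fin n) (a : R) :
    psSubstFun n R i (PowerSeries.C a) = PowerSeries.C (MvPolynomial.C a) := by
  ext j : 1
  unfold psSubstFun
  rw [PowerSeries.coeff_mk, PowerSeries.coeff_C, PowerSeries.coeff_C]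
  split_ifs with h
  · subst h
    rw [Finsupp.single_zero]
    rfl
  · rw [map_zero]

theorem d10r_subst_zero (n : ℕ) (R : Type) [CommRing R] (i : Fin n) :
    psSubstFun n R i 0 = 0 := by
  have h := d10r_subst_C n R i 0
  rwa [map_zero, map_zero, map_zero] at h

theorem d10r_subst_one (n : ℕ) (R : Type) [CommRing R] (i : Fin n) :
    psSubstFun n R i 1 = 1 := by
  have h := d10r_subst_C n R i 1
  rwa [map_one, map_one, map_one] at h

/-- a diagonal matrix with non-zero diagonal: the evaluation map is onto -/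
theorem d10r_surj {S : Type} [Field S] {ι : Type} [Fintype ι] (x : ι → S) (θ : ι → Der S)
    (hd : ∀ k, θ k (x k) ≠ 0) (ho : ∀ k i, i ≠ k → θ k (x i) = 0) :
    Function.Surjective ((LinearMap.pi fun i : ι =>
      ({ toFun := fun θ : Der S => θ (x i)
         map_add' := fun _ _ => rfl
         map_smul' := fun _ _ => rfl } : Der S →ₗ[S] S)) : Der S →ₗ[S] (ι → S)) := by
  intro y
  refine ⟨∑ k, (y k / θ k (x k)) • θ k, ?_⟩
  rw [map_sum]
  funext i
  rw [Finset.sum_apply, Finset.sum_eq_single i]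
  · rw [map_smul, Pi.smul_apply]
    show (y i / θ i (x i)) • θ i (x i) = y i
    rw [smul_eq_mul, div_mul_cancel₀ _ (hd i)]
  · intro k _ hk
    rw [map_smul, Pi.smul_apply]
    show (y k / θ k (x k)) • θ k (x i) = 0
    rw [ho k i (Ne.symm hk), smul_zero]
  · intro h
    exact absurd (Finset.mem_univ i) h

/-- a derivation that kills the constants and the coordinates of `That (z_i w)` kills the `x`-coordinate of the label -/
theorem d10r_off (θ : Der (PSf n (Kap p)))
    (hc : ∀ a : Kap p, θ (algebraMap (Kap p) (PSf n (Kap p)) a) = 0) (i : Fin n)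
    (hx : θ (xhat n W i) = 0) (hy : θ (yhat n W i) = 0) :
    θ (ptX (lab n W hΔ (cPt n W P) i)) = 0 := by
  let f₀ : Kap p →+* d10rKer θ :=
    (algebraMap (Kap p) (PSf n (Kap p))).codRestrict (d10rKer θ) hc
  have hf : (d10rKer θ).subtype.comp f₀ = algebraMap (Kap p) (PSf n (Kap p)) := by
    ext a; rfl
  have hW : W.map (algebraMap (Kap p) (PSf n (Kap p))) = (W.map f₀).map (d10rKer θ).subtype := by
    rw [WeierstrassCurve.map_map, hf]
  obtain ⟨Q1, hQ1⟩ : ∃ Q1 : (W.map f₀).toAffine.Point,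
      PtMap (d10rKer θ).subtype Q1 (fPt n W hΔ i) :=
    d10r_exists_some (d10rKer θ).subtype hW ⟨xhat n W i, hx⟩ ⟨yhat n W i, hy⟩ _
  obtain ⟨c1, hc1⟩ := PtMap.exists' (d10rKer θ).subtype hW (ptHom f₀ W P)
  have hc2 : c1 = cPt n W P := by
    have h1 := (ptHom_spec f₀ W P).comp f₀ (d10rKer θ).subtype hc1
    rw [hf] at h1
    exact PtMap.unique _ h1 (ptHom_spec _ W P)
  rw [hc2] at hc1
  have h3 := hQ1.sub' (d10rKer θ).subtype hW (hc1.nsmul' (d10rKer θ).subtype hW i)
  obtain ⟨a, ha⟩ := d10r_ptX_mem (d10rKer θ).subtype h3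
  unfold lab
  rw [← ha]
  exact a.2

/-- what `exists_partial` gives -/
def D10rPartial (n : ℕ) (k : Type) [Field k] (i : Fin n) (θ : Der (PSf n k)) : Prop :=
  ∀ (j : Fin n) (f : PowerSeries k),
    θ (algebraMap _ _ (psSubstFun n k j f)) =
      if j = i then algebraMap (PSr n k) (PSf n k)
        (PowerSeries.X * psSubstFun n k j (PowerSeries.derivative k f)) else 0

theorem d10r_const {k : Type} [Field k] {n : ℕ} {i : Fin n} {θ : Der (PSf n k)}
    (h : D10rPartial n k i θ) (a : k) : θ (algebraMap k (PSf n k) a) = 0 := by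
  rw [IsScalarTower.algebraMap_apply k (PSr n k) (PSf n k), algebraMap_psr, ← d10r_subst_C n k i a,
    h i, if_pos rfl, PowerSeries.derivative_C, d10r_subst_zero, mul_zero, map_zero]

theorem d10r_zw {k : Type} [Field k] {n : ℕ} {i : Fin n} {θ : Der (PSf n k)}
    (h : D10rPartial n k i θ) : θ (algebraMap _ _ (psZW n k i)) ≠ 0 := by
  rw [d10r_psZW, h i, if_pos rfl, PowerSeries.derivative_X, d10r_subst_one, mul_one]
  intro h0
  have h1 := (map_eq_zero_iff _ (IsFractionRing.injective (PSr n k) (PSf n k))).1 h0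
  exact PowerSeries.X_ne_zero h1

theorem d10r_xy {k : Type} [Field k] {n : ℕ} {i j : Fin n} {θ : Der (PSf n k)}
    (h : D10rPartial n k i θ) (hj : j ≠ i) (W : WeierstrassCurve k) :
    θ (xhat n W j) = 0 ∧ θ (yhat n W j) = 0 := by
  have h1 : ∀ f : PowerSeries k,
      algebraMap (PSr n k) (PSf n k) (psSubstFun n k j f) ∈ d10rKer θ := fun f => by
    rw [d10r_mem_ker, h j, if_neg hj]
  constructor
  · rw [← d10r_mem_ker]
    unfold xhat
    rw [d10r_psZW]
    exact div_mem (h1 _) (h1 _)
  · rw [← d10r_mem_ker]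
    unfold yhat
    exact div_mem (neg_mem (one_mem _)) (h1 _)

theorem d10r_diag {i : Fin n} {θ : Der (PSf n (Kap p))} (h : D10rPartial n (Kap p) i θ) :
    θ (ptX (lab n W hΔ (cPt n W P) i)) ≠ 0 := by
  refine partial_label_ne_zero p (Kap p) W hΔ n i ((-((i : ℕ) : ℤ)) • cPt n W P) (fPt n W hΔ i) _
    ((-((i : ℕ) : ℤ)) • P) (cPt_zsmul p n W P _) ⟨_, rfl⟩ ?_ θ (d10r_zw h) (d10r_const h)
  unfold lab
  rw [neg_zsmul, natCast_zsmul, sub_eq_add_neg]

/-- (~150 lines) the matrix `∂_k x(t_i)` is diagonal with non-zero diagonal: `exists_partial`, `partial_label_ne_zero` (diagonal),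
off the diagonal: `θ_k` kills `xhat i`, `yhat i` (quotients of `psSubstFun i _`) and the constants, hence the coordinates of
`t_i` (the points with coordinates in the subfield `ker θ_k` form a subgroup: `PtMap.add` for the inclusion). So the map is onto. -/
theorem rank_tPt (A : Finset (Fin n)) :
    A.card ≤ Module.finrank (PSf n (Kap p))
    (LinearMap.range ((LinearMap.pi fun i : A =>
      ({ toFun := fun θ : Der (PSf n (Kap p)) => θ (ptX (lab n W hΔ (cPt n W P) i.1))
         map_add' := fun _ _ => rfl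
         map_smul' := fun _ _ => rfl } : Der (PSf n (Kap p)) →ₗ[PSf n (Kap p)] PSf n (Kap p))) :
          Der (PSf n (Kap p)) →ₗ[PSf n (Kap p)] (A → PSf n (Kap p)))) + 0 := by
  choose θ hθ using fun k : Fin n => exists_partial (Kap p) n k
  have hθ' : ∀ k, D10rPartial n (Kap p) k (θ k) := hθ
  have hs := d10r_surj (fun i : A => ptX (lab n W hΔ (cPt n W P) i.1)) (fun k : A => θ k.1)
    (fun k => d10r_diag p n W hΔ P (hθ' k.1))
    (fun k i hik => by
      have hik' : i.1 ≠ k.1 := fun e => hik (Subtype.ext e)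
      obtain ⟨hx, hy⟩ := d10r_xy (hθ' k.1) hik' W
      exact d10r_off p n W hΔ P (θ k.1) (d10r_const (hθ' k.1)) i.1 hx hy)
  rw [add_zero, LinearMap.range_eq_top.2 hs, finrank_top, Module.finrank_fintype_fun_eq_card,
    Fintype.card_coe]

theorem exists_pow_constFix (c : Kap p) :
    ∃ c' : fixF (psShift n (Kap p)), c' ^ p = constFix n (Kap p) c := by
  obtain ⟨d, hd⟩ := IsAlgClosed.exists_pow_nat_eq c (Fact.out : p.Prime).pos
  exact ⟨constFix n (Kap p) d, by rw [← map_pow, hd]⟩

/-- **the residue side of A1** -/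
noncomputable def discRes : ResSide p where
  F := fixF (psShift n (Kap p))
  S := PSf n (Kap p)
  infF := Cardinal.infinite_iff.2 (by rw [card_fix p n hn]; exact aleph0_le_continuum)
  finS := (fix_galois (psShift n (Kap p)) n hn (psShift_orderOf n hn _)).1
  galS := (fix_galois (psShift n (Kap p)) n hn (psShift_orderOf n hn _)).2.1
  σb := shAlg (psShift n (Kap p)) n hn (psShift_orderOf n hn _)
  W0 := W.map (constFix n (Kap p))
  hΔ := by rw [WeierstrassCurve.map_Δ]; exact (map_ne_zero _).2 hΔ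
  Qb := cPt n W P
  σb_gen := shAlg_gen _ n hn _
  Qb_fix := map_shAlg_eq _ n hn _ (W.map (constFix n (Kap p))) (shift_cPt n W P)
  Qb_tors := by
    rw [(fix_galois (psShift n (Kap p)) n hn (psShift_orderOf n hn _)).2.2.1]
    exact cPt_tors p n W P hP
  Dn := Fin n
  db := fun j => (j : ℕ) • cPt n W P
  db_inj := by
    intro i j h
    have := nsmul_injOn_Iio_addOrderOf (x := cPt n W P)
      (by rw [cPt_order p n W P hP]; exact i.2) (by rw [cPt_order p n W P hP]; exact j.2) h
    exact Fin.ext this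
  db_zero := ⟨⟨0, hn⟩, zero_smul _ _⟩
  db_neg := exists_fin_neg hn (cPt_tors p n W P hP)
  db_stable := exists_fin_stable hn (cPt_tors p n W P hP)
    (Affine.Point.map (W' := (W.map (constFix n (Kap p))).toAffine)
      (shAlg (psShift n (Kap p)) n hn (psShift_orderOf n hn _)).toAlgHom)
    (map_shAlg_eq _ n hn _ (W.map (constFix n (Kap p))) (shift_cPt n W P))
  I := Fin n
  neI := ⟨⟨0, hn⟩⟩
  t := lab n W hΔ (cPt n W P)
  t_inj := tPt_inj p n W hΔ P
  t_neg := tPt_neg p n W hΔ P
  t_d := tPt_d p n W hΔ P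
  t_stable := fun i => ⟨finRotate n i,
    (eq_sub_of_add_eq (map_shAlg_eq _ n hn _ (W.map (constFix n (Kap p)))
      (lab_shift n W hΔ (shift_cPt n W P) (cPt_tors p n W P hP) i)).symm)⟩
  const := ⟨exists_pow_constFix p n _, exists_pow_constFix p n _, exists_pow_constFix p n _,
    exists_pow_constFix p n _, exists_pow_constFix p n _⟩
  pd := n + 1
  pdeg := pdeg_psf p (Kap p) n
  u := 0
  rank := rank_tPt p n W hΔ P

/-- the cocycle has order `n` -/
theorem discRes_cob : (discRes p n hn W hΔ P hP).Cob n := by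
  intro v b h
  exact cob_shift W hΔ n hn P hP (cPt n W P) v _ (ptHom_spec _ W P)
    (ptMap_shAlg _ n hn (psShift_orderOf n hn _) (W.map (constFix n (Kap p))) v) b h

end Res2

end Claimed.Agent.R280
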