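import Claimed.Agent.R280.Tw.DiscDefs

/-!
# Row 280, leaf TW-D3 (~1300 lines): the content valuation of `Frac O_c[z][[w]]` (notes C7)
`ϖ` uniformiser of `O_c`; `O_c[z][[w]]/ϖ = κ[z][[w]]` is a domain, `⋂ ϖ^j = 0`: `ϖ`-adic valuation; extend to the fraction field; residue field `= Frac κ[z][[w]]`.

Part 1 (abstract, `TwD3Ctx`): `A` a domain, `φ : A → B` onto a domain with kernel `(π)`, `⋂ π^j = 0`, `0 < q < 1`:
the `π`-adic valuation `v0` on `A` (`v0 π = q`), its extension `v1` to `K = Frac A`, the residue map `rm` onto `F = Frac B`, equivariance.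
Part 2: the instance `A = O_c[z][[w]]`, `B = κ[z][[w]]`.
-/

set_option autoImplicit false

namespace Claimed.Agent.R280

open WithZero WeierstrassCurve Cardinal
open scoped Classical

/-! ## Part 1: the abstract construction -/

/-- the data of a `π`-adic valuation with residue ring `B` -/
structure TwD3Ctx (A B : Type) [CommRing A] [IsDomain A] [CommRing B] [IsDomain B] where
  π : A
  q : ℚᵐ⁰
  φ : A →+* B
  π0 : π ≠ 0
  fin : ∀ f : A, f ≠ 0 → FiniteMultiplicity π f
  q0 : q ≠ 0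
  q1 : q < 1
  surj : Function.Surjective φ
  ker : ∀ f, φ f = 0 ↔ π ∣ f

namespace TwD3Ctx

variable {A B : Type} [CommRing A] [IsDomain A] [CommRing B] [IsDomain B] (C : TwD3Ctx A B)

theorem prime : Prime C.π := by
  refine ⟨C.π0, fun hu => ?_, fun a b hab => ?_⟩
  · have h1 : C.φ C.π = 0 := (C.ker _).2 dvd_rfl
    have h2 := hu.map C.φ
    rw [h1] at h2
    exact not_isUnit_zero h2
  · rw [← C.ker, map_mul, mul_eq_zero, C.ker, C.ker] at hab
    exact hab

theorem qpos : 0 < C.q := zero_lt_iff.2 C.q0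

/-- the `π`-adic valuation on `A` -/
noncomputable def v0 : Valuation A ℚᵐ⁰ where
  toFun f := if f = 0 then 0 else C.q ^ multiplicity C.π f
  map_zero' := if_pos rfl
  map_one' := by rw [if_neg one_ne_zero, multiplicity_of_one_right C.prime.not_isUnit, pow_zero]
  map_mul' f g := by
    by_cases hf : f = 0
    · simp [hf]
    by_cases hg : g = 0
    · simp [hg]
    rw [if_neg hf, if_neg hg, if_neg (mul_ne_zero hf hg),
      multiplicity_mul C.prime (C.fin _ (mul_ne_zero hf hg)), pow_add]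
  map_add_le_max' f g := by
    by_cases hf : f = 0
    · simp [hf]
    by_cases hg : g = 0
    · simp [hg]
    by_cases hfg : f + g = 0
    · simp [hfg]
    rw [if_neg hf, if_neg hg, if_neg hfg]
    rcases le_total (multiplicity C.π f) (multiplicity C.π g) with h | h
    · refine le_max_of_le_left (pow_le_pow_right_of_le_one' C.q1.le ?_)
      exact (C.fin _ hfg).le_multiplicity_of_pow_dvd
        (dvd_add (pow_multiplicity_dvd _ _) (pow_dvd_of_le_multiplicity h))
    · refine le_max_of_le_right (pow_le_pow_right_of_le_one' C.q1.le ?_)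
      exact (C.fin _ hfg).le_multiplicity_of_pow_dvd
        (dvd_add (pow_dvd_of_le_multiplicity h) (pow_multiplicity_dvd _ _))

theorem v0_apply {f : A} (hf : f ≠ 0) : C.v0 f = C.q ^ multiplicity C.π f := if_neg hf

theorem v0_ne_zero {f : A} (hf : f ≠ 0) : C.v0 f ≠ 0 := by
  rw [C.v0_apply hf]
  exact pow_ne_zero _ C.q0

theorem v0_eq_zero_iff {f : A} : C.v0 f = 0 ↔ f = 0 :=
  ⟨fun h => by_contra fun hf => C.v0_ne_zero hf h, fun h => h ▸ map_zero _⟩

theorem v0_le_one (f : A) : C.v0 f ≤ 1 := by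
  by_cases hf : f = 0
  · simp [hf]
  · rw [C.v0_apply hf]
    exact pow_le_one' C.q1.le _

theorem v0_lt_one_iff {f : A} : C.v0 f < 1 ↔ C.π ∣ f := by
  by_cases hf : f = 0
  · simp [hf]
  · rw [C.v0_apply hf, ← dvd_iff_multiplicity_pos]
    constructor
    · intro h
      by_contra h0
      have : multiplicity C.π f = 0 := by omega
      rw [this, pow_zero] at h
      exact lt_irrefl _ h
    · intro h
      exact pow_lt_one₀ zero_le C.q1 (by omega)

theorem v0_eq_one_iff {f : A} : C.v0 f = 1 ↔ C.φ f ≠ 0 := by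
  rw [Ne, C.ker, ← C.v0_lt_one_iff, not_lt]
  exact ⟨fun h => h.ge, fun h => le_antisymm (C.v0_le_one f) h⟩

theorem v0_pi : C.v0 C.π = C.q := by
  rw [C.v0_apply C.π0, multiplicity_self, pow_one]

/-- `f = π^m g` with `φ g ≠ 0` -/
theorem exists_eq_pow_mul {f : A} (hf : f ≠ 0) : ∃ (m : ℕ) (g : A), f = C.π ^ m * g ∧ C.φ g ≠ 0 := by
  obtain ⟨g, h1, h2⟩ := (C.fin f hf).exists_eq_pow_mul_and_not_dvd
  exact ⟨_, g, h1, fun h => h2 ((C.ker g).1 h)⟩

section field

variable (K : Type) [Field K] [Algebra A K] [IsFractionRing A K]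

theorem le_primeCompl : nonZeroDivisors A ≤ C.v0.supp.primeCompl := by
  intro f hf h
  rw [SetLike.mem_coe, Valuation.mem_supp_iff, C.v0_eq_zero_iff] at h
  exact nonZeroDivisors.ne_zero hf h

/-- the `π`-adic valuation on the fraction field -/
noncomputable def v1 : Valuation K ℚᵐ⁰ := C.v0.extendToLocalization C.le_primeCompl K

@[simp] theorem v1_algebraMap (f : A) : C.v1 K (algebraMap A K f) = C.v0 f :=
  Valuation.extendToLocalization_apply_map_apply _ _ _ _

theorem v1_div (f g : A) : C.v1 K (algebraMap A K f / algebraMap A K g) = C.v0 f / C.v0 g := by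
  rw [map_div₀, v1_algebraMap, v1_algebraMap]

variable {K}

/-- the values are powers of `q` -/
theorem exists_v1_eq_zpow {a : K} (ha : a ≠ 0) : ∃ j : ℤ, C.v1 K a = C.q ^ j := by
  obtain ⟨f, g, hg, rfl⟩ := IsFractionRing.div_surjective (A := A) a
  have hg0 : g ≠ 0 := nonZeroDivisors.ne_zero hg
  have hf0 : f ≠ 0 := by
    rintro rfl
    simp at ha
  refine ⟨(multiplicity C.π f : ℤ) - multiplicity C.π g, ?_⟩
  rw [C.v1_div, C.v0_apply hf0, C.v0_apply hg0, zpow_sub₀ C.q0, zpow_natCast, zpow_natCast]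

/-- integral elements are fractions with a denominator which is a unit at `π` -/
theorem exists_repr {a : K} (ha : C.v1 K a ≤ 1) :
    ∃ f g : A, C.φ g ≠ 0 ∧ a = algebraMap A K f / algebraMap A K g := by
  obtain ⟨f, g, hg, rfl⟩ := IsFractionRing.div_surjective (A := A) a
  have hg0 : g ≠ 0 := nonZeroDivisors.ne_zero hg
  by_cases hf0 : f = 0
  · exact ⟨0, 1, by simp, by simp [hf0]⟩
  obtain ⟨m, g', rfl, hg'⟩ := C.exists_eq_pow_mul hg0
  obtain ⟨l, f', rfl, hf'⟩ := C.exists_eq_pow_mul hf0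
  have hπK : algebraMap A K C.π ≠ 0 := by
    rw [Ne, IsFractionRing.to_map_eq_zero_iff]
    exact C.π0
  have hml : m ≤ l := by
    rw [C.v1_div, map_mul, map_mul, map_pow, map_pow, C.v0_pi, (C.v0_eq_one_iff).2 hg',
      (C.v0_eq_one_iff).2 hf', mul_one, mul_one, div_le_one₀ (pow_pos C.qpos _)] at ha
    exact (pow_le_pow_iff_right_of_lt_one₀ C.qpos C.q1).1 ha
  refine ⟨C.π ^ (l - m) * f', g', hg', ?_⟩
  obtain ⟨d, rfl⟩ := Nat.exists_eq_add_of_le hml
  have hg'K : algebraMap A K g' ≠ 0 := by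
    rw [Ne, IsFractionRing.to_map_eq_zero_iff]
    rintro rfl
    simp at hg'
  rw [Nat.add_sub_cancel_left]
  simp only [map_mul, map_pow, pow_add]
  field_simp

end field

section residue

variable (K F : Type) [Field K] [Algebra A K] [IsFractionRing A K] [Field F] [Algebra B F]
  [IsFractionRing B F]

theorem algK_ne_zero {g : A} (hg : C.φ g ≠ 0) : algebraMap A K g ≠ 0 := by
  rw [Ne, IsFractionRing.to_map_eq_zero_iff]
  rintro rfl
  simp at hg

theorem algF_ne_zero {g : A} (hg : C.φ g ≠ 0) : algebraMap B F (C.φ g) ≠ 0 := by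
  rwa [Ne, IsFractionRing.to_map_eq_zero_iff]

theorem v1_div_le_one (f : A) {g : A} (hg : C.φ g ≠ 0) :
    C.v1 K (algebraMap A K f / algebraMap A K g) ≤ 1 := by
  rw [C.v1_div, C.v0_eq_one_iff.2 hg, div_one]
  exact C.v0_le_one f

theorem exists_repr' (a : (C.v1 K).valuationSubring) :
    ∃ p : A × A, C.φ p.2 ≠ 0 ∧ (a : K) = algebraMap A K p.1 / algebraMap A K p.2 := by
  obtain ⟨f, g, hg, ha⟩ := C.exists_repr ((Valuation.mem_valuationSubring_iff _ _).1 a.2)
  exact ⟨(f, g), hg, ha⟩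

/-- the residue of an integral element -/
noncomputable def resFun (a : (C.v1 K).valuationSubring) : F :=
  algebraMap B F (C.φ (C.exists_repr' K a).choose.1) / algebraMap B F (C.φ (C.exists_repr' K a).choose.2)

theorem resFun_eq (a : (C.v1 K).valuationSubring) {f g : A} (hg : C.φ g ≠ 0)
    (ha : (a : K) = algebraMap A K f / algebraMap A K g) :
    C.resFun K F a = algebraMap B F (C.φ f) / algebraMap B F (C.φ g) := by
  obtain ⟨hg0, h0⟩ := (C.exists_repr' K a).choose_spec
  unfold resFun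
  generalize (C.exists_repr' K a).choose = p at hg0 h0 ⊢
  rw [ha, div_eq_div_iff (C.algK_ne_zero K hg) (C.algK_ne_zero K hg0), ← map_mul, ← map_mul] at h0
  have h1 := IsFractionRing.injective A K h0
  rw [div_eq_div_iff (C.algF_ne_zero F hg0) (C.algF_ne_zero F hg), ← map_mul, ← map_mul, ← map_mul,
    ← map_mul, h1]

/-- the residue homomorphism -/
noncomputable def resHom : (C.v1 K).valuationSubring →+* F where
  toFun := C.resFun K F
  map_one' := by
    rw [C.resFun_eq K F 1 (f := 1) (g := 1) (by simp) (by simp)]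
    simp
  map_zero' := by
    rw [C.resFun_eq K F 0 (f := 0) (g := 1) (by simp) (by simp)]
    simp
  map_mul' a b := by
    obtain ⟨f, g, hg, ha⟩ := C.exists_repr ((Valuation.mem_valuationSubring_iff _ _).1 a.2)
    obtain ⟨f', g', hg', hb⟩ := C.exists_repr ((Valuation.mem_valuationSubring_iff _ _).1 b.2)
    rw [C.resFun_eq K F a hg ha, C.resFun_eq K F b hg' hb,
      C.resFun_eq K F (a * b) (f := f * f') (g := g * g') (by rw [map_mul]; exact mul_ne_zero hg hg')
        (by change (a : K) * (b : K) = _; rw [ha, hb, map_mul, map_mul, div_mul_div_comm])]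
    rw [map_mul, map_mul, map_mul, map_mul, div_mul_div_comm]
  map_add' a b := by
    obtain ⟨f, g, hg, ha⟩ := C.exists_repr ((Valuation.mem_valuationSubring_iff _ _).1 a.2)
    obtain ⟨f', g', hg', hb⟩ := C.exists_repr ((Valuation.mem_valuationSubring_iff _ _).1 b.2)
    rw [C.resFun_eq K F a hg ha, C.resFun_eq K F b hg' hb,
      C.resFun_eq K F (a + b) (f := f * g' + g * f') (g := g * g')
        (by rw [map_mul]; exact mul_ne_zero hg hg')
        (by change (a : K) + (b : K) = _; rw [ha, hb, map_mul, map_add, map_mul, map_mul,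
          div_add_div _ _ (C.algK_ne_zero K hg) (C.algK_ne_zero K hg')])]
    rw [map_mul, map_add, map_mul, map_mul, map_mul, map_add, map_mul, map_mul,
      div_add_div _ _ (C.algF_ne_zero F hg) (C.algF_ne_zero F hg')]

/-- the residue map -/
noncomputable def rm : ResMap (C.v1 K) F where
  toHom := C.resHom K F
  surj := by
    intro y
    obtain ⟨P, Q, hQ, rfl⟩ := IsFractionRing.div_surjective (A := B) y
    obtain ⟨f, rfl⟩ := C.surj P
    obtain ⟨g, rfl⟩ := C.surj Q
    have hg : C.φ g ≠ 0 := nonZeroDivisors.ne_zero hQ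
    exact ⟨⟨algebraMap A K f / algebraMap A K g,
      (Valuation.mem_valuationSubring_iff _ _).2 (C.v1_div_le_one K f hg)⟩,
      C.resFun_eq K F _ hg rfl⟩
  ker := by
    intro a
    obtain ⟨f, g, hg, ha⟩ := C.exists_repr ((Valuation.mem_valuationSubring_iff _ _).1 a.2)
    change C.resFun K F a = 0 ↔ _
    rw [C.resFun_eq K F a hg ha, ha, C.v1_div, C.v0_eq_one_iff.2 hg, div_one, C.v0_lt_one_iff,
      ← C.ker, div_eq_zero_iff, IsFractionRing.to_map_eq_zero_iff, IsFractionRing.to_map_eq_zero_iff]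
    exact ⟨fun h => h.resolve_right hg, Or.inl⟩

theorem res_div (f : A) {g : A} (hg : C.φ g ≠ 0) :
    (C.rm K F).res (algebraMap A K f / algebraMap A K g) =
      algebraMap B F (C.φ f) / algebraMap B F (C.φ g) := by
  unfold ResMap.res
  rw [dif_pos (C.v1_div_le_one K f hg)]
  exact C.resFun_eq K F _ hg rfl

theorem res_algebraMap (f : A) : (C.rm K F).res (algebraMap A K f) = algebraMap B F (C.φ f) := by
  have := C.res_div K F f (g := 1) (by simp)
  simpa using this

/-! ### equivariance -/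

variable {K F}

theorem v0_equiv (σ : A ≃+* A) (hσ : σ C.π = C.π) (f : A) : C.v0 (σ f) = C.v0 f := by
  by_cases hf : f = 0
  · simp [hf]
  · have hf' : σ f ≠ 0 := by simpa using hf
    rw [C.v0_apply hf, C.v0_apply hf']
    congr 1
    conv_lhs => rw [← hσ]
    exact multiplicity_map_eq σ

theorem v1_equiv (σ : A ≃+* A) (hσ : σ C.π = C.π) (a : K) :
    C.v1 K (IsFractionRing.ringEquivOfRingEquiv σ a) = C.v1 K a := by
  obtain ⟨f, g, -, rfl⟩ := IsFractionRing.div_surjective (A := A) a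
  rw [map_div₀, IsFractionRing.ringEquivOfRingEquiv_algebraMap,
    IsFractionRing.ringEquivOfRingEquiv_algebraMap, C.v1_div, C.v1_div, C.v0_equiv σ hσ,
    C.v0_equiv σ hσ]

theorem res_equiv (σ : A ≃+* A) (τ : B ≃+* B) (hστ : ∀ f, C.φ (σ f) = τ (C.φ f)) {a : K}
    (ha : C.v1 K a ≤ 1) :
    (C.rm K F).res (IsFractionRing.ringEquivOfRingEquiv σ a) =
      IsFractionRing.ringEquivOfRingEquiv τ ((C.rm K F).res a) := by
  obtain ⟨f, g, hg, rfl⟩ := C.exists_repr ha
  have hg' : C.φ (σ g) ≠ 0 := by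
    rw [hστ]
    simpa using hg
  rw [map_div₀, IsFractionRing.ringEquivOfRingEquiv_algebraMap,
    IsFractionRing.ringEquivOfRingEquiv_algebraMap, C.res_div K F _ hg', C.res_div K F _ hg, map_div₀,
    IsFractionRing.ringEquivOfRingEquiv_algebraMap, IsFractionRing.ringEquivOfRingEquiv_algebraMap,
    hστ, hστ]

end residue

end TwD3Ctx

/-! ## Part 2: the instance `O_c[z][[w]] → κ[z][[w]]` -/

section inst

variable {Kc k : Type} [Field Kc] [Field k] {vc : Valuation Kc ℚᵐ⁰}

/-- divisibility by a power of the uniformiser bounds the value -/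
theorem twD3_val_le_of_dvd {ϖ c : vc.valuationSubring} {m : ℕ} (h : ϖ ^ m ∣ c) :
    vc (c : Kc) ≤ vc (ϖ : Kc) ^ m := by
  obtain ⟨d, rfl⟩ := h
  have hd : vc (d : Kc) ≤ 1 := (Valuation.mem_valuationSubring_iff _ _).1 d.2
  change vc (((ϖ : Kc)) ^ m * (d : Kc)) ≤ _
  rw [map_mul, map_pow]
  exact mul_le_of_le_one_right' hd

/-- an element of value `≤ |ϖ|^m` is divisible by `ϖ^m` -/
theorem twD3_dvd_of_val_le {ϖ c : vc.valuationSubring} (hϖ : (ϖ : Kc) ≠ 0) {m : ℕ}
    (h : vc (c : Kc) ≤ vc (ϖ : Kc) ^ m) : ϖ ^ m ∣ c := by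
  have h0 : vc ((ϖ : Kc) ^ m) ≠ 0 := (Valuation.ne_zero_iff _).2 (pow_ne_zero _ hϖ)
  refine ⟨⟨(c : Kc) / (ϖ : Kc) ^ m, (Valuation.mem_valuationSubring_iff _ _).2 ?_⟩, ?_⟩
  · rw [map_div₀, map_pow]
    rw [map_pow] at h0
    exact (div_le_one₀ (zero_lt_iff.2 h0)).2 h
  · apply Subtype.ext
    change (c : Kc) = (ϖ : Kc) ^ m * ((c : Kc) / (ϖ : Kc) ^ m)
    rw [mul_div_cancel₀ _ (pow_ne_zero _ hϖ)]

variable (n : ℕ)

theorem twD3_pow_dvd_coeff {ϖ : vc.valuationSubring} {m : ℕ} {f : PSr n vc.valuationSubring}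
    (h : (PowerSeries.C (MvPolynomial.C ϖ) : PSr n vc.valuationSubring) ^ m ∣ f) (i : ℕ)
    (s : Fin n →₀ ℕ) : ϖ ^ m ∣ (PowerSeries.coeff i f).coeff s := by
  obtain ⟨g, rfl⟩ := h
  rw [← map_pow, ← map_pow, PowerSeries.coeff_C_mul, MvPolynomial.coeff_C_mul]
  exact dvd_mul_right _ _

theorem twD3_dvd_of_coeff {ϖ : vc.valuationSubring} {f : PSr n vc.valuationSubring}
    (h : ∀ (i : ℕ) (s : Fin n →₀ ℕ), ϖ ∣ (PowerSeries.coeff i f).coeff s) :
    (PowerSeries.C (MvPolynomial.C ϖ) : PSr n vc.valuationSubring) ∣ f := by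
  have h1 : ∀ i, MvPolynomial.C ϖ ∣ PowerSeries.coeff i f := fun i =>
    (MvPolynomial.C_dvd_iff_dvd_coeff _ _).2 (h i)
  choose g hg using h1
  refine ⟨PowerSeries.mk g, ?_⟩
  ext i : 1
  rw [PowerSeries.coeff_C_mul, PowerSeries.coeff_mk, hg]

theorem twD3_psMap_eq_zero_iff (rc : ResMap vc k) (f : PSr n vc.valuationSubring) :
    psMap n rc.toHom f = 0 ↔
      ∀ (i : ℕ) (s : Fin n →₀ ℕ), rc.toHom ((PowerSeries.coeff i f).coeff s) = 0 := by
  unfold psMap
  rw [PowerSeries.ext_iff]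
  simp only [PowerSeries.coeff_map, map_zero, MvPolynomial.ext_iff, MvPolynomial.coeff_map,
    MvPolynomial.coeff_zero]

/-- the context of the content valuation -/
noncomputable def twD3_ctx (rc : ResMap vc k) (ϖ : vc.valuationSubring) (h0 : (ϖ : Kc) ≠ 0)
    (h1 : vc (ϖ : Kc) < 1) (hd : ∀ a : Kc, a ≠ 0 → ∃ j : ℤ, vc a = vc (ϖ : Kc) ^ j) :
    TwD3Ctx (PSr n vc.valuationSubring) (PSr n k) where
  π := PowerSeries.C (MvPolynomial.C ϖ)
  q := vc (ϖ : Kc)
  φ := psMap n rc.toHom
  π0 := by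
    intro h
    have h2 : (MvPolynomial.C ϖ : MvPolynomial (Fin n) vc.valuationSubring) = 0 := by
      have := congrArg (PowerSeries.coeff 0) h
      simpa using this
    have h3 : ϖ = 0 := by simpa using h2
    exact h0 (by rw [h3]; rfl)
  fin := by
    intro f hf
    obtain ⟨i, hi⟩ : ∃ i, PowerSeries.coeff i f ≠ 0 := by
      by_contra hc
      push Not at hc
      exact hf (PowerSeries.ext fun i => by rw [hc i, map_zero])
    obtain ⟨s, hs⟩ := MvPolynomial.ne_zero_iff.1 hi
    have hs' : (((PowerSeries.coeff i f).coeff s : vc.valuationSubring) : Kc) ≠ 0 := by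
      intro h
      exact hs (Subtype.ext h)
    obtain ⟨j, hj⟩ := hd _ hs'
    rw [FiniteMultiplicity.def]
    refine ⟨j.toNat, fun hdvd => ?_⟩
    have := twD3_val_le_of_dvd (twD3_pow_dvd_coeff n hdvd i s)
    rw [hj, ← zpow_natCast, zpow_le_zpow_iff_right_of_lt_one₀
      (zero_lt_iff.2 ((Valuation.ne_zero_iff _).2 h0)) h1] at this
    push_cast at this
    have := Int.self_le_toNat j
    omega
  q0 := (Valuation.ne_zero_iff _).2 h0
  q1 := h1
  surj := PowerSeries.map_surjective _ (MvPolynomial.map_surjective _ rc.surj)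
  ker := by
    intro f
    rw [twD3_psMap_eq_zero_iff]
    constructor
    · intro h
      refine twD3_dvd_of_coeff n fun i s => ?_
      have h2 := (rc.ker _).1 (h i s)
      rw [← pow_one ϖ]
      apply twD3_dvd_of_val_le h0
      rw [pow_one]
      by_cases hz : (((PowerSeries.coeff i f).coeff s : vc.valuationSubring) : Kc) = 0
      · rw [hz, map_zero]
        exact zero_le
      · obtain ⟨j, hj⟩ := hd _ hz
        rw [hj] at h2 ⊢
        have hq := zero_lt_iff.2 ((Valuation.ne_zero_iff vc).2 h0)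
        rw [← zpow_zero (vc (ϖ : Kc)), zpow_lt_zpow_iff_right_of_lt_one₀ hq h1] at h2
        rw [← zpow_one (vc (ϖ : Kc)), ← zpow_mul, zpow_le_zpow_iff_right_of_lt_one₀ hq h1]
        omega
    · intro h i s
      rw [rc.ker]
      have := twD3_val_le_of_dvd (twD3_pow_dvd_coeff n (ϖ := ϖ) (f := f) (m := 1) (by rw [pow_one]; exact h) i s)
      rw [pow_one] at this
      exact lt_of_le_of_lt this h1

end inst

theorem twD3_psPerm_C (n : ℕ) (R : Type) [CommRing R] (e : Equiv.Perm (Fin n)) (c : R) :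
    psPerm n R e (PowerSeries.C (MvPolynomial.C c)) = PowerSeries.C (MvPolynomial.C c) := by
  change PowerSeries.map (MvPolynomial.rename e : _ →ₐ[R] _).toRingHom _ = _
  rw [PowerSeries.map_C]
  congr 1
  exact MvPolynomial.rename_C _ _

theorem twD3_psMap_psPerm (n : ℕ) {R R' : Type} [CommRing R] [CommRing R'] (φ : R →+* R')
    (e : Equiv.Perm (Fin n)) (f : PSr n R) :
    psMap n φ (psPerm n R e f) = psPerm n R' e (psMap n φ f) := by
  change PowerSeries.map (MvPolynomial.map φ)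
      (PowerSeries.map (MvPolynomial.rename e : _ →ₐ[R] _).toRingHom f) =
    PowerSeries.map (MvPolynomial.rename e : _ →ₐ[R'] _).toRingHom
      (PowerSeries.map (MvPolynomial.map φ) f)
  ext i : 1
  simp only [PowerSeries.coeff_map]
  exact MvPolynomial.map_rename _ _ _

/-- D3: the `ϖ`-adic ("content") valuation of `Frac O_c[z][[w]]`, residue field `Frac κ[z][[w]]` -/
theorem exists_contentVal {Kc k : Type} [Field Kc] [Field k] (vc : Valuation Kc ℚᵐ⁰)
    (rc : ResMap vc k) (hd : IsDiscVal vc) (n : ℕ) :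
    ∃ (v1 : Valuation (PSf n vc.valuationSubring) ℚᵐ⁰) (r1 : ResMap v1 (PSf n k)),
      (∀ a : PSf n vc.valuationSubring, a ≠ 0 → ∃ c : Kc, c ≠ 0 ∧ v1 a = vc c) ∧
      (∀ f : PSr n vc.valuationSubring, v1 (algebraMap _ _ f) ≤ 1 ∧
        r1.res (algebraMap _ _ f) = algebraMap _ _ (psMap n rc.toHom f)) ∧
      (∀ c : vc.valuationSubring,
        v1 (algebraMap _ _ (PowerSeries.C (MvPolynomial.C c) : PSr n vc.valuationSubring))
          = vc (c : Kc)) ∧
      (∀ a, v1 (psShift n vc.valuationSubring a) = v1 a) ∧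
      (∀ a, v1 a ≤ 1 → r1.res (psShift n vc.valuationSubring a) = psShift n k (r1.res a)) := by
  obtain ⟨ϖ, h1, h0, hj⟩ := hd
  set ϖO : vc.valuationSubring := ⟨ϖ, (Valuation.mem_valuationSubring_iff _ _).2 h1.le⟩ with hϖO
  set C := twD3_ctx n rc ϖO h0 h1 hj with hC
  have hq := zero_lt_iff.2 ((Valuation.ne_zero_iff vc).2 h0)
  refine ⟨C.v1 _, C.rm _ _, ?_, ?_, ?_, ?_, ?_⟩
  · intro a ha
    obtain ⟨j, hj'⟩ := C.exists_v1_eq_zpow ha
    refine ⟨ϖ ^ j, zpow_ne_zero _ h0, ?_⟩
    rw [hj', map_zpow₀]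
    rfl
  · intro f
    exact ⟨by rw [C.v1_algebraMap]; exact C.v0_le_one f, C.res_algebraMap _ _ f⟩
  · intro c
    rw [C.v1_algebraMap]
    by_cases hc : (c : Kc) = 0
    · have : c = 0 := Subtype.ext hc
      rw [this]
      simp
    obtain ⟨j, hj'⟩ := hj _ hc
    have hc1 : vc (c : Kc) ≤ 1 := (Valuation.mem_valuationSubring_iff _ _).1 c.2
    have hj0 : 0 ≤ j := by
      rw [hj', ← zpow_zero (vc ϖ), zpow_le_zpow_iff_right_of_lt_one₀ hq h1] at hc1
      exact hc1
    obtain ⟨m, rfl⟩ := Int.eq_ofNat_of_zero_le hj0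
    rw [zpow_natCast] at hj'
    obtain ⟨u, rfl⟩ := twD3_dvd_of_val_le (ϖ := ϖO) (c := c) h0 (m := m) hj'.le
    have hu : vc (u : Kc) = 1 := by
      have h2 : vc ((ϖ : Kc) ^ m * (u : Kc)) = vc ϖ ^ m := hj'
      rw [map_mul, map_pow] at h2
      exact mul_left_cancel₀ (pow_ne_zero m hq.ne') (by rw [h2, mul_one])
    have hφ : C.φ (PowerSeries.C (MvPolynomial.C u)) ≠ 0 := by
      change psMap n rc.toHom _ ≠ 0
      rw [Ne, twD3_psMap_eq_zero_iff]
      intro h
      have := (rc.ker _).1 (h 0 0)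
      simp only [PowerSeries.coeff_zero_C, MvPolynomial.coeff_zero_C] at this
      rw [hu] at this
      exact lt_irrefl _ this
    rw [map_mul, map_mul, map_mul, map_pow, map_pow, map_pow, C.v0_eq_one_iff.2 hφ, mul_one]
    have : C.v0 (PowerSeries.C (MvPolynomial.C ϖO)) = vc ϖ := C.v0_pi
    rw [this, hj']
  · intro a
    exact C.v1_equiv (psPerm n _ (finRotate n)) (twD3_psPerm_C n _ _ _) a
  · intro a ha
    exact C.res_equiv (psPerm n _ (finRotate n)) (psPerm n k (finRotate n))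
      (fun f => twD3_psMap_psPerm n rc.toHom _ f) ha

end Claimed.Agent.R280
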