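import Claimed.Agent.R280.Tw.D10a
import Claimed.Agent.R280.Tw.D1
import Claimed.Agent.R280.Tw.D3
import Claimed.Agent.R280.Tw.D4
import Claimed.Agent.R280.Tw.A4

/-!
# Row 280, glue TW-D10b: the lift side of A1, `discFld : FldBase p (fixF (psShift n O_c))` over `discRes`
-/

set_option autoImplicit false

namespace Claimed.Agent.R280

open WithZero WeierstrassCurve Cardinal
open scoped Classical

section Lift

variable (p : ℕ) [Fact p.Prime] (n : ℕ) (hn : 0 < n) {Kc : Type} [Field Kc] [CharZero Kc]
  (vc : Valuation Kc ℚᵐ⁰) (rc : ResMap vc (Kap p)) (hd : IsDiscVal vc)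
  (WO : WeierstrassCurve vc.valuationSubring) (hΔ : (WO.map rc.toHom).Δ ≠ 0)

/-- `K_c → Frac O_c[z][[w]]` -/
noncomputable def iotaC : Kc →+* PSf n vc.valuationSubring :=
  IsFractionRing.lift (A := vc.valuationSubring) (K := Kc)
    (g := algebraMap vc.valuationSubring (PSf n vc.valuationSubring))
    (algebraMap_psf_injective n vc.valuationSubring)

theorem iotaC_coe (c : vc.valuationSubring) :
    iotaC n vc (c : Kc) = algebraMap vc.valuationSubring (PSf n vc.valuationSubring) c :=
  IsFractionRing.lift_algebraMap _ c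

theorem map_iotaC :
    WO.map (algebraMap vc.valuationSubring (PSf n vc.valuationSubring))
      = (WO.map (algebraMap vc.valuationSubring Kc)).map (iotaC n vc) := by
  rw [WeierstrassCurve.map_map]
  congr 1
  ext c
  exact (iotaC_coe n vc c).symm

theorem shift_iotaC (a : Kc) :
    psShift n vc.valuationSubring (iotaC n vc a) = iotaC n vc a := by
  obtain ⟨x, y, hy, rfl⟩ := IsFractionRing.div_surjective (A := vc.valuationSubring) a
  rw [map_div₀, map_div₀]
  change psShift n _ (iotaC n vc (x : Kc)) / psShift n _ (iotaC n vc (y : Kc)) = iotaC n vc (x : Kc) / iotaC n vc (y : Kc)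
  rw [iotaC_coe, iotaC_coe, psShift_const, psShift_const]

/-- the content valuation -/
noncomputable def cVal : Valuation (PSf n vc.valuationSubring) ℚᵐ⁰ :=
  (exists_contentVal vc rc hd n).choose

/-- its residue map -/
noncomputable def cRes : ResMap (cVal p n vc rc hd) (PSf n (Kap p)) :=
  (exists_contentVal vc rc hd n).choose_spec.choose

theorem cVal_grp (a : PSf n vc.valuationSubring) (ha : a ≠ 0) :
    ∃ c : Kc, c ≠ 0 ∧ cVal p n vc rc hd a = vc c :=
  (exists_contentVal vc rc hd n).choose_spec.choose_spec.1 a ha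

theorem cVal_int (f : PSr n vc.valuationSubring) :
    cVal p n vc rc hd (algebraMap _ _ f) ≤ 1 ∧
      (cRes p n vc rc hd).res (algebraMap _ _ f) = algebraMap _ _ (psMap n rc.toHom f) :=
  (exists_contentVal vc rc hd n).choose_spec.choose_spec.2.1 f

theorem cVal_const (c : vc.valuationSubring) :
    cVal p n vc rc hd (algebraMap vc.valuationSubring (PSf n vc.valuationSubring) c) = vc (c : Kc) := by
  rw [IsScalarTower.algebraMap_apply _ (PSr n vc.valuationSubring), algebraMap_psr]
  exact (exists_contentVal vc rc hd n).choose_spec.choose_spec.2.2.1 c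

theorem cVal_shift (a : PSf n vc.valuationSubring) :
    cVal p n vc rc hd (psShift n vc.valuationSubring a) = cVal p n vc rc hd a :=
  (exists_contentVal vc rc hd n).choose_spec.choose_spec.2.2.2.1 a

theorem cRes_shift (a : PSf n vc.valuationSubring) (ha : cVal p n vc rc hd a ≤ 1) :
    (cRes p n vc rc hd).res (psShift n vc.valuationSubring a)
      = psShift n (Kap p) ((cRes p n vc rc hd).res a) :=
  (exists_contentVal vc rc hd n).choose_spec.choose_spec.2.2.2.2 a ha

theorem cRes_const (c : vc.valuationSubring) :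
    (cRes p n vc rc hd).res (algebraMap vc.valuationSubring (PSf n vc.valuationSubring) c)
      = algebraMap (Kap p) (PSf n (Kap p)) (rc.toHom c) := by
  rw [IsScalarTower.algebraMap_apply _ (PSr n vc.valuationSubring), algebraMap_psr,
    (cVal_int p n vc rc hd _).2, IsScalarTower.algebraMap_apply (Kap p) (PSr n (Kap p)) (PSf n (Kap p)),
    algebraMap_psr]
  simp [psMap]

theorem cVal_iotaC (a : Kc) : cVal p n vc rc hd (iotaC n vc a) = vc a := by
  obtain ⟨x, y, hy, rfl⟩ := IsFractionRing.div_surjective (A := vc.valuationSubring) a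
  rw [map_div₀, map_div₀, map_div₀]
  change cVal p n vc rc hd (iotaC n vc (x : Kc)) / cVal p n vc rc hd (iotaC n vc (y : Kc)) = _
  rw [iotaC_coe, iotaC_coe, cVal_const, cVal_const]
  rfl

theorem cRes_iotaC (a : Kc) (ha : vc a ≤ 1) :
    (cRes p n vc rc hd).res (iotaC n vc a) = algebraMap (Kap p) (PSf n (Kap p)) (rc.res a) := by
  have := cRes_const p n vc rc hd ⟨a, (Valuation.mem_valuationSubring_iff vc a).2 ha⟩
  rw [← iotaC_coe] at this
  rw [this, ResMap.res, dif_pos ha]

/-- the residue map of the fixed field -/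
noncomputable def cResFix : ResMap ((cVal p n vc rc hd).comap (fixF (psShift n vc.valuationSubring)).subtype)
    (fixF (psShift n (Kap p))) :=
  (fix_resMap (cVal p n vc rc hd) (cRes p n vc rc hd) (psShift n vc.valuationSubring)
    (psShift n (Kap p)) n hn (psShift_orderOf n hn _) (psShift_orderOf n hn _)
    (cVal_shift p n vc rc hd) (cRes_shift p n vc rc hd)).choose

theorem cResFix_spec (a : fixF (psShift n vc.valuationSubring))
    (ha : cVal p n vc rc hd (a : PSf n vc.valuationSubring) ≤ 1) :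
    (((cResFix p n hn vc rc hd).res a : fixF (psShift n (Kap p))) : PSf n (Kap p))
      = (cRes p n vc rc hd).res (a : PSf n vc.valuationSubring) :=
  (fix_resMap (cVal p n vc rc hd) (cRes p n vc rc hd) (psShift n vc.valuationSubring)
    (psShift n (Kap p)) n hn (psShift_orderOf n hn _) (psShift_orderOf n hn _)
    (cVal_shift p n vc rc hd) (cRes_shift p n vc rc hd)).choose_spec a ha

include hΔ in
theorem disc_WO_ne_zero : WO.Δ ≠ 0 := fun h => hΔ (by rw [WeierstrassCurve.map_Δ, h, map_zero])

theorem cVal_le_one (c : vc.valuationSubring) :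
    cVal p n vc rc hd (algebraMap vc.valuationSubring (PSf n vc.valuationSubring) c) ≤ 1 := by
  rw [cVal_const]; exact (Valuation.mem_valuationSubring_iff vc _).1 c.2

theorem redCurve_up : RedCurve (cVal p n vc rc hd) (cRes p n vc rc hd)
    (WO.map (algebraMap vc.valuationSubring (PSf n vc.valuationSubring)))
    ((WO.map rc.toHom).map (algebraMap (Kap p) (PSf n (Kap p)))) :=
  ⟨⟨cVal_le_one p n vc rc hd _, cRes_const p n vc rc hd _⟩,
   ⟨cVal_le_one p n vc rc hd _, cRes_const p n vc rc hd _⟩,
   ⟨cVal_le_one p n vc rc hd _, cRes_const p n vc rc hd _⟩,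
   ⟨cVal_le_one p n vc rc hd _, cRes_const p n vc rc hd _⟩,
   ⟨cVal_le_one p n vc rc hd _, cRes_const p n vc rc hd _⟩⟩

theorem cResFix_const (c : vc.valuationSubring) :
    (cResFix p n hn vc rc hd).res (constFix n vc.valuationSubring c)
      = constFix n (Kap p) (rc.toHom c) := by
  apply Subtype.ext
  rw [cResFix_spec p n hn vc rc hd _ (cVal_le_one p n vc rc hd c)]
  exact cRes_const p n vc rc hd c

theorem redCurve_dn : RedCurve ((cVal p n vc rc hd).comap (fixF (psShift n vc.valuationSubring)).subtype)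
    (cResFix p n hn vc rc hd) (WO.map (constFix n vc.valuationSubring))
    ((WO.map rc.toHom).map (constFix n (Kap p))) :=
  ⟨⟨cVal_le_one p n vc rc hd _, cResFix_const p n hn vc rc hd _⟩,
   ⟨cVal_le_one p n vc rc hd _, cResFix_const p n hn vc rc hd _⟩,
   ⟨cVal_le_one p n vc rc hd _, cResFix_const p n hn vc rc hd _⟩,
   ⟨cVal_le_one p n vc rc hd _, cResFix_const p n hn vc rc hd _⟩,
   ⟨cVal_le_one p n vc rc hd _, cResFix_const p n hn vc rc hd _⟩⟩

/-- reduction of constant points -/
theorem redPt_const {W : WeierstrassCurve Kc} {W0 : WeierstrassCurve (Kap p)}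
    {W1 : WeierstrassCurve (PSf n vc.valuationSubring)} {W2 : WeierstrassCurve (PSf n (Kap p))}
    {Pt : W.toAffine.Point} {P : W0.toAffine.Point} (h : RedPt vc rc Pt P)
    {Q : W1.toAffine.Point} (hQ : PtMap (iotaC n vc) Pt Q) {Qb : W2.toAffine.Point}
    (hQb : PtMap (algebraMap (Kap p) (PSf n (Kap p))) P Qb) :
    RedPt (cVal p n vc rc hd) (cRes p n vc rc hd) Q Qb := by
  rcases Pt with _ | ⟨a, b, hab⟩ <;> rcases Q with _ | ⟨a1, b1, hab1⟩ <;>
    rcases P with _ | ⟨a0, b0, hab0⟩ <;> rcases Qb with _ | ⟨a2, b2, hab2⟩ <;>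
    first | trivial | exact hQ.elim | exact hQb.elim | exact h.elim | skip
  · obtain ⟨rfl, rfl⟩ := hQ
    show 1 < cVal p n vc rc hd (iotaC n vc a)
    rw [cVal_iotaC]; exact h
  · obtain ⟨rfl, rfl⟩ := hQ
    obtain ⟨rfl, rfl⟩ := hQb
    obtain ⟨h1, h2, rfl, rfl⟩ := h
    exact ⟨by rw [cVal_iotaC]; exact h1, by rw [cVal_iotaC]; exact h2,
      cRes_iotaC p n vc rc hd a h1, cRes_iotaC p n vc rc hd b h2⟩

variable (P : (WO.map rc.toHom).toAffine.Point) (hP : addOrderOf P = n)
  (Pt : (WO.map (algebraMap vc.valuationSubring Kc)).toAffine.Point) (hred : RedPt vc rc Pt P)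
  (hPt : addOrderOf Pt = n)

/-- the lifted constant point -/
noncomputable def cPtL :
    (WO.map (algebraMap vc.valuationSubring (PSf n vc.valuationSubring))).toAffine.Point :=
  ptHom' (iotaC n vc) (map_iotaC n vc WO) Pt

include hPt in
theorem cPtL_tors : n • cPtL n vc WO Pt = 0 := by
  unfold cPtL
  rw [← map_nsmul, ← hPt, addOrderOf_nsmul_eq_zero, map_zero]

theorem shift_cPtL : PtMap (psShift n vc.valuationSubring).toRingHom (cPtL n vc WO Pt)
    (cPtL n vc WO Pt) :=
  shift_of_const n (iotaC n vc) (shift_iotaC n vc) (ptHom'_spec _ (map_iotaC n vc WO) Pt)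

include hred in
theorem red_cPtL : RedPt (cVal p n vc rc hd) (cRes p n vc rc hd) (cPtL n vc WO Pt)
    (cPt n (WO.map rc.toHom) P) :=
  redPt_const p n vc rc hd hred (ptHom'_spec _ (map_iotaC n vc WO) Pt) (ptHom_spec _ _ P)

theorem red_fPt (i : Fin n) : RedPt (cVal p n vc rc hd) (cRes p n vc rc hd)
    (fPt n WO (disc_WO_ne_zero p vc rc WO hΔ) i) (fPt n (WO.map rc.toHom) hΔ i) :=
  formal_red vc rc n _ _ (cVal_int p n vc rc hd) WO i

include hΔ in
theorem disc_up_ne_zero : ((WO.map rc.toHom).map (algebraMap (Kap p) (PSf n (Kap p)))).Δ ≠ 0 := by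
  rw [WeierstrassCurve.map_Δ]; exact (map_ne_zero _).2 hΔ

/-- **the lift side of A1** -/
noncomputable def discFld : FldBase p (fixF (psShift n vc.valuationSubring)) where
  R := discRes p n hn (WO.map rc.toHom) hΔ P hP
  L1 := PSf n vc.valuationSubring
  finL1 := (fix_galois (psShift n vc.valuationSubring) n hn (psShift_orderOf n hn _)).1
  galL1 := (fix_galois (psShift n vc.valuationSubring) n hn (psShift_orderOf n hn _)).2.1
  cz := charZero_of_injective_ringHom (constFix_injective n vc.valuationSubring)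
  vL := (cVal p n vc rc hd).comap (fixF (psShift n vc.valuationSubring)).subtype
  rL := cResFix p n hn vc rc hd
  vL1 := cVal p n vc rc hd
  rL1 := cRes p n vc rc hd
  ext1 := fun _ => rfl
  rext1 := fun a ha => (cResFix_spec p n hn vc rc hd a ha).symm
  deg_eq := by
    rw [(fix_galois (psShift n vc.valuationSubring) n hn (psShift_orderOf n hn _)).2.2.1]
    exact (fix_galois (psShift n (Kap p)) n hn (psShift_orderOf n hn _)).2.2.1.symm
  σ := shAlg (psShift n vc.valuationSubring) n hn (psShift_orderOf n hn _)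
  σ_val := fun a => by rw [shAlg_apply]; exact cVal_shift p n vc rc hd a
  σ_res := fun a ha => by
    rw [shAlg_apply]
    exact (cRes_shift p n vc rc hd a ha).trans
      (shAlg_apply (psShift n (Kap p)) n hn (psShift_orderOf n hn _) _).symm
  Wt := WO.map (constFix n vc.valuationSubring)
  red_W := redCurve_dn p n hn vc rc hd WO
  Q := cPtL n vc WO Pt
  red_Q := red_cPtL p n vc rc hd WO P Pt hred
  σ_gen := shAlg_gen _ n hn _
  Q_fix := map_shAlg_eq _ n hn _ (WO.map (constFix n vc.valuationSubring)) (shift_cPtL n vc WO Pt)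
  Q_tors := by
    rw [(fix_galois (psShift n vc.valuationSubring) n hn (psShift_orderOf n hn _)).2.2.1]
    exact cPtL_tors n vc WO Pt hPt
  d := fun j : Fin n => (j : ℕ) • cPtL n vc WO Pt
  red_d := fun j : Fin n => RedPt.nsmul (redCurve_up p n vc rc hd WO)
    (disc_up_ne_zero p n vc rc WO hΔ) (red_cPtL p n vc rc hd WO P Pt hred) j
  d_zero := ⟨⟨0, hn⟩, zero_smul _ _⟩
  d_neg := exists_fin_neg hn (cPtL_tors n vc WO Pt hPt)
  d_stable := exists_fin_stable hn (cPtL_tors n vc WO Pt hPt)
    (Affine.Point.map (W' := (WO.map (constFix n vc.valuationSubring)).toAffine)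
      (shAlg (psShift n vc.valuationSubring) n hn (psShift_orderOf n hn _)).toAlgHom)
    (map_shAlg_eq _ n hn _ (WO.map (constFix n vc.valuationSubring)) (shift_cPtL n vc WO Pt))
  ξ := lab n WO (disc_WO_ne_zero p vc rc WO hΔ) (cPtL n vc WO Pt)
  red_ξ := fun i : Fin n => RedPt.sub (redCurve_up p n vc rc hd WO) (disc_up_ne_zero p n vc rc WO hΔ)
    (red_fPt p n vc rc hd WO hΔ i)
    (RedPt.nsmul (redCurve_up p n vc rc hd WO) (disc_up_ne_zero p n vc rc WO hΔ)
      (red_cPtL p n vc rc hd WO P Pt hred) i)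
  ξ_stable := fun i => ⟨finRotate n i,
    (eq_sub_of_add_eq (map_shAlg_eq _ n hn _ (WO.map (constFix n vc.valuationSubring))
      (lab_shift n WO _ (shift_cPtL n vc WO Pt) (cPtL_tors n vc WO Pt hPt) i)).symm)⟩

end Lift

end Claimed.Agent.R280
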