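import Claimed.Agent.R280.Tw.DiscDefs

/-!
# Row 280, leaf TW-D1a (~500 lines): `Frac W(κ)` as a discretely valued field with a `ResMap` onto `κ`
Mathlib: `WittVector.isDiscreteValuationRing`, `WittVector.constantCoeff`; valuation `exp(-ord_p)` with values in `ℚᵐ⁰`.
-/

set_option autoImplicit false

namespace Claimed.Agent.R280

open WithZero WeierstrassCurve Cardinal
open scoped Classical

/-- `W(k)` has characteristic zero -/
theorem d1a_charZero (p : ℕ) [Fact p.Prime] (k : Type) [Field k] [CharP k p] :
    CharZero (WittVector p k) := by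
  obtain ⟨q, hq⟩ := CharP.exists (WittVector p k)
  rcases CharP.char_is_prime_or_zero (WittVector p k) q with h | h
  · exfalso
    have h1 : ((q : ℕ) : WittVector p k) = 0 := CharP.cast_eq_zero _ q
    have h2 : ((q : ℕ) : k) = 0 := by
      have := congrArg (WittVector.constantCoeff (p := p) (R := k)) h1
      rwa [map_natCast, map_zero] at this
    have h3 : p ∣ q := (CharP.cast_eq_zero_iff k p q).1 h2
    have h4 : p = q := (Nat.prime_dvd_prime_iff_eq (Fact.out) h).1 h3
    subst h4
    exact WittVector.p_nonzero p k h1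
  · subst h
    exact CharP.charP_to_charZero _

/-- the inclusion of value groups `ℤᵐ⁰ → ℚᵐ⁰` -/
noncomputable def d1aIota : ℤᵐ⁰ →*₀ ℚᵐ⁰ :=
  WithZero.map' (AddMonoidHom.toMultiplicative (Int.castAddHom ℚ))

theorem d1aIota_strictMono : StrictMono d1aIota := by
  refine WithZero.map'_strictMono ?_
  intro a b hab
  have : Multiplicative.toAdd a < Multiplicative.toAdd b := hab
  change Multiplicative.ofAdd ((Multiplicative.toAdd a : ℤ) : ℚ) < Multiplicative.ofAdd ((Multiplicative.toAdd b : ℤ) : ℚ)
  rw [Multiplicative.ofAdd_lt]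
  exact_mod_cast this

/-- general form: the fraction field of a discrete valuation ring `A`, with a surjection of `A` onto a field `k` -/
theorem d1a_dvr (A : Type) [CommRing A] [IsDomain A] [IsDiscreteValuationRing A] (k : Type) [Field k]
    (f : A →+* k) (hf : Function.Surjective f) :
    ∃ (v0 : Valuation (FractionRing A) ℚᵐ⁰) (_ : ResMap v0 k), IsDiscVal v0 := by
  set K := FractionRing A with hK
  set v := (IsDiscreteValuationRing.maximalIdeal A).valuation K with hv
  have hι := d1aIota_strictMono
  have hι1 : d1aIota 1 = 1 := map_one _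
  let v0 : Valuation K ℚᵐ⁰ := v.map d1aIota hι.monotone
  have hv0 : ∀ x, v0 x = d1aIota (v x) := fun _ => rfl
  have hle : ∀ x, v0 x ≤ 1 ↔ v x ≤ 1 := fun x => by rw [hv0, ← hι1, hι.le_iff_le]
  have hlt : ∀ x, v0 x < 1 ↔ v x < 1 := fun x => by rw [hv0, ← hι1, hι.lt_iff_lt]
  -- the isomorphism of `A` with the valuation ring
  let g : A →+* v0.valuationSubring := (algebraMap A K).codRestrict v0.valuationSubring.toSubring
    (fun a => (Valuation.mem_valuationSubring_iff v0 _).2 ((hle _).2
      (IsDedekindDomain.HeightOneSpectrum.valuation_le_one _ a)))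
  have hg : Function.Bijective g := by
    constructor
    · intro a b hab
      exact IsFractionRing.injective A K (congrArg Subtype.val hab)
    · intro x
      obtain ⟨a, ha⟩ := IsDiscreteValuationRing.exists_lift_of_le_one
        ((hle _).1 ((Valuation.mem_valuationSubring_iff v0 _).1 x.2))
      exact ⟨a, Subtype.ext ha⟩
  let e : A ≃+* v0.valuationSubring := RingEquiv.ofBijective g hg
  have he : ∀ a : A, ((e a : v0.valuationSubring) : K) = algebraMap A K a := fun _ => rfl
  -- the kernel of `f` is the maximal ideal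
  have hker : ∀ a : A, f a = 0 ↔ a ∈ IsLocalRing.maximalIdeal A := by
    intro a
    have hmax : (RingHom.ker f).IsMaximal := RingHom.ker_isMaximal_of_surjective f hf
    rw [← IsLocalRing.eq_maximalIdeal hmax, RingHom.mem_ker]
  refine ⟨v0, ⟨f.comp e.symm.toRingHom, hf.comp e.symm.surjective, ?_⟩, ?_⟩
  · intro x
    obtain ⟨a, rfl⟩ := e.surjective x
    have : (f.comp e.symm.toRingHom) (e a) = f a := by simp
    rw [this, hker, he, hlt, hv, IsDedekindDomain.HeightOneSpectrum.valuation_lt_one_iff_mem]
    rfl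
  · obtain ⟨ϖ, hϖ⟩ := (IsDiscreteValuationRing.maximalIdeal A).valuation_exists_uniformizer K
    have hϖ0 : v ϖ ≠ 0 := by rw [hv, hϖ]; exact WithZero.exp_ne_zero
    refine ⟨ϖ, ?_, ?_, ?_⟩
    · rw [hlt, hv, hϖ, ← WithZero.exp_zero, WithZero.exp_lt_exp]; norm_num
    · exact (Valuation.ne_zero_iff v).1 hϖ0
    · intro a ha
      have ha0 : v a ≠ 0 := (Valuation.ne_zero_iff v).2 ha
      refine ⟨- WithZero.log (v a), ?_⟩
      rw [hv0, hv0, ← map_zpow₀]
      congr 1
      rw [← WithZero.exp_log ha0, hv, hϖ, ← WithZero.exp_zsmul]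
      simp

/-- D1a: `Frac W(κ)` -/
theorem witt_resMap (p : ℕ) [Fact p.Prime] :
    ∃ (K0 : Type) (_ : Field K0) (_ : CharZero K0) (v0 : Valuation K0 ℚᵐ⁰) (_ : ResMap v0 (Kap p)),
      IsDiscVal v0 := by
  have := d1a_charZero p (Kap p)
  obtain ⟨v0, r, h⟩ := d1a_dvr (WittVector p (Kap p)) (Kap p) WittVector.constantCoeff
    (WittVector.constantCoeff_surjective p)
  exact ⟨FractionRing (WittVector p (Kap p)), inferInstance,
    charZero_of_injective_algebraMap (IsFractionRing.injective (WittVector p (Kap p)) _), v0, r, h⟩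

end Claimed.Agent.R280
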