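import Claimed.Agent.R280.Tw.DiscDefs

/-!
# Row 280, leaf TW-D5 (~700 lines): the formal point `(T/w(T), -1/w(T))` and its evaluation at `T = z_i w`
`exists_wser` by recursion on coefficients (or contraction); `psSubstFun n R i` is a ring homomorphism `R[[T]] → R[z][[w]]` (prove it here).
-/

set_option autoImplicit false

namespace Claimed.Agent.R280

open WithZero WeierstrassCurve Cardinal
open scoped Classical

/-- a contraction of `R[[X]]` for the `X`-adic topology has a fixed point -/
theorem d5_fixed_point {R : Type} [CommRing R] (Ψ : PowerSeries R → PowerSeries R)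
    (h : ∀ (n : ℕ) (a b : PowerSeries R), PowerSeries.X ^ n ∣ a - b →
      PowerSeries.X ^ (n + 1) ∣ Ψ a - Ψ b) : ∃ u, Ψ u = u := by
  let s : ℕ → PowerSeries R := fun n => Ψ^[n] 0
  have hs : ∀ n, s (n + 1) = Ψ (s n) := fun n => Function.iterate_succ_apply' Ψ n 0
  have h1 : ∀ n, PowerSeries.X ^ n ∣ s (n + 1) - s n := by
    intro n
    induction n with
    | zero => simp
    | succ n ih =>
      have := h n _ _ ih
      rwa [← hs (n + 1), ← hs n] at this
  have h2 : ∀ n k, PowerSeries.X ^ n ∣ s (n + k) - s n := by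
    intro n k
    induction k with
    | zero => simp
    | succ k ih =>
      have e : s (n + (k + 1)) - s n = (s (n + k + 1) - s (n + k)) + (s (n + k) - s n) := by
        rw [← add_assoc]
        ring
      rw [e]
      exact dvd_add ((pow_dvd_pow _ (Nat.le_add_right n k)).trans (h1 (n + k))) ih
  let u : PowerSeries R := PowerSeries.mk fun n => PowerSeries.coeff n (s (n + 1))
  have h3 : ∀ n, PowerSeries.X ^ n ∣ u - s n := by
    intro n
    rw [PowerSeries.X_pow_dvd_iff]
    intro m hm
    obtain ⟨k, rfl⟩ := Nat.exists_eq_add_of_le (Nat.succ_le_of_lt hm)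
    have := (PowerSeries.X_pow_dvd_iff.1 (h2 (m + 1) k)) m (Nat.lt_succ_self m)
    rw [map_sub, sub_eq_zero] at this
    rw [map_sub, PowerSeries.coeff_mk, sub_eq_zero]
    exact this.symm
  refine ⟨u, ?_⟩
  rw [← sub_eq_zero]
  ext n
  have e : Ψ u - u = (Ψ u - Ψ (s n)) - (u - s (n + 1)) := by
    rw [hs n]
    ring
  have h4 : PowerSeries.X ^ (n + 1) ∣ Ψ u - u := by
    rw [e]
    exact dvd_sub (h n _ _ (h3 n)) (h3 (n + 1))
  rw [map_zero]
  exact (PowerSeries.X_pow_dvd_iff.1 h4) n (Nat.lt_succ_self n)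

/-- the normalised series `u = w / T^3` -/
theorem d5_exists_u {R : Type} [CommRing R] (W : WeierstrassCurve R) :
    ∃ u : PowerSeries R, u = 1 + PowerSeries.C W.a₁ * PowerSeries.X * u
        + PowerSeries.C W.a₂ * PowerSeries.X ^ 2 * u + PowerSeries.C W.a₃ * PowerSeries.X ^ 3 * u ^ 2
        + PowerSeries.C W.a₄ * PowerSeries.X ^ 4 * u ^ 2
        + PowerSeries.C W.a₆ * PowerSeries.X ^ 6 * u ^ 3 := by
  obtain ⟨u, hu⟩ := d5_fixed_point (fun u : PowerSeries R =>
      1 + PowerSeries.C W.a₁ * PowerSeries.X * u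
        + PowerSeries.C W.a₂ * PowerSeries.X ^ 2 * u + PowerSeries.C W.a₃ * PowerSeries.X ^ 3 * u ^ 2
        + PowerSeries.C W.a₄ * PowerSeries.X ^ 4 * u ^ 2
        + PowerSeries.C W.a₆ * PowerSeries.X ^ 6 * u ^ 3) (by
    intro n a b hab
    obtain ⟨c, hc⟩ := hab
    refine ⟨c * (PowerSeries.C W.a₁ + PowerSeries.C W.a₂ * PowerSeries.X
      + PowerSeries.C W.a₃ * PowerSeries.X ^ 2 * (a + b)
      + PowerSeries.C W.a₄ * PowerSeries.X ^ 3 * (a + b)
      + PowerSeries.C W.a₆ * PowerSeries.X ^ 5 * (a ^ 2 + a * b + b ^ 2)), ?_⟩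
    have : ∀ A1 A2 A3 A4 A6 T : PowerSeries R,
        (1 + A1 * T * a + A2 * T ^ 2 * a + A3 * T ^ 3 * a ^ 2 + A4 * T ^ 4 * a ^ 2
          + A6 * T ^ 6 * a ^ 3) -
        (1 + A1 * T * b + A2 * T ^ 2 * b + A3 * T ^ 3 * b ^ 2 + A4 * T ^ 4 * b ^ 2
          + A6 * T ^ 6 * b ^ 3) =
        T * (a - b) * (A1 + A2 * T + A3 * T ^ 2 * (a + b) + A4 * T ^ 3 * (a + b)
          + A6 * T ^ 5 * (a ^ 2 + a * b + b ^ 2)) := by
      intro A1 A2 A3 A4 A6 T
      ring
    rw [this, hc]
    ring)
  exact ⟨u, hu.symm⟩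

/-- uniqueness of `w` -/
theorem d5_wser_unique {R : Type} [CommRing R] (W : WeierstrassCurve R) (w w' : PowerSeries R)
    (h0 : PowerSeries.constantCoeff w = 0)
    (h : w = PowerSeries.X ^ 3 + PowerSeries.C W.a₁ * PowerSeries.X * w
        + PowerSeries.C W.a₂ * PowerSeries.X ^ 2 * w + PowerSeries.C W.a₃ * w ^ 2
        + PowerSeries.C W.a₄ * PowerSeries.X * w ^ 2 + PowerSeries.C W.a₆ * w ^ 3)
    (h0' : PowerSeries.constantCoeff w' = 0)
    (h' : w' = PowerSeries.X ^ 3 + PowerSeries.C W.a₁ * PowerSeries.X * w'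
        + PowerSeries.C W.a₂ * PowerSeries.X ^ 2 * w' + PowerSeries.C W.a₃ * w' ^ 2
        + PowerSeries.C W.a₄ * PowerSeries.X * w' ^ 2 + PowerSeries.C W.a₆ * w' ^ 3) : w = w' := by
  set B : PowerSeries R := PowerSeries.C W.a₁ * PowerSeries.X + PowerSeries.C W.a₂ * PowerSeries.X ^ 2
    + PowerSeries.C W.a₃ * (w + w') + PowerSeries.C W.a₄ * PowerSeries.X * (w + w')
    + PowerSeries.C W.a₆ * (w ^ 2 + w * w' + w' ^ 2) with hB
  have e : (w - w') * (1 - B) = 0 := by
    have e1 : w - w' = (w - w') * B := by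
      conv_lhs => rw [h, h']
      rw [hB]
      ring
    calc (w - w') * (1 - B) = (w - w') - (w - w') * B := by ring
      _ = 0 := by rw [← e1, sub_self]
  have hu : IsUnit (1 - B) := by
    rw [PowerSeries.isUnit_iff_constantCoeff]
    have : PowerSeries.constantCoeff (1 - B) = 1 := by
      rw [hB]
      simp [h0, h0']
    rw [this]
    exact isUnit_one
  have := hu.mul_left_eq_zero.1 e
  exact sub_eq_zero.1 this

/-- existence, in the precise form `w = T^3 u`, `u(0) = 1` -/
theorem d5_exists_wser {R : Type} [CommRing R] (W : WeierstrassCurve R) :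
    ∃ u : PowerSeries R, PowerSeries.constantCoeff u = 1 ∧
      PowerSeries.constantCoeff (PowerSeries.X ^ 3 * u) = 0 ∧
      PowerSeries.X ^ 3 * u = PowerSeries.X ^ 3 + PowerSeries.C W.a₁ * PowerSeries.X * (PowerSeries.X ^ 3 * u)
        + PowerSeries.C W.a₂ * PowerSeries.X ^ 2 * (PowerSeries.X ^ 3 * u)
        + PowerSeries.C W.a₃ * (PowerSeries.X ^ 3 * u) ^ 2
        + PowerSeries.C W.a₄ * PowerSeries.X * (PowerSeries.X ^ 3 * u) ^ 2
        + PowerSeries.C W.a₆ * (PowerSeries.X ^ 3 * u) ^ 3 := by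
  obtain ⟨u, hu⟩ := d5_exists_u W
  refine ⟨u, ?_, by simp, ?_⟩
  · rw [hu]
    simp
  · conv_lhs => rw [hu]
    ring

/-- D5a: the series `w(T) = T^3 (1 + ...)` -/
theorem exists_wser {R : Type} [CommRing R] (W : WeierstrassCurve R) :
    ∃! w : PowerSeries R, PowerSeries.constantCoeff w = 0 ∧
      w = PowerSeries.X ^ 3 + PowerSeries.C W.a₁ * PowerSeries.X * w
        + PowerSeries.C W.a₂ * PowerSeries.X ^ 2 * w + PowerSeries.C W.a₃ * w ^ 2
        + PowerSeries.C W.a₄ * PowerSeries.X * w ^ 2 + PowerSeries.C W.a₆ * w ^ 3 := by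
  obtain ⟨u, -, h0, h⟩ := d5_exists_wser W
  exact ⟨PowerSeries.X ^ 3 * u, ⟨h0, h⟩, fun w' hw' => d5_wser_unique W w' _ hw'.1 hw'.2 h0 h⟩

/-- the series `w(T)` -/
noncomputable def wser {R : Type} [CommRing R] (W : WeierstrassCurve R) : PowerSeries R :=
  (exists_wser W).choose

theorem wser_spec {R : Type} [CommRing R] (W : WeierstrassCurve R) :
    PowerSeries.constantCoeff (wser W) = 0 ∧
      wser W = PowerSeries.X ^ 3 + PowerSeries.C W.a₁ * PowerSeries.X * wser W
        + PowerSeries.C W.a₂ * PowerSeries.X ^ 2 * wser W + PowerSeries.C W.a₃ * wser W ^ 2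
        + PowerSeries.C W.a₄ * PowerSeries.X * wser W ^ 2 + PowerSeries.C W.a₆ * wser W ^ 3 :=
  (exists_wser W).choose_spec.1

theorem wser_eq {R : Type} [CommRing R] (W : WeierstrassCurve R) :
    ∃ u : PowerSeries R, PowerSeries.constantCoeff u = 1 ∧ wser W = PowerSeries.X ^ 3 * u := by
  obtain ⟨u, hu, h0, h⟩ := d5_exists_wser W
  exact ⟨u, hu, d5_wser_unique W _ _ (wser_spec W).1 (wser_spec W).2 h0 h⟩

theorem wser_map {R R' : Type} [CommRing R] [CommRing R'] (W : WeierstrassCurve R) (f : R →+* R') :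
    PowerSeries.map f (wser W) = wser (W.map f) := by
  refine d5_wser_unique (W.map f) _ _ ?_ ?_ (wser_spec _).1 (wser_spec _).2
  · have := (wser_spec W).1
    rw [← PowerSeries.coeff_zero_eq_constantCoeff_apply] at this ⊢
    rw [PowerSeries.coeff_map, this, map_zero]
  · conv_lhs => rw [(wser_spec W).2]
    simp only [map_add, map_mul, map_pow, PowerSeries.map_C, PowerSeries.map_X,
      WeierstrassCurve.map_a₁, WeierstrassCurve.map_a₂, WeierstrassCurve.map_a₃,
      WeierstrassCurve.map_a₄, WeierstrassCurve.map_a₆]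

/-! ### `psSubstFun` is a ring homomorphism -/

theorem psSubstFun_coeff (n : ℕ) (R : Type) [CommRing R] (i : Fin n) (f : PowerSeries R) (j : ℕ) :
    PowerSeries.coeff j (psSubstFun n R i f) =
      MvPolynomial.monomial (Finsupp.single i j) (PowerSeries.coeff j f) :=
  PowerSeries.coeff_mk _ _

theorem psSubstFun_add (n : ℕ) (R : Type) [CommRing R] (i : Fin n) (f g : PowerSeries R) :
    psSubstFun n R i (f + g) = psSubstFun n R i f + psSubstFun n R i g := by
  ext1 j
  rw [map_add, psSubstFun_coeff, psSubstFun_coeff, psSubstFun_coeff, map_add, map_add]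

theorem psSubstFun_mul (n : ℕ) (R : Type) [CommRing R] (i : Fin n) (f g : PowerSeries R) :
    psSubstFun n R i (f * g) = psSubstFun n R i f * psSubstFun n R i g := by
  ext1 j
  rw [psSubstFun_coeff, PowerSeries.coeff_mul, PowerSeries.coeff_mul, map_sum]
  refine Finset.sum_congr rfl (fun ab hab => ?_)
  rw [psSubstFun_coeff, psSubstFun_coeff, MvPolynomial.monomial_mul, ← Finsupp.single_add,
    Finset.HasAntidiagonal.mem_antidiagonal.1 hab]

theorem psSubstFun_C (n : ℕ) (R : Type) [CommRing R] (i : Fin n) (r : R) :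
    psSubstFun n R i (PowerSeries.C r) = PowerSeries.C (MvPolynomial.C r) := by
  ext1 j
  rw [psSubstFun_coeff, PowerSeries.coeff_C, PowerSeries.coeff_C]
  split_ifs with h
  · subst h
    rw [Finsupp.single_zero]
    rfl
  · simp

theorem psSubstFun_one (n : ℕ) (R : Type) [CommRing R] (i : Fin n) :
    psSubstFun n R i 1 = 1 := by
  have := psSubstFun_C n R i 1
  simpa using this

theorem psSubstFun_X (n : ℕ) (R : Type) [CommRing R] (i : Fin n) :
    psSubstFun n R i PowerSeries.X = psZW n R i := by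
  ext1 j
  unfold psZW
  rw [psSubstFun_coeff, PowerSeries.coeff_X, PowerSeries.coeff_C_mul, PowerSeries.coeff_X]
  split_ifs with h
  · subst h
    simp [MvPolynomial.X]
  · simp

/-- `f(T) ↦ f(z_i w)` as a ring homomorphism -/
noncomputable def psSubstHom (n : ℕ) (R : Type) [CommRing R] (i : Fin n) :
    PowerSeries R →+* PSr n R where
  toFun := psSubstFun n R i
  map_one' := psSubstFun_one n R i
  map_mul' := psSubstFun_mul n R i
  map_zero' := by
    have := psSubstFun_C n R i 0
    simpa using this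
  map_add' := psSubstFun_add n R i

theorem psSubstHom_apply (n : ℕ) (R : Type) [CommRing R] (i : Fin n) (f : PowerSeries R) :
    psSubstHom n R i f = psSubstFun n R i f := rfl

theorem psSubstFun_pow (n : ℕ) (R : Type) [CommRing R] (i : Fin n) (f : PowerSeries R) (m : ℕ) :
    psSubstFun n R i (f ^ m) = psSubstFun n R i f ^ m :=
  map_pow (psSubstHom n R i) f m

/-- the equation of `w` evaluated at `T = z_i w` -/
theorem psSubstFun_wser (n : ℕ) {R : Type} [CommRing R] (W : WeierstrassCurve R) (i : Fin n) :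
    psSubstFun n R i (wser W) = psZW n R i ^ 3
      + PowerSeries.C (MvPolynomial.C W.a₁) * psZW n R i * psSubstFun n R i (wser W)
      + PowerSeries.C (MvPolynomial.C W.a₂) * psZW n R i ^ 2 * psSubstFun n R i (wser W)
      + PowerSeries.C (MvPolynomial.C W.a₃) * psSubstFun n R i (wser W) ^ 2
      + PowerSeries.C (MvPolynomial.C W.a₄) * psZW n R i * psSubstFun n R i (wser W) ^ 2
      + PowerSeries.C (MvPolynomial.C W.a₆) * psSubstFun n R i (wser W) ^ 3 := by
  conv_lhs => rw [(wser_spec W).2]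
  simp only [psSubstFun_add, psSubstFun_mul, psSubstFun_pow, psSubstFun_C, psSubstFun_X]

theorem psSubstFun_wser_ne_zero (n : ℕ) {R : Type} [CommRing R] [Nontrivial R]
    (W : WeierstrassCurve R) (i : Fin n) : psSubstFun n R i (wser W) ≠ 0 := by
  intro h
  obtain ⟨u, hu, hw⟩ := wser_eq W
  have h3 : PowerSeries.coeff 3 (wser W) = 1 := by
    rw [hw, PowerSeries.coeff_X_pow_mul' ]
    simpa using hu
  have := congrArg (PowerSeries.coeff 3) h
  rw [psSubstFun_coeff, h3, map_zero, MvPolynomial.monomial_eq_zero] at this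
  exact one_ne_zero this

/-- `x`-coordinate of the formal point evaluated at `z_i w` -/
noncomputable def xhat (n : ℕ) {R : Type} [CommRing R] [IsDomain R] (W : WeierstrassCurve R) (i : Fin n) :
    PSf n R :=
  algebraMap (PSr n R) (PSf n R) (psZW n R i) / algebraMap (PSr n R) (PSf n R) (psSubstFun n R i (wser W))

/-- `y`-coordinate of the formal point evaluated at `z_i w` -/
noncomputable def yhat (n : ℕ) {R : Type} [CommRing R] [IsDomain R] (W : WeierstrassCurve R) (i : Fin n) :
    PSf n R :=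
  - 1 / algebraMap (PSr n R) (PSf n R) (psSubstFun n R i (wser W))

theorem d5_algebraMap_eq (n : ℕ) {R : Type} [CommRing R] [IsDomain R] (r : R) :
    algebraMap R (PSf n R) r =
      algebraMap (PSr n R) (PSf n R) (PowerSeries.C (MvPolynomial.C r)) := by
  rw [IsScalarTower.algebraMap_apply R (PSr n R) (PSf n R), PowerSeries.algebraMap_apply,
    MvPolynomial.algebraMap_eq]

theorem d5_omega_ne_zero (n : ℕ) {R : Type} [CommRing R] [IsDomain R] (W : WeierstrassCurve R)
    (i : Fin n) : algebraMap (PSr n R) (PSf n R) (psSubstFun n R i (wser W)) ≠ 0 := by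
  intro h
  rw [← map_zero (algebraMap (PSr n R) (PSf n R))] at h
  exact psSubstFun_wser_ne_zero n W i (IsFractionRing.injective (PSr n R) (PSf n R) h)

/-- D5b: `(xhat, yhat)` is a point -/
theorem formal_point (n : ℕ) {R : Type} [CommRing R] [IsDomain R] (W : WeierstrassCurve R) (i : Fin n) :
    (W.map (algebraMap R (PSf n R))).toAffine.Equation (xhat n W i) (yhat n W i) := by
  rw [WeierstrassCurve.Affine.equation_iff]
  have hω := d5_omega_ne_zero n W i
  have hE := congrArg (algebraMap (PSr n R) (PSf n R)) (psSubstFun_wser n W i)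
  simp only [map_add, map_mul, map_pow, ← d5_algebraMap_eq] at hE
  simp only [WeierstrassCurve.map_a₁, WeierstrassCurve.map_a₂, WeierstrassCurve.map_a₃,
    WeierstrassCurve.map_a₄, WeierstrassCurve.map_a₆]
  unfold xhat yhat
  generalize algebraMap (PSr n R) (PSf n R) (psSubstFun n R i (wser W)) = ω at hω hE ⊢
  generalize algebraMap (PSr n R) (PSf n R) (psZW n R i) = t at hE ⊢
  generalize algebraMap R (PSf n R) W.a₁ = A1 at hE ⊢
  generalize algebraMap R (PSf n R) W.a₂ = A2 at hE ⊢
  generalize algebraMap R (PSf n R) W.a₃ = A3 at hE ⊢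
  generalize algebraMap R (PSf n R) W.a₄ = A4 at hE ⊢
  generalize algebraMap R (PSf n R) W.a₆ = A6 at hE ⊢
  field_simp
  linear_combination hE

theorem psPerm_apply (n : ℕ) (R : Type) [CommRing R] (e : Equiv.Perm (Fin n)) (f : PSr n R) :
    psPerm n R e f = PowerSeries.map (MvPolynomial.rename e : _ →ₐ[R] _).toRingHom f := rfl

theorem psPerm_psZW (n : ℕ) (R : Type) [CommRing R] (e : Equiv.Perm (Fin n)) (i : Fin n) :
    psPerm n R e (psZW n R i) = psZW n R (e i) := by
  rw [psPerm_apply]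
  unfold psZW
  rw [map_mul, PowerSeries.map_C, PowerSeries.map_X]
  simp

theorem psPerm_psSubstFun (n : ℕ) (R : Type) [CommRing R] (e : Equiv.Perm (Fin n)) (i : Fin n)
    (f : PowerSeries R) : psPerm n R e (psSubstFun n R i f) = psSubstFun n R (e i) f := by
  rw [psPerm_apply]
  ext1 j
  rw [PowerSeries.coeff_map, psSubstFun_coeff, psSubstFun_coeff]
  simp [MvPolynomial.rename_monomial, Finsupp.mapDomain_single]

theorem d5_psShift_algebraMap (n : ℕ) (R : Type) [CommRing R] [IsDomain R] (a : PSr n R) :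
    psShift n R (algebraMap (PSr n R) (PSf n R) a) =
      algebraMap (PSr n R) (PSf n R) (psPerm n R (finRotate n) a) :=
  IsFractionRing.ringEquivOfRingEquiv_algebraMap (psPerm n R (finRotate n)) a

theorem psShift_xhat (n : ℕ) {R : Type} [CommRing R] [IsDomain R] (W : WeierstrassCurve R) (i : Fin n) :
    psShift n R (xhat n W i) = xhat n W (finRotate n i) ∧
      psShift n R (yhat n W i) = yhat n W (finRotate n i) := by
  unfold xhat yhat
  constructor
  · rw [map_div₀, d5_psShift_algebraMap, d5_psShift_algebraMap, psPerm_psZW, psPerm_psSubstFun]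
  · rw [map_div₀, map_neg, map_one, d5_psShift_algebraMap, psPerm_psSubstFun]

end Claimed.Agent.R280
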