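import Claimed.Agent.R280.Ell.Defs
import Claimed.Agent.R280.Val.Defs
import Claimed.Agent.R280.Ins.Defs

/-!
# Row 280, package Tw (translated cyclic twists): definitions

`k ⊆ k'` finite Galois, `σ` a generator of `Gal(k'/k)`, `W/k` a Weierstrass curve, `Q ∈ W(k')`.
* `IsTwist W σ Q M M' x y` : `M' = k'(x,y)` is the function field of `W` over `k'`, `M' = M ⊗_k k'`, and the automorphism
  `δ = id_M ⊗ σ` of `M'` satisfies `(δ x, δ y) = (x,y) + Q`.   So `M` is the function field of the twist of `W` by `σ ↦ -Q`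
  (descent action on points `R ↦ σ R - Q`).
* `RedCurve v r Wt W0`, `RedPt v r Q Qbar` : reduction of Weierstrass curves and of points.
* `ResSide p` (characteristic `p`, fields only), `FldBase p L` (valued fields `L ⊆ L1` over a `ResSide`),
  `TwBase p L XX extends FldBase p L` : the twisted marked curve AT ONE LEVEL `L` (finite over `K_s`): the valued fields `L ⊆ L1`, residue
  fields `F ⊆ S`, the twisted function fields `XX ⊆ XX1 = L1(xt,yt)`, `EE ⊆ ES = S(x0,y0)`, polarisation points `d j`, labels `ξ i`, their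
  reductions, and the numerical invariants `N` (index) and `u` (label rank defect).

FROZEN once landed (owner helper129).
-/

set_option autoImplicit false

namespace Claimed.Agent.R280

open WithZero WeierstrassCurve

structure IsTwist {k k' : Type} [Field k] [Field k'] [Algebra k k'] (W : WeierstrassCurve k)
    (σ : k' ≃ₐ[k] k') (Q : (W.baseChange k').toAffine.Point) (M M' : Type) [Field M] [Field M']
    [Algebra k M] [Algebra k' M'] [Algebra M M'] [Algebra k M'] [IsScalarTower k k' M']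
    [IsScalarTower k M M'] (x y : M') : Prop where
  wff : IsWFF (W.baseChange k') M' x y
  po : Algebra.IsPushout k k' M M'
  gen : ∀ τ : k' ≃ₐ[k] k', τ ∈ Subgroup.zpowers σ
  twist : ∃ δ : M' ≃ₐ[M] M', (∀ c : k', δ (algebraMap k' M' c) = algebraMap k' M' (σ c)) ∧
    IsTransBy (W.baseChange k') x y (δ x) (δ y) Q

/-- `W0` is the reduction of `Wt` -/
def RedCurve {L F : Type} [Field L] [Field F] (v : Valuation L ℚᵐ⁰) (r : ResMap v F)
    (Wt : WeierstrassCurve L) (W0 : WeierstrassCurve F) : Prop :=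
  (v Wt.a₁ ≤ 1 ∧ r.res Wt.a₁ = W0.a₁) ∧ (v Wt.a₂ ≤ 1 ∧ r.res Wt.a₂ = W0.a₂) ∧
  (v Wt.a₃ ≤ 1 ∧ r.res Wt.a₃ = W0.a₃) ∧ (v Wt.a₄ ≤ 1 ∧ r.res Wt.a₄ = W0.a₄) ∧
  (v Wt.a₆ ≤ 1 ∧ r.res Wt.a₆ = W0.a₆)

/-- the point `Qbar` is the reduction of `Q` -/
def RedPt {L F : Type} [Field L] [Field F] (v : Valuation L ℚᵐ⁰) (r : ResMap v F)
    {Wt : WeierstrassCurve L} {W0 : WeierstrassCurve F} :
    Wt.toAffine.Point → W0.toAffine.Point → Prop
  | .zero, .zero => True
  | .some a _ _, .zero => 1 < v a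
  | .zero, .some _ _ _ => False
  | .some a b _, .some a' b' _ => v a ≤ 1 ∧ v b ≤ 1 ∧ r.res a = a' ∧ r.res b = b'

/-- the `x`-coordinate of a point (junk `0` at the origin) -/
def ptX {k : Type} [Field k] {W : WeierstrassCurve k} : W.toAffine.Point → k
  | .zero => 0
  | .some a _ _ => a

open Classical in
/-- **The residue side** (characteristic `p`), field level: `F ⊆ S` cyclic with generator `σb`, the constant curve `W0`, the translation
point `Qb`, the polarisation points `db j`, the labels `t i`, the `p`-degree of `S` and the label rank defect `u`. -/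
structure ResSide (p : ℕ) [Fact p.Prime] where
  F : Type
  S : Type
  [fF : Field F]
  [fS : Field S]
  [aFS : Algebra F S]
  [cpF : CharP F p]
  [cpS : CharP S p]
  [infF : Infinite F]
  [finS : FiniteDimensional F S]
  [galS : IsGalois F S]
  σb : S ≃ₐ[F] S
  W0 : WeierstrassCurve F
  hΔ : W0.Δ ≠ 0
  Qb : (W0.baseChange S).toAffine.Point
  σb_gen : ∀ τ : S ≃ₐ[F] S, τ ∈ Subgroup.zpowers σb
  Qb_fix : Affine.Point.map (W' := W0.toAffine) σb.toAlgHom Qb = Qb
  Qb_tors : Module.finrank F S • Qb = 0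
  /-- polarisation points: a finite symmetric set containing the origin, stable under `R ↦ σ R - Q`.
  (SIGN: `δ f = f^σ (g + Q)`, so `(δ f)(R) = σ (f (σ⁻¹ (R + Q)))`: the place at `R` composed with `δ` is the place at
  `σ⁻¹ (R + Q)`; the inverse of this permutation of points is `R ↦ σ R - Q`.) -/
  Dn : Type
  [ftDn : Fintype Dn]
  db : Dn → (W0.baseChange S).toAffine.Point
  db_inj : Function.Injective db
  db_zero : ∃ j, db j = 0
  db_neg : ∀ j, ∃ j', db j' = - db j
  db_stable : ∀ j, ∃ j', db j' = Affine.Point.map (W' := W0.toAffine) σb.toAlgHom (db j) - Qb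
  /-- labels -/
  I : Type
  [ftI : Fintype I]
  [neI : Nonempty I]
  t : I → (W0.baseChange S).toAffine.Point
  t_inj : Function.Injective t
  t_neg : ∀ i i', t i ≠ - t i'
  t_d : ∀ i j, t i ≠ db j
  t_stable : ∀ i, ∃ i', t i' = Affine.Point.map (W' := W0.toAffine) σb.toAlgHom (t i) - Qb
  /-- the curve `W0` is constant: its coefficients are `p`-th powers in `F` (so every derivation kills them) -/
  const : (∃ c : F, c ^ p = W0.a₁) ∧ (∃ c : F, c ^ p = W0.a₂) ∧ (∃ c : F, c ^ p = W0.a₃) ∧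
    (∃ c : F, c ^ p = W0.a₄) ∧ (∃ c : F, c ^ p = W0.a₆)
  /-- `p`-degree of `S` -/
  pd : ℕ
  pdeg : Module.finrank (frobenius S p).fieldRange S = p ^ pd
  /-- label rank defect: the differentials of the `x`-coordinates of any set `A` of labels have rank `≥ |A| - u` -/
  u : ℕ
  rank : ∀ A : Finset I, A.card ≤ Module.finrank S
    (LinearMap.range ((LinearMap.pi fun i : A =>
      ({ toFun := fun θ : Der S => θ (ptX (t i.1))
         map_add' := fun _ _ => rfl
         map_smul' := fun _ _ => rfl } : Der S →ₗ[S] S)) : Der S →ₗ[S] (A → S))) + u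

attribute [instance] ResSide.fF ResSide.fS ResSide.aFS ResSide.cpF ResSide.cpS ResSide.infF
  ResSide.finS ResSide.galS ResSide.ftDn ResSide.ftI ResSide.neI

open Classical in
/-- "the class of the cocycle `σb ↦ Qb` has order divisible by `N`" -/
def ResSide.Cob {p : ℕ} [Fact p.Prime] (R : ResSide p) (N : ℕ) : Prop :=
  ∀ (v : (R.W0.baseChange R.S).toAffine.Point) (b : ℤ),
    Affine.Point.map (W' := R.W0.toAffine) R.σb.toAlgHom v - b • R.Qb = v → (N : ℤ) ∣ b

open Classical in
/-- **The field level of the twisted marked curve over the valued field `L`**: `L ⊆ L1` cyclic with generator `σ`, valuations with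
residue fields `F ⊆ S`, the curve `Wt` with good reduction `W0`, and lifts `Q`, `d j`, `ξ i` of `Qb`, `db j`, `t i`. -/
structure FldBase (p : ℕ) [Fact p.Prime] (L : Type) [Field L] where
  R : ResSide p
  L1 : Type
  [fL1 : Field L1]
  [aLL1 : Algebra L L1]
  [finL1 : FiniteDimensional L L1]
  [galL1 : IsGalois L L1]
  cz : CharZero L
  vL : Valuation L ℚᵐ⁰
  rL : ResMap vL R.F
  vL1 : Valuation L1 ℚᵐ⁰
  rL1 : ResMap vL1 R.S
  ext1 : ValExt vL1 vL
  rext1 : ResExt rL1 rL
  /-- unramified: `[L1 : L] = [S : F]` -/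
  deg_eq : Module.finrank L L1 = Module.finrank R.F R.S
  σ : L1 ≃ₐ[L] L1
  σ_val : ∀ a : L1, vL1 (σ a) = vL1 a
  σ_res : ∀ a : L1, vL1 a ≤ 1 → rL1.res (σ a) = R.σb (rL1.res a)
  Wt : WeierstrassCurve L
  red_W : RedCurve vL rL Wt R.W0
  Q : (Wt.baseChange L1).toAffine.Point
  red_Q : RedPt vL1 rL1 Q R.Qb
  σ_gen : ∀ τ : L1 ≃ₐ[L] L1, τ ∈ Subgroup.zpowers σ
  Q_fix : Affine.Point.map (W' := Wt.toAffine) σ.toAlgHom Q = Q
  Q_tors : Module.finrank L L1 • Q = 0
  d : R.Dn → (Wt.baseChange L1).toAffine.Point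
  red_d : ∀ j, RedPt vL1 rL1 (d j) (R.db j)
  d_zero : ∃ j, d j = 0
  d_neg : ∀ j, ∃ j', d j' = - d j
  d_stable : ∀ j, ∃ j', d j' = Affine.Point.map (W' := Wt.toAffine) σ.toAlgHom (d j) - Q
  ξ : R.I → (Wt.baseChange L1).toAffine.Point
  red_ξ : ∀ i, RedPt vL1 rL1 (ξ i) (R.t i)
  ξ_stable : ∀ i, ∃ i', ξ i' = Affine.Point.map (W' := Wt.toAffine) σ.toAlgHom (ξ i) - Q

attribute [instance] FldBase.fL1 FldBase.aLL1 FldBase.finL1 FldBase.galL1

/-- **The twisted marked curve at the level `L`**: field level + spherical completeness + the twisted function fields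
`XX ⊆ XX1 = L1(xt,yt)`, `EE ⊆ ES = S(x0,y0)` + the index `N` of `EE/F`. -/
structure TwBase (p : ℕ) [Fact p.Prime] (L XX : Type) [Field L] [Field XX] [Algebra L XX]
    extends FldBase p L where
  vL_surj : Function.Surjective vL
  sph : IsSphComplete vL
  XX1 : Type
  EE : Type
  ES : Type
  [fXX1 : Field XX1]
  [fEE : Field EE]
  [fES : Field ES]
  [aL1XX1 : Algebra L1 XX1]
  [aXXXX1 : Algebra XX XX1]
  [aLXX1 : Algebra L XX1]
  [tL1 : IsScalarTower L L1 XX1]
  [tL2 : IsScalarTower L XX XX1]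
  [aFEE : Algebra R.F EE]
  [aSES : Algebra R.S ES]
  [aEEES : Algebra EE ES]
  [aFES : Algebra R.F ES]
  [tF1 : IsScalarTower R.F R.S ES]
  [tF2 : IsScalarTower R.F EE ES]
  xt : XX1
  yt : XX1
  x0 : ES
  y0 : ES
  twL : IsTwist Wt σ Q XX XX1 xt yt
  twF : IsTwist R.W0 R.σb R.Qb EE ES x0 y0
  /-- the index -/
  N : ℕ
  index : ∀ P : Place R.F EE, N ∣ P.deg

attribute [instance] TwBase.fXX1 TwBase.fEE TwBase.fES TwBase.aL1XX1 TwBase.aXXXX1 TwBase.aLXX1
  TwBase.tL1 TwBase.tL2 TwBase.aFEE TwBase.aSES TwBase.aEEES TwBase.aFES TwBase.tF1 TwBase.tF2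

/-- the marked places of `XX`: the places under the labels -/
def TwBase.IsMarked {p : ℕ} [Fact p.Prime] {L XX : Type} [Field L] [Field XX] [Algebra L XX]
    (T : TwBase p L XX) (P : Place L XX) : Prop :=
  ∃ (i : T.R.I) (P1 : Place T.L1 T.XX1), P1.IsAtPt T.xt T.yt (T.ξ i) ∧ P1.Over P

/-- `Q'` is the image of the point `Q` under the ring homomorphism `f` -/
def PtMap {k k' : Type} [Field k] [Field k'] (f : k →+* k') {W : WeierstrassCurve k}
    {W' : WeierstrassCurve k'} : W.toAffine.Point → W'.toAffine.Point → Prop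
  | .zero, .zero => True
  | .some a b _, .some a' b' _ => f a = a' ∧ f b = b'
  | _, _ => False

/-- a valuation with discrete value group -/
def IsDiscVal {K : Type} [Field K] (v : Valuation K ℚᵐ⁰) : Prop :=
  ∃ ϖ : K, v ϖ < 1 ∧ ϖ ≠ 0 ∧ ∀ a : K, a ≠ 0 → ∃ j : ℤ, v a = v ϖ ^ j

/-- the fixed field of a ring automorphism -/
def fixF {K : Type} [Field K] (σ : K ≃+* K) : Subfield K where
  carrier := {a | σ a = a}
  mul_mem' := fun {a b} ha hb => by
    change _ = _ at *; rw [map_mul, ha, hb]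
  one_mem' := map_one σ
  add_mem' := fun {a b} ha hb => by
    change _ = _ at *; rw [map_add, ha, hb]
  zero_mem' := map_zero σ
  neg_mem' := fun {a} ha => by
    change _ = _ at *; rw [map_neg, ha]
  inv_mem' := fun a ha => by
    change _ = _ at *; rw [map_inv₀, ha]

/-- the marked places of `EE`: the places under the reduced labels -/
def TwBase.IsMarkedF {p : ℕ} [Fact p.Prime] {L XX : Type} [Field L] [Field XX] [Algebra L XX]
    (T : TwBase p L XX) (P : Place T.R.F T.EE) : Prop :=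
  ∃ (i : T.R.I) (P1 : Place T.R.S T.ES), P1.IsAtPt T.x0 T.y0 (T.R.t i) ∧ P1.Over P

end Claimed.Agent.R280
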