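import Claimed.Agent.R280.Tw.Defs

/-!
# Row 280, Tw/DiscDefs: the explicit rings of the construction A1
`κ = Kap p`;  `PSr n R = R[z_1..z_n][[w]]`, `PSf n R = Frac`, `psShift` = cyclic shift of the `z_i`, `psZW i = z_i w`, `psSubstFun i f = f(z_i w)`.
`F1 = PSf n κ`, `F0 = fixF (psShift n κ)`; `Kb1 = PSf n O_c`, `Kb = fixF (psShift n O_c)`.   Notes: origin/helper129:notes/R280_constr_notes.md (C0-C2, C4, C6, C7).
FROZEN (owner helper129).
-/

set_option autoImplicit false

namespace Claimed.Agent.R280

open WithZero WeierstrassCurve Cardinal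
open scoped Classical

/-- `κ = \bar F_p` -/
abbrev Kap (p : ℕ) [Fact p.Prime] : Type := AlgebraicClosure (ZMod p)

/-- `R[z_1..z_n][[w]]` -/
abbrev PSr (n : ℕ) (R : Type) [CommRing R] : Type := PowerSeries (MvPolynomial (Fin n) R)

/-- permutation of the variables `z_i`, on coefficients -/
noncomputable def psPerm (n : ℕ) (R : Type) [CommRing R] (e : Equiv.Perm (Fin n)) :
    PSr n R ≃+* PSr n R :=
  RingEquiv.ofRingHom (PowerSeries.map (MvPolynomial.rename e : _ →ₐ[R] _).toRingHom)
    (PowerSeries.map (MvPolynomial.rename e.symm : _ →ₐ[R] _).toRingHom)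
    (by ext f : 1; ext j : 1; simp [MvPolynomial.rename_rename])
    (by ext f : 1; ext j : 1; simp [MvPolynomial.rename_rename])

/-- change of coefficients -/
noncomputable def psMap (n : ℕ) {R R' : Type} [CommRing R] [CommRing R'] (f : R →+* R') :
    PSr n R →+* PSr n R' := PowerSeries.map (MvPolynomial.map f)

/-- `Frac R[z_1..z_n][[w]]`.  A `def`, NOT an `abbrev`: Mathlib has a non-classical `DecidableEq (FractionRing _)`, which would give
a group law on `W(PSf n R)` that is not definitionally the one used in `ResSide`, `FldBase` (classical instance). -/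
def PSf (n : ℕ) (R : Type) [CommRing R] : Type := FractionRing (PSr n R)

noncomputable instance (n : ℕ) (R : Type) [CommRing R] [IsDomain R] : Field (PSf n R) :=
  inferInstanceAs (Field (FractionRing (PSr n R)))

noncomputable instance (n : ℕ) (R : Type) [CommRing R] [IsDomain R] : Algebra (PSr n R) (PSf n R) :=
  inferInstanceAs (Algebra (PSr n R) (FractionRing (PSr n R)))

instance (n : ℕ) (R : Type) [CommRing R] [IsDomain R] : IsFractionRing (PSr n R) (PSf n R) :=
  inferInstanceAs (IsFractionRing (PSr n R) (FractionRing (PSr n R)))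

noncomputable instance (n : ℕ) (R : Type) [CommRing R] [IsDomain R] : Algebra R (PSf n R) :=
  inferInstanceAs (Algebra R (FractionRing (PSr n R)))

instance (n : ℕ) (R : Type) [CommRing R] [IsDomain R] : IsScalarTower R (PSr n R) (PSf n R) :=
  inferInstanceAs (IsScalarTower R (PSr n R) (FractionRing (PSr n R)))

/-- the cyclic shift on `Frac R[z][[w]]` -/
noncomputable def psShift (n : ℕ) (R : Type) [CommRing R] [IsDomain R] : PSf n R ≃+* PSf n R :=
  IsFractionRing.ringEquivOfRingEquiv (psPerm n R (finRotate n))

/-- the element `z_i w` -/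
noncomputable def psZW (n : ℕ) (R : Type) [CommRing R] (i : Fin n) : PSr n R :=
  PowerSeries.C (MvPolynomial.X i) * PowerSeries.X

/-- `f(T) ↦ f(z_i w)` on coefficients -/
noncomputable def psSubstFun (n : ℕ) (R : Type) [CommRing R] (i : Fin n) (f : PowerSeries R) :
    PSr n R :=
  PowerSeries.mk fun j => MvPolynomial.monomial (Finsupp.single i j) (PowerSeries.coeff j f)

end Claimed.Agent.R280
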