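import Claimed.Agent.R280.Tw.Defs

/-!
# Row 280, Tw/LvlDefs: `FldBC B B'` = `B'` (over `L`) is a base change of `B` (over `K`).  FROZEN (owner helper129).
-/

set_option autoImplicit false

namespace Claimed.Agent.R280

open WithZero WeierstrassCurve Cardinal
open scoped Classical

variable {p : ℕ} [Fact p.Prime]

/-- `B'` (over `L`) is a base change of `B` (over `K`)  (only what thm B, `Tw/B5.lean`, uses) -/
structure FldBC {K L : Type} [Field K] [Field L] [Algebra K L] (B : FldBase p K)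
    (B' : FldBase p L) where
  i1 : B.L1 →+* B'.L1
  iF : B.R.F →+* B'.R.F
  iS : B.R.S →+* B'.R.S
  i1_comm : ∀ c : K, i1 (algebraMap K B.L1 c) = algebraMap L B'.L1 (algebraMap K L c)
  iS_comm : ∀ c : B.R.F, iS (algebraMap B.R.F B.R.S c) = algebraMap B'.R.F B'.R.S (iF c)
  gen1 : Algebra.adjoin L (Set.range i1) = ⊤
  intS : iS.IsIntegral
  degF : @Module.finrank B.R.F B'.R.F _ _ iF.toAlgebra.toModule = Module.finrank K L
  a : ℕ
  σ_comm : ∀ c : B.L1, B'.σ (i1 c) = i1 ((B.σ ^ a) c)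
  σb_comm : ∀ c : B.R.S, B'.R.σb (iS c) = iS ((B.R.σb ^ a) c)
  Wt_eq : B'.Wt = B.Wt.map (algebraMap K L)
  W0_eq : B'.R.W0 = B.R.W0.map iF
  Q_eq : PtMap i1 (a • B.Q) B'.Q
  Qb_eq : PtMap iS (a • B.R.Qb) B'.R.Qb
  eI : B.R.I ≃ B'.R.I
  ξ_eq : ∀ i, PtMap i1 (B.ξ i) (B'.ξ (eI i))

end Claimed.Agent.R280
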