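import Claimed.Agent.R280.Ins.FromTw

/-!
# Row 280, package TW-C (designer helper66; PROVED from the leaves TC1-TC4 of Ins/FromTw.lean + GA0 + `ins_main`): **thm C** the genus estimate at one level: `InsData` from the residue side of `TwBase`
frame `D 0` = invariant derivation, `D k` = basis of `Der S` on coefficients (`IsWFF.frame`), `cov i = (u_i, - θ_k (x t_i))`, uniformiser `x - x(t_i)`, rank from `ResSide.rank`, index, `chi0` (Ell3), `tS_iff` from `t_stable` + `IsTwist.same_below_iff`.
-/

set_option autoImplicit false

namespace Claimed.Agent.R280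

open WithZero WeierstrassCurve Cardinal
open scoped Classical

variable {p : ℕ} [Fact p.Prime]

/-- **thm C** (the genus estimate at one level) -/
theorem TwBase.insepGenus {L XX : Type} [Field L] [Field XX] [Algebra L XX] (T : TwBase p L XX)
    (m : ℕ) (hm : m * (T.R.u + Nat.log p m) < T.N) {Lam : Type} [Fintype Lam]
    (t : Lam → Place T.R.F T.EE) (ht : Function.Injective t)
    (ht' : ∀ P, P ∈ Set.range t ↔ T.IsMarkedF P) : InsepGenus T.R.F T.EE t m :=
  T.insepGenus_pf m hm t ht ht'

end Claimed.Agent.R280
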